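import Vale.Agent.P113.ChainHalts

/-!
# A fixed finite TM0 machine to which the halting problem of all machines reduces

The chain from Mathlib: partial recursive functions, `ToPartrec.Code`, TM2, TM1, TM0.
-/

open Turing StateTransition

namespace Vale.Agent.P113

section Generic

variable {K : Type} [DecidableEq K] [Fintype K] {Γ : K → Type} [∀ k, Fintype (Γ k)]
  {Λ : Type} [Inhabited Λ] {σ : Type} [Inhabited σ] [Fintype σ]

/-- A finitely supported TM2 machine is simulated by a TM0 machine with finitely many states and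
symbols. -/
theorem tm2_to_tm0 (M₂ : Λ → TM2.Stmt Γ Λ σ) (S : Finset Λ) (ss₂ : TM2.Supports M₂ S) :
    ∃ (Λ₀ : Type) (_ : Fintype Λ₀) (_ : DecidableEq Λ₀) (_ : Inhabited Λ₀)
      (M : TM0.Machine (TM2to1.Γ' K Γ) Λ₀),
      ∀ (k : K) (L : List (Γ k)),
        (TM0.eval M (TM2to1.trInit k L)).Dom ↔ (TM2.eval M₂ k L).Dom := by
  classical
  let M₁ := TM2to1.tr (σ := σ) M₂
  have ss₁ : TM1.Supports M₁ (TM2to1.trSupp M₂ S) := TM2to1.tr_supports M₂ ss₂
  let S₀ := TM1to0.trStmts M₁ (TM2to1.trSupp M₂ S)
  have ss₀ : TM0.Supports (TM1to0.tr M₁) (↑S₀ : Set (TM1to0.Λ' M₁)) := TM1to0.tr_supports M₁ ss₁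
  let Λ₀ : Type := {q : TM1to0.Λ' M₁ // q ∈ S₀}
  have hdef : (default : TM1to0.Λ' M₁) ∈ S₀ := ss₀.1
  let instΛ₀ : Inhabited Λ₀ := ⟨⟨default, hdef⟩⟩
  let g₁ : PointedMap (TM1to0.Λ' M₁) Λ₀ :=
    ⟨fun q => if h : q ∈ S₀ then ⟨q, h⟩ else default, by simp [hdef]; rfl⟩
  let g₂ : Λ₀ → TM1to0.Λ' M₁ := Subtype.val
  let f₀ : PointedMap (TM2to1.Γ' K Γ) (TM2to1.Γ' K Γ) := ⟨id, rfl⟩
  have hg : ∀ q ∈ (↑S₀ : Set (TM1to0.Λ' M₁)), g₂ (g₁ q) = q := by
    intro q hq
    have hq' : q ∈ S₀ := hq
    show ((if h : q ∈ S₀ then ⟨q, h⟩ else default : Λ₀) : TM1to0.Λ' M₁) = q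
    rw [dif_pos hq']
  have hf : Function.RightInverse f₀ f₀ := fun _ => rfl
  have hresp := TM0.Machine.map_respects (TM1to0.tr M₁) f₀ f₀ g₁ g₂ ss₀ hf hg
  refine ⟨Λ₀, inferInstance, inferInstance, instΛ₀, (TM1to0.tr M₁).map f₀ f₀ g₁ g₂, ?_⟩
  intro k L
  rw [← TM2to1.tr_eval_dom M₂ k L, ← TM1to0.tr_eval M₁ (TM2to1.trInit k L)]
  have hinit : TM0.Cfg.map f₀ g₁ (TM0.init (TM2to1.trInit k L))
      = TM0.init (Λ := Λ₀) (TM2to1.trInit k L) := by
    have := TM0.map_init f₀ g₁ (TM2to1.trInit k L)
    simpa [f₀, PointedMap.mk_val] using this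
  exact tr_eval_dom hresp ⟨ss₀.1, hinit⟩

end Generic

/-- The four stacks form a finite type. -/
instance fintypeK' : Fintype PartrecToTM2.K' :=
  ⟨{PartrecToTM2.K'.main, PartrecToTM2.K'.rev, PartrecToTM2.K'.aux, PartrecToTM2.K'.stack}, by
    intro x; cases x <;> simp⟩

/-- Domain of the TM2 machine of a code. -/
theorem tm2_eval_dom (c : ToPartrec.Code) (v : List ℕ) :
    (@TM2.eval PartrecToTM2.K' (fun _ => PartrecToTM2.Γ') PartrecToTM2.Λ' (Option PartrecToTM2.Γ')
      ⟨PartrecToTM2.trNormal c PartrecToTM2.Cont'.halt⟩ _ _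
      PartrecToTM2.tr PartrecToTM2.K'.main (PartrecToTM2.trList v)).Dom ↔ (c.eval v).Dom := by
  have h := PartrecToTM2.tr_eval c v
  have h2 : @TM2.init PartrecToTM2.K' (fun _ => PartrecToTM2.Γ') PartrecToTM2.Λ'
      (Option PartrecToTM2.Γ') ⟨PartrecToTM2.trNormal c PartrecToTM2.Cont'.halt⟩ _ _
      PartrecToTM2.K'.main (PartrecToTM2.trList v) = PartrecToTM2.init c v := by
    unfold TM2.init PartrecToTM2.init
    congr 1
    funext k
    cases k <;> rfl
  unfold TM2.eval
  rw [h2]
  simp only [Part.map_Dom]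
  rw [h]
  simp

/-! ### The binary digits of a number and the initial tape -/

/-- The digit of `Γ'` coded by a boolean. -/
def bitSym (b : Bool) : PartrecToTM2.Γ' := cond b PartrecToTM2.Γ'.bit1 PartrecToTM2.Γ'.bit0

theorem trPosNum_eq_bits (p : PosNum) :
    PartrecToTM2.trPosNum p = (Nat.bits (p : ℕ)).map bitSym := by
  induction p with
  | one => simp [PartrecToTM2.trPosNum, bitSym, Nat.bits]
  | bit0 p ih =>
    have hp : (p : ℕ) ≠ 0 := by
      have := PosNum.cast_pos (α := ℕ) p
      omega
    have : ((PosNum.bit0 p : PosNum) : ℕ) = Nat.bit false (p : ℕ) := by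
      simp [Nat.bit, PosNum.cast_bit0]; omega
    rw [this, Nat.bits_append_bit _ _ (fun h => absurd h hp)]
    simp [PartrecToTM2.trPosNum, ih, bitSym]
  | bit1 p ih =>
    have : ((PosNum.bit1 p : PosNum) : ℕ) = Nat.bit true (p : ℕ) := by
      simp [Nat.bit, PosNum.cast_bit1]; omega
    rw [this, Nat.bits_append_bit _ _ (fun _ => rfl)]
    simp [PartrecToTM2.trPosNum, ih, bitSym]

theorem trNat_eq_bits (n : ℕ) : PartrecToTM2.trNat n = (Nat.bits n).map bitSym := by
  unfold PartrecToTM2.trNat
  have h : ∀ a : Num, PartrecToTM2.trNum a = (Nat.bits (a : ℕ)).map bitSym := by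
    intro a
    cases a with
    | zero => simp [PartrecToTM2.trNum]
    | pos p => simpa [PartrecToTM2.trNum] using trPosNum_eq_bits p
  rw [h, Num.to_of_nat]

/-- One step of the computation of the digits of a number, from the least significant one, consing
them onto an accumulator. -/
def bitStep (x : ℕ × List Bool) : ℕ × List Bool :=
  if x.1 = 0 then x else (Nat.div2 x.1, Nat.bodd x.1 :: x.2)

theorem bitStep_iter (k m : ℕ) (acc : List Bool) (hm : m ≤ k) :
    (bitStep^[k] (m, acc)).2 = (Nat.bits m).reverse ++ acc := by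
  induction k generalizing m acc with
  | zero =>
    obtain rfl : m = 0 := by omega
    simp
  | succ k ih =>
    rw [Function.iterate_succ_apply]
    by_cases h0 : m = 0
    · subst h0
      have : bitStep (0, acc) = (0, acc) := by simp [bitStep]
      rw [this, ih 0 acc (Nat.zero_le _)]
    · have : bitStep (m, acc) = (Nat.div2 m, Nat.bodd m :: acc) := by simp [bitStep, h0]
      rw [this, ih _ _ (by rw [Nat.div2_val]; omega)]
      have hb : Nat.bits m = Nat.bodd m :: Nat.bits (Nat.div2 m) := by
        conv_lhs => rw [← Nat.bit_bodd_div2 m]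
        refine Nat.bits_append_bit _ _ ?_
        intro hd
        have := Nat.bit_bodd_div2 m
        rw [hd] at this
        cases hodd : Nat.bodd m with
        | true => rfl
        | false =>
          rw [hodd] at this
          exact absurd this.symm (by simpa using h0)
      rw [hb]
      simp

/-- The reversed digits of a number form a primitive recursive list. -/
theorem primrec_bits_reverse : Primrec (fun n : ℕ => (Nat.bits n).reverse) := by
  have hstep : Primrec bitStep := by
    refine Primrec.ite (c := fun x : ℕ × List Bool => x.1 = 0) ?_ Primrec.id ?_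
    · exact (Primrec.eq (α := ℕ)).comp Primrec.fst (Primrec.const 0)
    · exact Primrec.pair (Primrec.nat_div2.comp Primrec.fst)
        (Primrec.list_cons.comp (Primrec.nat_bodd.comp Primrec.fst) Primrec.snd)
  have h : Primrec (fun n : ℕ => (bitStep^[n] (n, [])).2) :=
    Primrec.snd.comp (Primrec.nat_iterate (f := fun n : ℕ => n) (g := fun n => (n, []))
      (h := fun _ x => bitStep x) Primrec.id (Primrec.pair Primrec.id (Primrec.const []))
      (hstep.comp Primrec.snd))
  exact h.of_eq fun n => by rw [bitStep_iter n n [] le_rfl, List.append_nil]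

/-- The initial tape of the TM1 machine on a number. -/
theorem trInit_trList (n : ℕ) :
    TM2to1.trInit (Γ := fun _ : PartrecToTM2.K' => PartrecToTM2.Γ') PartrecToTM2.K'.main
        (PartrecToTM2.trList [n])
      = (true, Function.update (fun _ => none) PartrecToTM2.K'.main (some PartrecToTM2.Γ'.cons))
        :: ((Nat.bits n).reverse.map fun b =>
          (false, Function.update (fun _ => none) PartrecToTM2.K'.main (some (bitSym b)))) := by
  have h1 : (PartrecToTM2.trList [n]).reverse
      = PartrecToTM2.Γ'.cons :: (Nat.bits n).reverse.map bitSym := by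
    simp [PartrecToTM2.trList, trNat_eq_bits, List.map_reverse]
  unfold TM2to1.trInit
  simp only
  rw [h1]
  exact congrArg (List.cons _) (List.map_map ..)

/-- A fixed machine with finitely many states and symbols, and a computable reduction. -/
theorem chain_main :
    ∃ (Γ Λ : Type) (_ : Fintype Γ) (_ : DecidableEq Γ) (_ : Inhabited Γ)
      (_ : Fintype Λ) (_ : DecidableEq Λ) (_ : Inhabited Λ)
      (M : TM0.Machine Γ Λ) (L : Machine × List ℕ → List Γ),
      (∀ ψ : Γ → ℕ × ℕ × ℕ, Computable (fun mw => (L mw).map ψ)) ∧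
      ∀ mw, Halts mw.1 mw.2 ↔ (TM0.eval M (L mw)).Dom := by
  classical
  obtain ⟨g, hg, hdom⟩ := halts_partrec
  -- the underlying partial recursive function on numbers
  let h : ℕ →. ℕ := fun n => Part.bind (Encodable.decode (α := Machine × List ℕ) n : Part _)
    fun a => (g a).map Encodable.encode
  have hh : Partrec h := Partrec.nat_iff.2 hg
  have hh' : Partrec (fun v : List.Vector ℕ 1 => h v.head) :=
    hh.comp Computable.vector_head
  obtain ⟨c₀, hc₀⟩ := ToPartrec.Code.exists_code (Nat.Partrec'.of_part hh')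
  have hevalDom : ∀ mw : Machine × List ℕ, (c₀.eval [Encodable.encode mw]).Dom ↔ Halts mw.1 mw.2 := by
    intro mw
    have := hc₀ ⟨[Encodable.encode mw], rfl⟩
    change c₀.eval [Encodable.encode mw] = pure <$> h (Encodable.encode mw) at this
    rw [this, ← hdom mw]
    have hd : h (Encodable.encode mw) = (g mw).map Encodable.encode := by
      simp only [h]
      rw [Encodable.encodek]
      simp
    rw [hd]
    simp
  obtain ⟨Λ₀, i₁, i₂, i₃, M, hM⟩ := @tm2_to_tm0 PartrecToTM2.K' _ _ (fun _ => PartrecToTM2.Γ') _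
    PartrecToTM2.Λ' ⟨PartrecToTM2.trNormal c₀ PartrecToTM2.Cont'.halt⟩
    (Option PartrecToTM2.Γ') _ _ PartrecToTM2.tr (PartrecToTM2.codeSupp c₀ PartrecToTM2.Cont'.halt)
    (PartrecToTM2.tr_supports c₀ PartrecToTM2.Cont'.halt)
  refine ⟨TM2to1.Γ' PartrecToTM2.K' (fun _ => PartrecToTM2.Γ'), Λ₀, TM2to1.Γ'.fintype,
    inferInstance, TM2to1.Γ'.inhabited, i₁, i₂, i₃, M,
    fun mw => TM2to1.trInit (Γ := fun _ : PartrecToTM2.K' => PartrecToTM2.Γ')
      PartrecToTM2.K'.main (PartrecToTM2.trList [Encodable.encode mw]), ?_, ?_⟩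
  · intro ψ
    have hmain : Primrec (fun n : ℕ => ψ (true, Function.update (fun _ => none)
          PartrecToTM2.K'.main (some PartrecToTM2.Γ'.cons))
        :: ((Nat.bits n).reverse.map fun b =>
          cond b
            (ψ (false, Function.update (fun _ => none) PartrecToTM2.K'.main
              (some PartrecToTM2.Γ'.bit1)))
            (ψ (false, Function.update (fun _ => none) PartrecToTM2.K'.main
              (some PartrecToTM2.Γ'.bit0))))) := by
      refine Primrec.list_cons.comp (Primrec.const _) ?_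
      refine Primrec.list_map primrec_bits_reverse ?_
      exact Primrec.cond Primrec.snd (Primrec.const _) (Primrec.const _)
    have hcomp := hmain.to_comp.comp (Computable.encode (α := Machine × List ℕ))
    refine hcomp.of_eq fun mw => ?_
    change _ = List.map ψ (TM2to1.trInit (Γ := fun _ : PartrecToTM2.K' => PartrecToTM2.Γ')
      PartrecToTM2.K'.main (PartrecToTM2.trList [Encodable.encode mw]))
    rw [trInit_trList]
    refine congrArg (List.cons _) ?_
    refine Eq.trans ?_ (List.map_map ..).symm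
    refine List.map_congr_left fun b _ => ?_
    cases b <;> rfl
  · intro mw
    rw [hM, tm2_eval_dom, hevalDom]

end Vale.Agent.P113
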