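import Vale.Agent.P113.Defs

/-!
# The halting of the machines of the statement is semidecidable
-/

open Primrec

namespace Vale.Agent.P113

/-- `List.find?` as a right fold. -/
theorem find_eq_foldr {α : Type*} (p : α → Bool) (l : List α) :
    l.find? p = l.foldr (fun a r => cond (p a) (some a) r) none := by
  induction l with
  | nil => rfl
  | cons a l ih =>
    simp only [List.find?_cons, List.foldr_cons, ih]
    cases p a <;> rfl

/-- The search for an applicable rule is primitive recursive. -/
theorem primrec_findRule :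
    Primrec (fun x : Machine × Config =>
      x.1.1.find? (fun r => decide (r.1 = x.2.1) && decide (r.2.1 = x.2.2.2.headI))) := by
  have hp : Primrec (fun y : (Machine × Config) × Rule =>
      decide (y.2.1 = y.1.2.1) && decide (y.2.2.1 = y.1.2.2.2.headI)) := by
    refine Primrec.and.comp ?_ ?_
    · exact (Primrec.eq (α := ℕ)).decide.comp (fst.comp snd) (fst.comp (snd.comp fst))
    · exact (Primrec.eq (α := ℕ)).decide.comp (fst.comp (snd.comp snd))
        (list_headI.comp (snd.comp (snd.comp (snd.comp fst))))
  have h : Primrec (fun x : Machine × Config =>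
      x.1.1.foldr (fun r acc => cond (decide (r.1 = x.2.1) && decide (r.2.1 = x.2.2.2.headI))
        (some r) acc) none) := by
    refine list_foldr (h := fun (x : Machine × Config) (z : Rule × Option Rule) =>
      cond (decide (z.1.1 = x.2.1) && decide (z.1.2.1 = x.2.2.2.headI)) (some z.1) z.2)
      (fst.comp fst) (Primrec.const none) ?_
    refine Primrec.cond (c := fun p : (Machine × Config) × (Rule × Option Rule) =>
        decide (p.2.1.1 = p.1.2.1) && decide (p.2.1.2.1 = p.1.2.2.2.headI)) ?_ ?_ ?_
    · exact hp.comp (Primrec.pair fst (fst.comp snd))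
    · exact option_some.comp (fst.comp snd)
    · exact snd.comp snd
  exact h.of_eq fun x => (find_eq_foldr _ _).symm

/-- The step function written with primitive recursive eliminators. -/
theorem step_eq (M : Machine) (c : Config) :
    step M c =
      (M.1.find? (fun r => decide (r.1 = c.1) && decide (r.2.1 = c.2.2.headI))).casesOn c
        (fun r => (r.2.2.2.2 : Option Bool).casesOn
          (r.2.2.1, c.2.1, r.2.2.2.1 :: c.2.2.tail)
          (fun b => cond b (r.2.2.1, r.2.2.2.1 :: c.2.1, c.2.2.tail)
            (r.2.2.1, c.2.1.tail, c.2.1.headI :: r.2.2.2.1 :: c.2.2.tail))) := by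
  unfold step
  cases h : M.1.find? (fun r => decide (r.1 = c.1) && decide (r.2.1 = c.2.2.headI)) with
  | none => rfl
  | some r =>
    rcases r with ⟨q, a, q', a', m⟩
    rcases m with _ | b
    · rfl
    · cases b <;> rfl

/-- One machine step is primitive recursive. -/
theorem primrec_step : Primrec (fun x : Machine × Config => step x.1 x.2) := by
  have hfind := primrec_findRule
  -- abbreviations for the data in the innermost contexts
  have hq' : Primrec (fun y : (Machine × Config) × Rule => y.2.2.2.1) :=
    fst.comp (snd.comp (snd.comp snd))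
  have ha' : Primrec (fun y : (Machine × Config) × Rule => y.2.2.2.2.1) :=
    fst.comp (snd.comp (snd.comp (snd.comp snd)))
  have hm : Primrec (fun y : (Machine × Config) × Rule => y.2.2.2.2.2) :=
    snd.comp (snd.comp (snd.comp (snd.comp snd)))
  have hL : Primrec (fun y : (Machine × Config) × Rule => y.1.2.2.1) :=
    fst.comp (snd.comp (snd.comp fst))
  have hR : Primrec (fun y : (Machine × Config) × Rule => y.1.2.2.2) :=
    snd.comp (snd.comp (snd.comp fst))
  have hA : Primrec (fun y : (Machine × Config) × Rule =>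
      ((y.2.2.2.1, y.1.2.2.1, y.2.2.2.2.1 :: y.1.2.2.2.tail) : Config)) :=
    Primrec.pair hq' (Primrec.pair hL (list_cons.comp ha' (list_tail.comp hR)))
  have hB : Primrec (fun y : (Machine × Config) × Rule =>
      ((y.2.2.2.1, y.2.2.2.2.1 :: y.1.2.2.1, y.1.2.2.2.tail) : Config)) :=
    Primrec.pair hq' (Primrec.pair (list_cons.comp ha' hL) (list_tail.comp hR))
  have hC : Primrec (fun y : (Machine × Config) × Rule =>
      ((y.2.2.2.1, y.1.2.2.1.tail, y.1.2.2.1.headI :: y.2.2.2.2.1 :: y.1.2.2.2.tail) : Config)) :=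
    Primrec.pair hq' (Primrec.pair (list_tail.comp hL)
      (list_cons.comp (list_headI.comp hL) (list_cons.comp ha' (list_tail.comp hR))))
  have hinner : Primrec (fun y : (Machine × Config) × Rule =>
      (Option.casesOn (y.2.2.2.2.2 : Option Bool)
        ((y.2.2.2.1, y.1.2.2.1, y.2.2.2.2.1 :: y.1.2.2.2.tail) : Config)
        (fun b => cond b (y.2.2.2.1, y.2.2.2.2.1 :: y.1.2.2.1, y.1.2.2.2.tail)
          (y.2.2.2.1, y.1.2.2.1.tail, y.1.2.2.1.headI :: y.2.2.2.2.1 :: y.1.2.2.2.tail)) : Config)) := by
    refine option_casesOn hm hA ?_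
    exact Primrec.cond snd (hB.comp fst) (hC.comp fst)
  have hmain : Primrec (fun x : Machine × Config =>
      (Option.casesOn (x.1.1.find? (fun r => decide (r.1 = x.2.1) && decide (r.2.1 = x.2.2.2.headI)))
        x.2
        (fun r => Option.casesOn (r.2.2.2.2 : Option Bool)
          ((r.2.2.1, x.2.2.1, r.2.2.2.1 :: x.2.2.2.tail) : Config)
          (fun b => cond b (r.2.2.1, r.2.2.2.1 :: x.2.2.1, x.2.2.2.tail)
            (r.2.2.1, x.2.2.1.tail, x.2.2.1.headI :: r.2.2.2.1 :: x.2.2.2.tail))) : Config)) :=
    option_casesOn hfind snd hinner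
  exact hmain.of_eq fun x => (step_eq x.1 x.2).symm

/-- The configuration after `n` steps is primitive recursive. -/
theorem primrec_iter :
    Primrec (fun z : (Machine × List ℕ) × ℕ => (step z.1.1)^[z.2] (init z.1.2)) := by
  refine Primrec.nat_iterate (f := fun z : (Machine × List ℕ) × ℕ => z.2)
    (g := fun z => init z.1.2) (h := fun z c => step z.1.1 c) snd ?_ ?_
  · exact Primrec.pair (Primrec.const 0) (Primrec.pair (Primrec.const []) (snd.comp fst))
  · exact primrec_step.comp (Primrec.pair (fst.comp (fst.comp fst)) snd)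

/-- The halting test is primitive recursive. -/
theorem primrec_test : Primrec (fun z : (Machine × List ℕ) × ℕ =>
    decide (((step z.1.1)^[z.2] (init z.1.2)).1 ∈ z.1.1.2)) := by
  have h : PrimrecRel (fun (L : List ℕ) (q : ℕ) => ∃ a ∈ L, a = q) :=
    (Primrec.eq (α := ℕ)).exists_mem_list
  have h2 : Primrec (fun z : (Machine × List ℕ) × ℕ =>
      decide (∃ a ∈ z.1.1.2, a = ((step z.1.1)^[z.2] (init z.1.2)).1)) :=
    h.decide.comp (snd.comp (fst.comp fst)) (fst.comp primrec_iter)
  refine h2.of_eq fun z => ?_
  simp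

/-- The halting of machines is semidecidable. -/
theorem halts_partrec :
    ∃ g : Machine × List ℕ →. ℕ, Partrec g ∧ ∀ mw, (g mw).Dom ↔ Halts mw.1 mw.2 := by
  let p : Machine × List ℕ → ℕ →. Bool := fun mw n => Part.some
    (decide (((step mw.1)^[n] (init mw.2)).1 ∈ mw.1.2))
  refine ⟨fun mw => Nat.rfind (p mw), ?_, ?_⟩
  · exact Partrec.rfind (p := p) primrec_test.to_comp.partrec
  · intro mw
    change (Nat.rfind (p mw)).Dom ↔ _
    rw [Nat.rfind_dom]
    constructor
    · rintro ⟨n, hn, -⟩
      have hn' : true = decide (((step mw.1)^[n] (init mw.2)).1 ∈ mw.1.2) := Part.mem_some_iff.1 hn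
      exact ⟨n, of_decide_eq_true hn'.symm⟩
    · rintro ⟨n, hn⟩
      refine ⟨n, Part.mem_some_iff.2 (decide_eq_true hn).symm, ?_⟩
      intro m _
      exact Part.dom_iff_mem.2 ⟨_, Part.mem_some _⟩

end Vale.Agent.P113
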