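import Vale.Agent.P113.Defs

/-!
# Computable families of real numbers

`CompR r`: the family `r : I → ℝ` is uniformly computable: there is a computable map giving, for
each index `i` and `n`, a rational within `2^{-n}` of `r i`.
-/

open scoped ContDiff

namespace Vale.Agent.P113

/-- The family `r : I → ℝ` is uniformly computable. -/
def CompR {I : Type*} [Primcodable I] (r : I → ℝ) : Prop :=
  ∃ φ : I → ℕ → RatCode, Computable₂ φ ∧ ∀ i n, |r i - ratVal (φ i n)| ≤ (1 / 2 : ℝ) ^ n

/-! ### Arithmetic on rational codes -/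

/-- Sum of two rational codes. -/
def ratAdd (r s : RatCode) : RatCode :=
  (r.1 * (s.2.2 + 1) + s.1 * (r.2.2 + 1), r.2.1 * (s.2.2 + 1) + s.2.1 * (r.2.2 + 1),
    (r.2.2 + 1) * (s.2.2 + 1) - 1)

/-- Negative of a rational code. -/
def ratNeg (r : RatCode) : RatCode := (r.2.1, r.1, r.2.2)

/-- Product of two rational codes. -/
def ratMul (r s : RatCode) : RatCode :=
  (r.1 * s.1 + r.2.1 * s.2.1, r.1 * s.2.1 + r.2.1 * s.1, (r.2.2 + 1) * (s.2.2 + 1) - 1)

section prim

private theorem pr1 : Primrec (fun p : RatCode × RatCode => p.1.1) :=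
  Primrec.fst.comp Primrec.fst
private theorem pr2 : Primrec (fun p : RatCode × RatCode => p.1.2.1) :=
  Primrec.fst.comp (Primrec.snd.comp Primrec.fst)
private theorem pr3 : Primrec (fun p : RatCode × RatCode => p.1.2.2 + 1) :=
  Primrec.succ.comp (Primrec.snd.comp (Primrec.snd.comp Primrec.fst))
private theorem ps1 : Primrec (fun p : RatCode × RatCode => p.2.1) :=
  Primrec.fst.comp Primrec.snd
private theorem ps2 : Primrec (fun p : RatCode × RatCode => p.2.2.1) :=
  Primrec.fst.comp (Primrec.snd.comp Primrec.snd)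
private theorem ps3 : Primrec (fun p : RatCode × RatCode => p.2.2.2 + 1) :=
  Primrec.succ.comp (Primrec.snd.comp (Primrec.snd.comp Primrec.snd))

private theorem pdenom :
    Primrec (fun p : RatCode × RatCode => (p.1.2.2 + 1) * (p.2.2.2 + 1) - 1) :=
  Primrec.nat_sub.comp (Primrec.nat_mul.comp pr3 ps3) (Primrec.const 1)

theorem primrec_ratAdd : Primrec₂ ratAdd := by
  refine Primrec.pair ?_ (Primrec.pair ?_ pdenom)
  · exact Primrec.nat_add.comp (Primrec.nat_mul.comp pr1 ps3) (Primrec.nat_mul.comp ps1 pr3)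
  · exact Primrec.nat_add.comp (Primrec.nat_mul.comp pr2 ps3) (Primrec.nat_mul.comp ps2 pr3)

theorem primrec_ratMul : Primrec₂ ratMul := by
  refine Primrec.pair ?_ (Primrec.pair ?_ pdenom)
  · exact Primrec.nat_add.comp (Primrec.nat_mul.comp pr1 ps1) (Primrec.nat_mul.comp pr2 ps2)
  · exact Primrec.nat_add.comp (Primrec.nat_mul.comp pr1 ps2) (Primrec.nat_mul.comp pr2 ps1)

theorem primrec_ratNeg : Primrec ratNeg :=
  Primrec.pair (Primrec.fst.comp Primrec.snd)
    (Primrec.pair Primrec.fst (Primrec.snd.comp Primrec.snd))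

end prim

private theorem cast_denom (d e : ℕ) :
    (((d + 1) * (e + 1) - 1 : ℕ) : ℝ) + 1 = ((d : ℝ) + 1) * ((e : ℝ) + 1) := by
  have h : 1 ≤ (d + 1) * (e + 1) := Nat.mul_pos (Nat.succ_pos d) (Nat.succ_pos e)
  have h2 : ((d + 1) * (e + 1) - 1 : ℕ) + 1 = (d + 1) * (e + 1) := Nat.sub_add_cancel h
  have h3 : (((d + 1) * (e + 1) - 1 + 1 : ℕ) : ℝ) = (((d + 1) * (e + 1) : ℕ) : ℝ) := by rw [h2]
  push_cast at h3
  have h4 : ((((d + 1) * (e + 1) - 1 : ℕ) : ℝ)) + 1 = (((d + 1) * (e + 1) - 1 + 1 : ℕ) : ℝ) := by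
    push_cast; ring
  rw [h4]
  push_cast [h2]
  ring

theorem ratVal_ratAdd (r s : RatCode) : ratVal (ratAdd r s) = ratVal r + ratVal s := by
  obtain ⟨a, b, d⟩ := r
  obtain ⟨a', b', d'⟩ := s
  have hd : ((d : ℝ) + 1) ≠ 0 := by positivity
  have hd' : ((d' : ℝ) + 1) ≠ 0 := by positivity
  simp only [ratVal, ratAdd]
  rw [cast_denom]
  push_cast
  field_simp
  ring

theorem ratVal_ratMul (r s : RatCode) : ratVal (ratMul r s) = ratVal r * ratVal s := by
  obtain ⟨a, b, d⟩ := r
  obtain ⟨a', b', d'⟩ := s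
  have hd : ((d : ℝ) + 1) ≠ 0 := by positivity
  have hd' : ((d' : ℝ) + 1) ≠ 0 := by positivity
  simp only [ratVal, ratMul]
  rw [cast_denom]
  push_cast
  field_simp
  ring

theorem ratVal_ratNeg (r : RatCode) : ratVal (ratNeg r) = - ratVal r := by
  obtain ⟨a, b, d⟩ := r
  simp only [ratVal, ratNeg]
  ring

theorem abs_ratVal_le (r : RatCode) : |ratVal r| ≤ ((r.1 + r.2.1 : ℕ) : ℝ) := by
  obtain ⟨a, b, d⟩ := r
  simp only [ratVal]
  have hd : (1 : ℝ) ≤ (d : ℝ) + 1 := by
    have : (0 : ℝ) ≤ d := Nat.cast_nonneg d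
    linarith
  rw [abs_div, abs_of_pos (by linarith : (0 : ℝ) < (d : ℝ) + 1)]
  have h1 : |(a : ℝ) - b| ≤ ((a + b : ℕ) : ℝ) := by
    push_cast
    rw [abs_le]
    have ha : (0 : ℝ) ≤ a := Nat.cast_nonneg a
    have hb : (0 : ℝ) ≤ b := Nat.cast_nonneg b
    constructor <;> linarith
  exact (div_le_self (abs_nonneg _) hd).trans h1

/-- A rational code of a given rational number. -/
def ratOfRat (q : ℚ) : RatCode := (q.num.toNat, (-q.num).toNat, q.den - 1)

theorem ratVal_ratOfRat (q : ℚ) : ratVal (ratOfRat q) = (q : ℝ) := by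
  have hden : 1 ≤ q.den := q.den_pos
  have h1 : (((q.den - 1 : ℕ) : ℝ)) + 1 = (q.den : ℝ) := by
    have : ((q.den - 1 + 1 : ℕ) : ℝ) = (q.den : ℝ) := by rw [Nat.sub_add_cancel hden]
    push_cast at this
    exact_mod_cast this
  have h2 : ((q.num.toNat : ℝ)) - (((-q.num).toNat : ℝ)) = (q.num : ℝ) := by
    have h3 : ((q.num.toNat : ℤ)) - (((-q.num).toNat : ℤ)) = q.num := by
      omega
    exact_mod_cast congrArg (fun z : ℤ => (z : ℝ)) h3
  simp only [ratVal, ratOfRat]
  rw [h1, h2]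
  exact (Rat.cast_def q).symm

variable {I J : Type*} [Primcodable I] [Primcodable J]

theorem CompR.of_ratCode {g : I → RatCode} (hg : Computable g) :
    CompR (fun i => ratVal (g i)) := by
  refine ⟨fun i _ => g i, hg.comp Computable.fst, fun i n => ?_⟩
  simp only [sub_self, abs_zero]
  positivity

theorem CompR.const_of_computable {c : ℝ} (hc : IsComputableReal c) :
    CompR (fun _ : I => c) := by
  obtain ⟨r, hr, hrc⟩ := hc
  exact ⟨fun _ n => r n, hr.comp Computable.snd, fun _ n => hrc n⟩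

theorem CompR.rat (q : ℚ) : CompR (fun _ : I => (q : ℝ)) := by
  refine ⟨fun _ _ => ratOfRat q, Computable.const _, fun _ n => ?_⟩
  rw [ratVal_ratOfRat, sub_self, abs_zero]
  positivity

theorem CompR.comp {r : J → ℝ} (hr : CompR r) {g : I → J} (hg : Computable g) :
    CompR (fun i => r (g i)) := by
  obtain ⟨φ, hφ, h⟩ := hr
  exact ⟨fun i n => φ (g i) n, hφ.comp (hg.comp Computable.fst) Computable.snd,
    fun i n => h (g i) n⟩

theorem CompR.congr {r s : I → ℝ} (hr : CompR r) (h : ∀ i, r i = s i) : CompR s := by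
  obtain ⟨φ, hφ, hh⟩ := hr
  exact ⟨φ, hφ, fun i n => by rw [← h i]; exact hh i n⟩

theorem CompR.add {r s : I → ℝ} (hr : CompR r) (hs : CompR s) : CompR (fun i => r i + s i) := by
  obtain ⟨φ, hφ, h1⟩ := hr
  obtain ⟨ψ, hψ, h2⟩ := hs
  have hn : Computable (fun x : I × ℕ => x.2 + 1) := Computable.succ.comp Computable.snd
  refine ⟨fun i n => ratAdd (φ i (n + 1)) (ψ i (n + 1)),
    primrec_ratAdd.to_comp.comp (hφ.comp Computable.fst hn) (hψ.comp Computable.fst hn),
    fun i n => ?_⟩
  rw [ratVal_ratAdd]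
  have e1 := h1 i (n + 1)
  have e2 := h2 i (n + 1)
  have e3 : r i + s i - (ratVal (φ i (n + 1)) + ratVal (ψ i (n + 1)))
      = (r i - ratVal (φ i (n + 1))) + (s i - ratVal (ψ i (n + 1))) := by ring
  rw [e3]
  refine (abs_add_le _ _).trans ?_
  have e4 : (1 / 2 : ℝ) ^ n = (1 / 2 : ℝ) ^ (n + 1) + (1 / 2 : ℝ) ^ (n + 1) := by
    rw [pow_succ]; ring
  rw [e4]
  exact add_le_add e1 e2

theorem CompR.neg {r : I → ℝ} (hr : CompR r) : CompR (fun i => - r i) := by
  obtain ⟨φ, hφ, h⟩ := hr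
  refine ⟨fun i n => ratNeg (φ i n), ?_, fun i n => ?_⟩
  · exact primrec_ratNeg.to_comp.comp hφ
  · rw [ratVal_ratNeg]
    have e : - r i - - ratVal (φ i n) = - (r i - ratVal (φ i n)) := by ring
    rw [e, abs_neg]
    exact h i n

theorem CompR.mul {r s : I → ℝ} (hr : CompR r) (hs : CompR s) : CompR (fun i => r i * s i) := by
  obtain ⟨φ, hφ, h1⟩ := hr
  obtain ⟨ψ, hψ, h2⟩ := hs
  -- a natural bound for `|r i|` and for all approximations of `s i`
  let B : I → ℕ := fun i =>
    (φ i 0).1 + (φ i 0).2.1 + ((ψ i 0).1 + (ψ i 0).2.1) + 2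
  have hB : Computable B := by
    have h0 : Computable (fun _ : I => (0 : ℕ)) := Computable.const 0
    have a0 : Computable (fun i : I => φ i 0) := hφ.comp Computable.id h0
    have b0 : Computable (fun i : I => ψ i 0) := hψ.comp Computable.id h0
    have a1 : Computable (fun i : I => (φ i 0).1 + (φ i 0).2.1) :=
      Primrec.nat_add.to_comp.comp (Computable.fst.comp a0)
        (Computable.fst.comp (Computable.snd.comp a0))
    have b1 : Computable (fun i : I => (ψ i 0).1 + (ψ i 0).2.1) :=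
      Primrec.nat_add.to_comp.comp (Computable.fst.comp b0)
        (Computable.fst.comp (Computable.snd.comp b0))
    have c1 := Primrec.nat_add.to_comp.comp a1 b1
    exact Primrec.nat_add.to_comp.comp c1 (Computable.const 2)
  have hp : Computable (fun x : I × ℕ => x.2 + 2 * B x.1) :=
    Primrec.nat_add.to_comp.comp Computable.snd
      (Primrec.nat_mul.to_comp.comp (Computable.const 2) (hB.comp Computable.fst))
  refine ⟨fun i n => ratMul (φ i (n + 2 * B i)) (ψ i (n + 2 * B i)),
    primrec_ratMul.to_comp.comp (hφ.comp Computable.fst hp) (hψ.comp Computable.fst hp),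
    fun i n => ?_⟩
  rw [ratVal_ratMul]
  set p := n + 2 * B i with hp_def
  have hBr : |r i| ≤ (B i : ℝ) := by
    have e1 := h1 i 0
    have e2 := abs_ratVal_le (φ i 0)
    have e3 : |r i| ≤ |r i - ratVal (φ i 0)| + |ratVal (φ i 0)| := by
      have := abs_add_le (r i - ratVal (φ i 0)) (ratVal (φ i 0))
      simpa using this
    simp only [pow_zero] at e1
    simp only [B]
    push_cast at e2 ⊢
    have ha : (0 : ℝ) ≤ ((ψ i 0).1 : ℝ) := Nat.cast_nonneg _
    have hb : (0 : ℝ) ≤ ((ψ i 0).2.1 : ℝ) := Nat.cast_nonneg _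
    linarith
  have hBs : |ratVal (ψ i p)| ≤ (B i : ℝ) := by
    have e1 := h2 i 0
    have e1' := h2 i p
    have e2 := abs_ratVal_le (ψ i 0)
    have hpow : (1 / 2 : ℝ) ^ p ≤ 1 := pow_le_one₀ (by norm_num) (by norm_num)
    have e3 : |s i| ≤ |s i - ratVal (ψ i 0)| + |ratVal (ψ i 0)| := by
      have := abs_add_le (s i - ratVal (ψ i 0)) (ratVal (ψ i 0))
      simpa using this
    have e4 : |ratVal (ψ i p)| ≤ |s i - ratVal (ψ i p)| + |s i| := by
      have := abs_sub_abs_le_abs_sub (ratVal (ψ i p)) (s i)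
      rw [abs_sub_comm] at this
      linarith
    simp only [pow_zero] at e1
    simp only [B]
    push_cast at e2 ⊢
    have ha : (0 : ℝ) ≤ ((φ i 0).1 : ℝ) := Nat.cast_nonneg _
    have hb : (0 : ℝ) ≤ ((φ i 0).2.1 : ℝ) := Nat.cast_nonneg _
    linarith
  have e : r i * s i - ratVal (φ i p) * ratVal (ψ i p)
      = r i * (s i - ratVal (ψ i p)) + ratVal (ψ i p) * (r i - ratVal (φ i p)) := by ring
  rw [e]
  refine (abs_add_le _ _).trans ?_
  rw [abs_mul, abs_mul]
  have hpow0 : (0 : ℝ) ≤ (1 / 2 : ℝ) ^ p := by positivity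
  have t1 : |r i| * |s i - ratVal (ψ i p)| ≤ (B i : ℝ) * (1 / 2 : ℝ) ^ p :=
    mul_le_mul hBr (h2 i p) (abs_nonneg _) (Nat.cast_nonneg _)
  have t2 : |ratVal (ψ i p)| * |r i - ratVal (φ i p)| ≤ (B i : ℝ) * (1 / 2 : ℝ) ^ p :=
    mul_le_mul hBs (h1 i p) (abs_nonneg _) (Nat.cast_nonneg _)
  have t3 : (2 * B i : ℕ) ≤ 2 ^ (2 * B i) := (Nat.lt_two_pow_self).le
  have t4 : ((2 * B i : ℕ) : ℝ) ≤ (2 : ℝ) ^ (2 * B i) := by exact_mod_cast t3
  have t5 : (1 / 2 : ℝ) ^ p = (1 / 2 : ℝ) ^ n * (1 / 2 : ℝ) ^ (2 * B i) := by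
    rw [hp_def, pow_add]
  have t6 : (2 : ℝ) ^ (2 * B i) * (1 / 2 : ℝ) ^ (2 * B i) = 1 := by
    rw [← mul_pow]; norm_num
  have hpn : (0 : ℝ) ≤ (1 / 2 : ℝ) ^ n := by positivity
  have hpb : (0 : ℝ) ≤ (1 / 2 : ℝ) ^ (2 * B i) := by positivity
  have t7 : ((2 * B i : ℕ) : ℝ) * (1 / 2 : ℝ) ^ (2 * B i) ≤ 1 := by
    calc ((2 * B i : ℕ) : ℝ) * (1 / 2 : ℝ) ^ (2 * B i)
        ≤ (2 : ℝ) ^ (2 * B i) * (1 / 2 : ℝ) ^ (2 * B i) := mul_le_mul_of_nonneg_right t4 hpb
      _ = 1 := t6
  have t8 : (B i : ℝ) * (1 / 2 : ℝ) ^ p + (B i : ℝ) * (1 / 2 : ℝ) ^ p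
      = (1 / 2 : ℝ) ^ n * (((2 * B i : ℕ) : ℝ) * (1 / 2 : ℝ) ^ (2 * B i)) := by
    rw [t5]; push_cast; ring
  calc |r i| * |s i - ratVal (ψ i p)| + |ratVal (ψ i p)| * |r i - ratVal (φ i p)|
      ≤ (B i : ℝ) * (1 / 2 : ℝ) ^ p + (B i : ℝ) * (1 / 2 : ℝ) ^ p := add_le_add t1 t2
    _ = (1 / 2 : ℝ) ^ n * (((2 * B i : ℕ) : ℝ) * (1 / 2 : ℝ) ^ (2 * B i)) := t8
    _ ≤ (1 / 2 : ℝ) ^ n * 1 := mul_le_mul_of_nonneg_left t7 hpn
    _ = (1 / 2 : ℝ) ^ n := mul_one _

theorem CompR.finset_sum {ι : Type*} (S : Finset ι) {r : ι → I → ℝ} (h : ∀ k ∈ S, CompR (r k)) :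
    CompR (fun i => ∑ k ∈ S, r k i) := by
  classical
  induction S using Finset.induction_on with
  | empty =>
    refine CompR.congr (CompR.rat (I := I) 0) (fun i => ?_)
    simp
  | insert a S ha ih =>
    have h1 : CompR (r a) := h a (Finset.mem_insert_self a S)
    have h2 : CompR (fun i => ∑ k ∈ S, r k i) :=
      ih (fun k hk => h k (Finset.mem_insert_of_mem hk))
    refine CompR.congr (CompR.add h1 h2) (fun i => ?_)
    rw [Finset.sum_insert ha]

/-- From a uniformly computable family to a program: the extraction used for force programs.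
`r` is a family indexed by `P × A`; `eps : A → RatCode` is a computable accuracy. For each parameter
`p` we get a code that on input an encoded `a`, with `ratVal (eps a) > 0`, outputs an encoded
rational within `eps a` of `r (p, a)`. The code depends computably on `p`. -/
theorem CompR.exists_compiler {P A : Type*} [Primcodable P] [Primcodable A] {r : P × A → ℝ}
    (hr : CompR r) {eps : A → RatCode} (he : Computable eps) :
    ∃ compiler : P → Nat.Partrec.Code, Computable compiler ∧
      ∀ (p : P) (a : A), 0 < ratVal (eps a) →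
        ∃ q : RatCode, Encodable.encode q ∈ (compiler p).eval (Encodable.encode a) ∧
          |ratVal q - r (p, a)| < ratVal (eps a) := by
  obtain ⟨φ, hφ, happ⟩ := hr
  let h : ℕ → Option ℕ := fun n =>
    (Encodable.decode (α := P) n.unpair.1).bind fun p =>
      (Encodable.decode (α := A) n.unpair.2).map fun x =>
        Encodable.encode (φ (p, x) ((eps x).2.2 + 1))
  have hh : Computable h := by
    have dec1 : Computable (fun n : ℕ => Encodable.decode (α := P) n.unpair.1) :=
      Computable.decode.comp (Computable.fst.comp Computable.unpair)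
    have dec2 : Computable (fun n : ℕ => Encodable.decode (α := A) n.unpair.2) :=
      Computable.decode.comp (Computable.snd.comp Computable.unpair)
    refine Computable.option_bind dec1 ?_
    refine Computable.option_map (dec2.comp Computable.fst) ?_
    -- the inner function of `((n, p), x)`
    have hp : Computable (fun y : (ℕ × P) × A => y.1.2) :=
      Computable.snd.comp Computable.fst
    have hx : Computable (fun y : (ℕ × P) × A => y.2) := Computable.snd
    have ha : Computable (fun y : (ℕ × P) × A => (y.1.2, y.2)) := hp.pair hx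
    have hn : Computable (fun y : (ℕ × P) × A => (eps y.2).2.2 + 1) :=
      Computable.succ.comp
        (Computable.snd.comp (Computable.snd.comp (he.comp hx)))
    exact Computable.encode.comp (hφ.comp ha hn)
  have hf : Nat.Partrec (fun n => (h n : Part ℕ)) := Partrec.nat_iff.1 hh.ofOption
  obtain ⟨c, hc⟩ := Nat.Partrec.Code.exists_code.1 hf
  refine ⟨fun p => c.curry (Encodable.encode p), ?_, ?_⟩
  · exact Nat.Partrec.Code.primrec₂_curry.to_comp.comp (Computable.const c) Computable.encode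
  · intro p a hε
    refine ⟨φ (p, a) ((eps a).2.2 + 1), ?_, ?_⟩
    · rw [Nat.Partrec.Code.eval_curry, hc]
      have e1 : h (Nat.pair (Encodable.encode p) (Encodable.encode a))
          = some (Encodable.encode (φ (p, a) ((eps a).2.2 + 1))) := by
        simp only [h, Nat.unpair_pair, Encodable.encodek, Option.bind_some, Option.map_some]
      show _ ∈ ((h (Nat.pair (Encodable.encode p) (Encodable.encode a)) : Option ℕ) : Part ℕ)
      rw [e1]
      exact Part.mem_some _
    · -- the precision is fine enough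
      generalize eps a = ε at hε ⊢
      obtain ⟨x, y, d⟩ := ε
      have hd : (0 : ℝ) < (d : ℝ) + 1 := by positivity
      have hε' : 0 < (x : ℝ) - y := by
        simp only [ratVal] at hε
        by_contra hneg
        have : (x : ℝ) - y ≤ 0 := not_lt.1 hneg
        have : ((x : ℝ) - y) / ((d : ℝ) + 1) ≤ 0 := div_nonpos_of_nonpos_of_nonneg this hd.le
        linarith
      have hxy : y < x := by
        have : (y : ℝ) < x := by linarith
        exact_mod_cast this
      have hxy' : (1 : ℝ) ≤ (x : ℝ) - y := by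
        have : ((y + 1 : ℕ) : ℝ) ≤ x := by exact_mod_cast hxy
        push_cast at this
        linarith
      have h1 := happ (p, a) (d + 1)
      rw [abs_sub_comm] at h1
      have h2 : (1 / 2 : ℝ) ^ (d + 1) < 1 / ((d : ℝ) + 1) := by
        have h3 : d + 1 < 2 ^ (d + 1) := Nat.lt_two_pow_self
        have h4 : (d : ℝ) + 1 < (2 : ℝ) ^ (d + 1) := by exact_mod_cast h3
        rw [one_div_pow]
        exact one_div_lt_one_div_of_lt hd h4
      have h5 : 1 / ((d : ℝ) + 1) ≤ ratVal (x, y, d) := by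
        simp only [ratVal]
        exact div_le_div_of_nonneg_right hxy' hd.le
      exact lt_of_le_of_lt h1 (lt_of_lt_of_le h2 h5)

end Vale.Agent.P113
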