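import Mathlib

/-!
# P113: definitions for the statement

The torus `T³ = (ℝ/ℤ)³` is represented by its universal cover `ℝ³ = Fin 3 → ℝ`:
functions on the torus are functions on `ℝ³` that are `1`-periodic in each coordinate, and
open sets of the torus are open subsets of `ℝ³` invariant under integer translations.
-/

open Set MeasureTheory
open scoped ContDiff

namespace Vale.Agent.P113

/-- Points of the universal cover `ℝ³` of the torus. -/
abbrev R3 : Type := Fin 3 → ℝ

/-- The standard basis vector `e_i`. -/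
noncomputable def unitVec (i : Fin 3) : R3 := Pi.single i 1

/-- The spatial partial derivative `∂_i g (x)`. -/
noncomputable def pd (i : Fin 3) (g : R3 → ℝ) (x : R3) : ℝ := lineDeriv ℝ g x (unitVec i)

/-- `g` is `1`-periodic in each coordinate, i.e. it is a function on the torus. -/
def SpacePeriodic {α : Type*} (g : R3 → α) : Prop := ∀ x i, g (x + unitVec i) = g x

/-- The fundamental box `[0,1]³` of the torus. -/
def unitBox : Set R3 := Icc 0 1

/-- Classical solutions on `[0,T] × T³` of the forced Navier-Stokes system from rest with viscosity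
`ν` and force `f`: `u`, `∂_t u`, the spatial derivatives of `u` up to order two, `p` and `∇p` are
continuous on `[0,T] × T³`, the equations hold pointwise, `p` has spatial mean zero. -/
structure IsClassicalSolution (ν : ℝ) (f : ℝ → R3 → R3) (T : ℝ)
    (u : ℝ → R3 → R3) (p : ℝ → R3 → ℝ) : Prop where
  u_periodic : ∀ t ∈ Icc 0 T, SpacePeriodic (u t)
  p_periodic : ∀ t ∈ Icc 0 T, SpacePeriodic (p t)
  u_contDiff : ∀ t ∈ Icc 0 T, ContDiff ℝ 2 (u t)
  p_contDiff : ∀ t ∈ Icc 0 T, ContDiff ℝ 1 (p t)
  u_timeDiff : ∀ t ∈ Icc 0 T, ∀ x, DifferentiableWithinAt ℝ (fun s => u s x) (Icc 0 T) t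
  u_cont : ContinuousOn (fun z : ℝ × R3 => u z.1 z.2) (Icc 0 T ×ˢ univ)
  dt_cont : ContinuousOn (fun z : ℝ × R3 => derivWithin (fun s => u s z.2) (Icc 0 T) z.1)
    (Icc 0 T ×ˢ univ)
  du_cont : ContinuousOn (fun z : ℝ × R3 => fderiv ℝ (u z.1) z.2) (Icc 0 T ×ˢ univ)
  ddu_cont : ContinuousOn (fun z : ℝ × R3 => fderiv ℝ (fderiv ℝ (u z.1)) z.2) (Icc 0 T ×ˢ univ)
  p_cont : ContinuousOn (fun z : ℝ × R3 => p z.1 z.2) (Icc 0 T ×ˢ univ)
  dp_cont : ContinuousOn (fun z : ℝ × R3 => fderiv ℝ (p z.1) z.2) (Icc 0 T ×ˢ univ)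
  initial : ∀ x, u 0 x = 0
  divergence_free : ∀ t ∈ Icc 0 T, ∀ x, ∑ i, pd i (fun y => u t y i) x = 0
  momentum : ∀ t ∈ Icc 0 T, ∀ x k,
    derivWithin (fun s => u s x) (Icc 0 T) t k
        + ∑ i, u t x i * pd i (fun y => u t y k) x
      = - pd k (p t) x + ν * ∑ i, pd i (pd i (fun y => u t y k)) x + f t x k
  p_mean_zero : ∀ t ∈ Icc 0 T, ∫ x in unitBox, p t x = 0

/-- A global smooth solution: smooth in `(t,x)` and a classical solution on every `[0,T]`. -/
structure IsGlobalSmoothSolution (ν : ℝ) (f : ℝ → R3 → R3)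
    (u : ℝ → R3 → R3) (p : ℝ → R3 → ℝ) : Prop where
  u_smooth : ContDiff ℝ ∞ (fun z : ℝ × R3 => u z.1 z.2)
  p_smooth : ContDiff ℝ ∞ (fun z : ℝ × R3 => p z.1 z.2)
  classical : ∀ T > 0, IsClassicalSolution ν f T u p

/-- `X` is the trajectory from `a`: `X 0 = a` and `Ẋ t = u t (X t)` for `t ≥ 0`. -/
def IsTrajectory (u : ℝ → R3 → R3) (a : R3) (X : ℝ → R3) : Prop :=
  X 0 = a ∧ ∀ t ≥ 0, HasDerivWithinAt X (u t (X t)) (Ici 0) t

/-! ### Turing machines -/

/-- A transition rule `(q, a, q', a', m)`: in state `q` reading symbol `a`, write `a'`, go to state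
`q'`, and move according to `m`: `some true` right, `some false` left, `none` stay. -/
abbrev Rule : Type := ℕ × ℕ × ℕ × ℕ × Option Bool

/-- A one-tape deterministic Turing machine: a finite list of rules (the first matching rule applies)
and a finite list of halting states. States and symbols are natural numbers, only finitely many
occur; the initial state is `0` and the blank symbol is `0`. -/
abbrev Machine : Type := List Rule × List ℕ

/-- A machine configuration `(q, L, R)`: the state `q`; the tape to the left of the head, nearest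
cell first; the tape from the head on to the right. Cells not listed are blank. -/
abbrev Config : Type := ℕ × List ℕ × List ℕ

/-- One machine step. If no rule applies the configuration does not change. -/
def step (M : Machine) (c : Config) : Config :=
  match M.1.find? (fun r => decide (r.1 = c.1) && decide (r.2.1 = c.2.2.headI)) with
  | none => c
  | some (_, _, q', a', m) =>
    match m with
    | none => (q', c.2.1, a' :: c.2.2.tail)
    | some true => (q', a' :: c.2.1, c.2.2.tail)
    | some false => (q', c.2.1.tail, c.2.1.headI :: a' :: c.2.2.tail)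

/-- The initial configuration on input word `w`: the head is at the first cell of `w`, the rest of
the two-sided tape is blank. -/
def init (w : List ℕ) : Config := (0, [], w)

/-- `M` halts on `w`: it reaches a halting state after finitely many steps, possibly none. -/
def Halts (M : Machine) (w : List ℕ) : Prop := ∃ n : ℕ, ((step M)^[n] (init w)).1 ∈ M.2

/-! ### Effective forces -/

/-- A code `(a, b, d)` of the rational number `(a - b) / (d + 1)`. Every rational has such codes. -/
abbrev RatCode : Type := ℕ × ℕ × ℕ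

/-- The rational number, as a real, that a code stands for. -/
noncomputable def ratVal (r : RatCode) : ℝ := ((r.1 : ℝ) - (r.2.1 : ℝ)) / ((r.2.2 : ℝ) + 1)

/-- The point of `ℝ³` with coordinates given by three rational codes. -/
noncomputable def ratPoint (x : RatCode × RatCode × RatCode) : R3 :=
  ![ratVal x.1, ratVal x.2.1, ratVal x.2.2]

/-- The mixed derivative `∂_t^a ∂_0^b₀ ∂_1^b₁ ∂_2^b₂ g` of a real-valued function on time-space. -/
noncomputable def mixedDeriv (a b₀ b₁ b₂ : ℕ) (g : ℝ → R3 → ℝ) : ℝ → R3 → ℝ :=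
  (fun (h : ℝ → R3 → ℝ) t x => deriv (fun s => h s x) t)^[a] <|
  (fun (h : ℝ → R3 → ℝ) t => pd 0 (h t))^[b₀] <|
  (fun (h : ℝ → R3 → ℝ) t => pd 1 (h t))^[b₁] <|
  (fun (h : ℝ → R3 → ℝ) t => pd 2 (h t))^[b₂] g

/-- `c` is a program for `f`: on input the encoded tuple `(a, b₀, b₁, b₂, k, t, x, ε)` with `ε > 0`
rational, the program halts with output an encoded rational within `ε` of
`∂_t^a ∂_0^b₀ ∂_1^b₁ ∂_2^b₂ f_k (t, x)`, at every rational point `(t, x)`. -/
def IsProgramFor (c : Nat.Partrec.Code) (f : ℝ → R3 → R3) : Prop :=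
  ∀ (a b₀ b₁ b₂ : ℕ) (k : Fin 3) (t : RatCode) (x : RatCode × RatCode × RatCode) (ε : RatCode),
    0 < ratVal ε →
    ∃ q : RatCode,
      Encodable.encode q ∈ c.eval (Encodable.encode (a, b₀, b₁, b₂, k, t, x, ε)) ∧
      |ratVal q - mixedDeriv a b₀ b₁ b₂ (fun s y => f s y k) (ratVal t) (ratPoint x)| < ratVal ε

/-- A smooth force on time-space that is periodic in space. -/
structure IsSmoothForce (f : ℝ → R3 → R3) : Prop where
  smooth : ContDiff ℝ ∞ (fun z : ℝ × R3 => f z.1 z.2)
  periodic : ∀ t, SpacePeriodic (f t)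

/-- A computable real number. -/
def IsComputableReal (ν : ℝ) : Prop :=
  ∃ r : ℕ → RatCode, Computable r ∧ ∀ n, |ν - ratVal (r n)| ≤ (1 / 2 : ℝ) ^ n

/-- The statement answering Q1 positively for viscosity `ν`. -/
def HaltingDetection (ν : ℝ) : Prop :=
  ∃ (a : R3) (O : Set R3), IsOpen O ∧ (∀ x i, x + unitVec i ∈ O ↔ x ∈ O) ∧
    ∃ (compiler : Machine × List ℕ → Nat.Partrec.Code)
      (force : Machine → List ℕ → ℝ → R3 → R3) (T₀ P : ℝ),
      Computable compiler ∧ 0 ≤ T₀ ∧ 0 < P ∧
      (∀ M w, IsSmoothForce (force M w) ∧ IsProgramFor (compiler (M, w)) (force M w)) ∧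
      (∀ M w, ∀ t ≥ T₀, ∀ x, force M w (t + P) x = force M w t x) ∧
      (∀ M w w', ∀ t ≥ T₀, ∀ x, force M w t x = force M w' t x) ∧
      ∀ M w, ∃ (u : ℝ → R3 → R3) (p : ℝ → R3 → ℝ),
        IsGlobalSmoothSolution ν (force M w) u p ∧
        (∀ T > 0, ∀ u' p', IsClassicalSolution ν (force M w) T u' p' →
          ∀ t ∈ Icc 0 T, u' t = u t ∧ p' t = p t) ∧
        (∃ X, IsTrajectory u a X) ∧
        ∀ X, IsTrajectory u a X → ((∃ t ≥ 0, X t ∈ O) ↔ Halts M w)

end Vale.Agent.P113
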