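import Vale.Agent.P113.CompBase

/-!
# The derivatives of the smooth transition function are computable

On `(0,1)`, with `A = 1/s`, `C = 1/(1-s)` and `S = σ(s)`, one has `A' = -A²`, `C' = C²` and
`S' = S (1-S) (A²+C²)`. So the `k`-th derivative is a polynomial with integer coefficients in
`(A, C, S)`. We compute this polynomial as a list of monomials.
-/

open scoped ContDiff
open Filter Topology Set

namespace Vale.Agent.P113

theorem CompR.cond' {I : Type*} [Primcodable I] {c : I → Bool} (hc : Computable c) {r s : I → ℝ}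
    (hr : CompR r) (hs : CompR s) : CompR (fun i => bif c i then r i else s i) := by
  obtain ⟨φ, hφ, h1⟩ := hr
  obtain ⟨ψ, hψ, h2⟩ := hs
  refine ⟨fun i n => bif c i then φ i n else ψ i n, ?_, fun i n => ?_⟩
  · exact Computable.cond (hc.comp Computable.fst) hφ hψ
  · cases hci : c i
    · simpa [hci] using h2 i n
    · simpa [hci] using h1 i n

/-- Code of a power of a rational number. -/
def ratPow (a : RatCode) : ℕ → RatCode
  | 0 => ratOfRat 1
  | k + 1 => ratMul (ratPow a k) a

lemma ratVal_ratPow (a : RatCode) (k : ℕ) : ratVal (ratPow a k) = ratVal a ^ k := by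
  induction k with
  | zero =>
    simp only [ratPow, pow_zero]
    rw [ratVal_ratOfRat]
    simp
  | succ k ih =>
    simp only [ratPow]
    rw [ratVal_ratMul, ih, pow_succ]

lemma primrec_ratPow : Primrec₂ ratPow := by
  have h : Primrec (fun p : RatCode × ℕ =>
      Nat.rec (motive := fun _ => RatCode) (ratOfRat 1) (fun _ r => ratMul r p.1) p.2) :=
    Primrec.nat_rec' (h := fun p (y : ℕ × RatCode) => ratMul y.2 p.1) Primrec.snd (Primrec.const _)
      (primrec_ratMul.comp (Primrec.snd.comp Primrec.snd) (Primrec.fst.comp Primrec.fst))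
  refine h.of_eq fun p => ?_
  obtain ⟨a, k⟩ := p
  induction k with
  | zero => rfl
  | succ k ih => simp only [ratPow]; rw [← ih]

/-! ### The exponential function at rational points -/

/-- Code of `1/(j+1)`. -/
def ratInvSucc (j : ℕ) : RatCode := (1, 0, j)

lemma ratVal_ratInvSucc (j : ℕ) : ratVal (ratInvSucc j) = 1 / ((j : ℝ) + 1) := by
  simp [ratVal, ratInvSucc]

/-- The Taylor data of the exponential: the current term and the partial sum. -/
def expData (q : RatCode) : ℕ → RatCode × RatCode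
  | 0 => (ratOfRat 1, ratOfRat 0)
  | j + 1 => (ratMul (ratMul (expData q j).1 q) (ratInvSucc j),
      ratAdd (expData q j).2 (expData q j).1)

lemma expData_val (q : RatCode) (j : ℕ) :
    ratVal (expData q j).1 = ratVal q ^ j / (j.factorial : ℝ) ∧
    ratVal (expData q j).2 = ∑ m ∈ Finset.range j, ratVal q ^ m / (m.factorial : ℝ) := by
  induction j with
  | zero =>
    simp only [expData, ratVal_ratOfRat]
    simp
  | succ j ih =>
    obtain ⟨h1, h2⟩ := ih
    simp only [expData]
    constructor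
    · rw [ratVal_ratMul, ratVal_ratMul, h1, ratVal_ratInvSucc, Nat.factorial_succ, pow_succ]
      push_cast
      have : (j.factorial : ℝ) ≠ 0 := by positivity
      have : (j : ℝ) + 1 ≠ 0 := by positivity
      field_simp
    · rw [ratVal_ratAdd, h1, h2, Finset.sum_range_succ]

lemma primrec_ratInvSucc : Primrec ratInvSucc :=
  Primrec.pair (Primrec.const 1) (Primrec.pair (Primrec.const 0) Primrec.id)

lemma primrec_expData : Primrec₂ expData := by
  have h : Primrec (fun p : RatCode × ℕ =>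
      Nat.rec (motive := fun _ => RatCode × RatCode) (ratOfRat 1, ratOfRat 0)
        (fun j r => (ratMul (ratMul r.1 p.1) (ratInvSucc j), ratAdd r.2 r.1)) p.2) := by
    refine Primrec.nat_rec' (h := fun p (y : ℕ × (RatCode × RatCode)) =>
      (ratMul (ratMul y.2.1 p.1) (ratInvSucc y.1), ratAdd y.2.2 y.2.1)) Primrec.snd
      (Primrec.const _) ?_
    refine Primrec.pair ?_ ?_
    · refine primrec_ratMul.comp (primrec_ratMul.comp ?_ ?_) ?_
      · exact Primrec.fst.comp (Primrec.snd.comp Primrec.snd)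
      · exact Primrec.fst.comp Primrec.fst
      · exact primrec_ratInvSucc.comp (Primrec.fst.comp Primrec.snd)
    · refine primrec_ratAdd.comp ?_ ?_
      · exact Primrec.snd.comp (Primrec.snd.comp Primrec.snd)
      · exact Primrec.fst.comp (Primrec.snd.comp Primrec.snd)
  refine h.of_eq fun p => ?_
  obtain ⟨q, k⟩ := p
  induction k with
  | zero => rfl
  | succ k ih => simp only [expData]; rw [← ih]

/-- Number of terms used to get the precision `2^{-n}`. -/
def expTerms (q : RatCode) (n : ℕ) : ℕ :=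
  2 * (q.1 + q.2.1) + (2 * ((q.1 + q.2.1) * (q.1 + q.2.1)) + n + 1)

lemma primrec_expTerms : Primrec₂ expTerms := by
  have hX : Primrec (fun p : RatCode × ℕ => p.1.1 + p.1.2.1) :=
    Primrec.nat_add.comp (Primrec.fst.comp Primrec.fst)
      (Primrec.fst.comp (Primrec.snd.comp Primrec.fst))
  have h2 : Primrec (fun _ : RatCode × ℕ => 2) := Primrec.const 2
  refine Primrec.nat_add.comp (Primrec.nat_mul.comp h2 hX) ?_
  refine Primrec.nat_add.comp (Primrec.nat_add.comp
    (Primrec.nat_mul.comp h2 (Primrec.nat_mul.comp hX hX)) Primrec.snd) (Primrec.const 1)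

lemma pow_div_factorial_le (X m : ℕ) :
    (X : ℝ) ^ (2 * X + m) / ((2 * X + m).factorial : ℝ) ≤ (X : ℝ) ^ (2 * X) * (1 / 2) ^ m := by
  induction m with
  | zero =>
    simp only [add_zero, pow_zero, mul_one]
    have h : (1 : ℝ) ≤ ((2 * X).factorial : ℝ) := by
      exact_mod_cast Nat.one_le_iff_ne_zero.2 (Nat.factorial_ne_zero _)
    exact div_le_self (by positivity) h
  | succ m ih =>
    have e : 2 * X + (m + 1) = (2 * X + m) + 1 := by ring
    rw [e, Nat.factorial_succ, pow_succ]
    push_cast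
    have hf : (0 : ℝ) < ((2 * X + m).factorial : ℝ) := by positivity
    have hX0 : (0 : ℝ) ≤ (X : ℝ) := Nat.cast_nonneg X
    have hm0 : (0 : ℝ) ≤ (m : ℝ) := Nat.cast_nonneg m
    have hd : (0 : ℝ) < 2 * (X : ℝ) + m + 1 := by positivity
    have h1 : (X : ℝ) / (2 * (X : ℝ) + m + 1) ≤ 1 / 2 := by
      rw [div_le_iff₀ hd]
      linarith
    have e2 : (X : ℝ) ^ (2 * X + m) * (X : ℝ) /
        ((2 * (X : ℝ) + m + 1) * ((2 * X + m).factorial : ℝ)) =
        ((X : ℝ) ^ (2 * X + m) / ((2 * X + m).factorial : ℝ)) *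
          ((X : ℝ) / (2 * (X : ℝ) + m + 1)) := by
      field_simp
    rw [e2, pow_succ, ← mul_assoc]
    exact mul_le_mul ih h1 (by positivity) (by positivity)

lemma abs_exp_sub_partial (q : RatCode) (n : ℕ) :
    |Real.exp (ratVal q) - ratVal (expData q (expTerms q n)).2| ≤ (1 / 2 : ℝ) ^ n := by
  set x := ratVal q with hx
  set X : ℕ := q.1 + q.2.1 with hX
  have hxX : |x| ≤ (X : ℝ) := abs_ratVal_le q
  set m : ℕ := 2 * (X * X) + n + 1 with hm
  have hN : expTerms q n = 2 * X + m := rfl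
  rw [hN, (expData_val q _).2]
  have hb := Complex.exp_bound' (x := (x : ℂ)) (n := 2 * X + m) (by
    rw [Complex.norm_real, Real.norm_eq_abs]
    have h1 : (0 : ℝ) < ((2 * X + m).succ : ℝ) := by positivity
    rw [div_le_iff₀ h1]
    push_cast
    have h2 : (0 : ℝ) ≤ (m : ℝ) := Nat.cast_nonneg m
    linarith)
  have e : Complex.exp (x : ℂ) - ∑ j ∈ Finset.range (2 * X + m), (x : ℂ) ^ j / (j.factorial : ℂ) =
      ((Real.exp x - ∑ j ∈ Finset.range (2 * X + m), x ^ j / (j.factorial : ℝ) : ℝ) : ℂ) := by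
    push_cast
    rfl
  rw [e, Complex.norm_real, Real.norm_eq_abs, Complex.norm_real, Real.norm_eq_abs] at hb
  refine hb.trans ?_
  have h3 : |x| ^ (2 * X + m) / ((2 * X + m).factorial : ℝ) ≤
      (X : ℝ) ^ (2 * X + m) / ((2 * X + m).factorial : ℝ) := by
    gcongr
  have h4 := pow_div_factorial_le X m
  have h5 : (X : ℝ) ^ (2 * X) ≤ (2 : ℝ) ^ (2 * (X * X)) := by
    have h6 : X < 2 ^ X := Nat.lt_two_pow_self
    have h7 : (X : ℝ) ≤ (2 : ℝ) ^ X := by exact_mod_cast h6.le
    calc (X : ℝ) ^ (2 * X) ≤ ((2 : ℝ) ^ X) ^ (2 * X) := pow_le_pow_left₀ (by positivity) h7 _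
      _ = (2 : ℝ) ^ (2 * (X * X)) := by
          rw [← pow_mul]
          congr 1
          ring
  have h8 : (2 : ℝ) ^ (2 * (X * X)) * (1 / 2) ^ m = (1 / 2) ^ (n + 1) := by
    rw [hm, show 2 * (X * X) + n + 1 = 2 * (X * X) + (n + 1) by ring, pow_add, ← mul_assoc,
      ← mul_pow]
    norm_num
  have h9 : (X : ℝ) ^ (2 * X) * (1 / 2) ^ m ≤ (1 / 2) ^ (n + 1) := by
    rw [← h8]
    exact mul_le_mul_of_nonneg_right h5 (by positivity)
  calc |x| ^ (2 * X + m) / ((2 * X + m).factorial : ℝ) * 2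
      ≤ (1 / 2) ^ (n + 1) * 2 :=
        mul_le_mul_of_nonneg_right (h3.trans (h4.trans h9)) (by norm_num)
    _ = (1 / 2) ^ n := by rw [pow_succ]; ring

/-- The exponential at rational points is computable. -/
theorem compR_exp : CompR (fun q : RatCode => Real.exp (ratVal q)) := by
  refine ⟨fun q n => (expData q (expTerms q n)).2, ?_, abs_exp_sub_partial⟩
  exact Computable.snd.comp (primrec_expData.to_comp.comp Computable.fst
    primrec_expTerms.to_comp)

/-! ### The logistic function at rational points -/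

/-- Code of the inverse of a rational number `r = (a-b)/(d+1)`, meaningful when `a > b`. -/
def ratInv (r : RatCode) : RatCode := (r.2.2 + 1, 0, r.1 - r.2.1 - 1)

lemma primrec_ratInv : Primrec ratInv := by
  refine Primrec.pair (Primrec.succ.comp (Primrec.snd.comp Primrec.snd))
    (Primrec.pair (Primrec.const 0) ?_)
  exact Primrec.nat_sub.comp (Primrec.nat_sub.comp Primrec.fst (Primrec.fst.comp Primrec.snd))
    (Primrec.const 1)

lemma ratVal_ratInv {r : RatCode} (h : r.2.1 < r.1) : ratVal (ratInv r) = (ratVal r)⁻¹ := by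
  obtain ⟨a, b, d⟩ := r
  simp only at h
  simp only [ratInv, ratVal]
  have h1 : a - b - 1 + 1 = a - b := Nat.sub_add_cancel (by omega)
  have h2 : ((a - b - 1 : ℕ) : ℝ) + 1 = (a : ℝ) - b := by
    have : (((a - b - 1 + 1 : ℕ)) : ℝ) = ((a - b : ℕ) : ℝ) := by rw [h1]
    rw [Nat.cast_sub h.le] at this
    push_cast at this
    linarith
  rw [h2]
  have h3 : (a : ℝ) - b ≠ 0 := by
    have : (b : ℝ) < a := by exact_mod_cast h
    linarith
  have h4 : (d : ℝ) + 1 ≠ 0 := by positivity
  field_simp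
  simp

lemma ratVal_pos_iff {r : RatCode} : 0 < ratVal r ↔ r.2.1 < r.1 := by
  obtain ⟨a, b, d⟩ := r
  simp only [ratVal]
  have hd : (0 : ℝ) < (d : ℝ) + 1 := by positivity
  rw [div_pos_iff_of_pos_right hd, sub_pos]
  exact Nat.cast_lt

/-- Values of the code of the inverse are between `0` and `d+1`. -/
lemma ratVal_ratInv_nonneg (r : RatCode) : 0 ≤ ratVal (ratInv r) := by
  simp only [ratInv, ratVal, Nat.cast_zero, sub_zero]
  positivity

lemma ratVal_ratInv_le (r : RatCode) : ratVal (ratInv r) ≤ ((r.2.2 + 1 : ℕ) : ℝ) := by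
  simp only [ratInv, ratVal]
  have h : (1 : ℝ) ≤ ((r.1 - r.2.1 - 1 : ℕ) : ℝ) + 1 := by
    have : (0 : ℝ) ≤ ((r.1 - r.2.1 - 1 : ℕ) : ℝ) := Nat.cast_nonneg _
    linarith
  push_cast
  simp only [sub_zero]
  exact div_le_self (by positivity) h

/-- The logistic function at rational points is computable. -/
theorem compR_logistic : CompR (fun q : RatCode => (1 + Real.exp (ratVal q))⁻¹) := by
  refine ⟨fun q n => ratInv (ratAdd (ratOfRat 1) (expData q (expTerms q (n + 2))).2), ?_, ?_⟩
  · refine primrec_ratInv.to_comp.comp ?_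
    refine primrec_ratAdd.to_comp.comp (Computable.const _) ?_
    refine Computable.snd.comp (primrec_expData.to_comp.comp Computable.fst ?_)
    exact primrec_expTerms.to_comp.comp Computable.fst
      (Primrec.nat_add.to_comp.comp Computable.snd (Computable.const 2))
  · intro q n
    set T := ratVal (expData q (expTerms q (n + 2))).2 with hT
    set E := Real.exp (ratVal q) with hE
    have h1 : |E - T| ≤ (1 / 2 : ℝ) ^ (n + 2) := abs_exp_sub_partial q (n + 2)
    have hE0 : 0 < E := Real.exp_pos _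
    have hp : (1 / 2 : ℝ) ^ (n + 2) ≤ 1 / 4 := by
      have : (1 / 2 : ℝ) ^ (n + 2) = (1 / 2) ^ n * (1 / 4) := by
        rw [pow_add]
        norm_num
      rw [this]
      have h2 : (1 / 2 : ℝ) ^ n ≤ 1 := pow_le_one₀ (by norm_num) (by norm_num)
      linarith
    have hT1 : -(1 / 4) ≤ T := by
      have := (abs_le.1 h1).2
      linarith
    have hcode : ratVal (ratAdd (ratOfRat 1) (expData q (expTerms q (n + 2))).2) = 1 + T := by
      rw [ratVal_ratAdd, ratVal_ratOfRat]
      simp [hT]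
    have hpos : 0 < 1 + T := by linarith
    have hpos' : (ratAdd (ratOfRat 1) (expData q (expTerms q (n + 2))).2).2.1 <
        (ratAdd (ratOfRat 1) (expData q (expTerms q (n + 2))).2).1 := by
      rw [← ratVal_pos_iff, hcode]
      exact hpos
    rw [ratVal_ratInv hpos', hcode]
    have e : (1 + E)⁻¹ - (1 + T)⁻¹ = (T - E) / ((1 + E) * (1 + T)) := by
      have : 1 + E ≠ 0 := by positivity
      have : 1 + T ≠ 0 := hpos.ne'
      field_simp
      ring
    rw [e, abs_div, abs_sub_comm T E, abs_of_pos (mul_pos (by linarith) hpos), div_le_iff₀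
      (mul_pos (by linarith) hpos)]
    have e2 : (1 / 2 : ℝ) ^ (n + 2) = (1 / 2) ^ n * (1 / 4) := by
      rw [pow_add]
      norm_num
    have h3 : (3 / 4 : ℝ) ≤ (1 + E) * (1 + T) := by nlinarith
    have h4 : (0 : ℝ) ≤ (1 / 2) ^ n := by positivity
    rw [e2] at h1
    nlinarith

/-! ### Polynomials in `(A, C, S)` as lists of monomials -/

/-- A monomial `(p - m) A^a C^b S^e`, coded as `(p, m, a, b, e)`. -/
abbrev Mono : Type := ℕ × ℕ × ℕ × ℕ × ℕ

/-- The value of a monomial. -/
noncomputable def monoVal (M : Mono) (A C S : ℝ) : ℝ :=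
  ((M.1 : ℝ) - (M.2.1 : ℝ)) * A ^ M.2.2.1 * C ^ M.2.2.2.1 * S ^ M.2.2.2.2

/-- The value of a polynomial. -/
noncomputable def polyVal (L : List Mono) (A C S : ℝ) : ℝ := (L.map fun M => monoVal M A C S).sum

/-- The derivative of a monomial along `A' = -A²`, `C' = C²`, `S' = S (1-S) (A²+C²)`. -/
def dMono (M : Mono) : List Mono :=
  [(M.2.1 * M.2.2.1, M.1 * M.2.2.1, M.2.2.1 + 1, M.2.2.2.1, M.2.2.2.2),
   (M.1 * M.2.2.2.1, M.2.1 * M.2.2.2.1, M.2.2.1, M.2.2.2.1 + 1, M.2.2.2.2),
   (M.1 * M.2.2.2.2, M.2.1 * M.2.2.2.2, M.2.2.1 + 2, M.2.2.2.1, M.2.2.2.2),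
   (M.1 * M.2.2.2.2, M.2.1 * M.2.2.2.2, M.2.2.1, M.2.2.2.1 + 2, M.2.2.2.2),
   (M.2.1 * M.2.2.2.2, M.1 * M.2.2.2.2, M.2.2.1 + 2, M.2.2.2.1, M.2.2.2.2 + 1),
   (M.2.1 * M.2.2.2.2, M.1 * M.2.2.2.2, M.2.2.1, M.2.2.2.1 + 2, M.2.2.2.2 + 1)]

/-- The derivative of a polynomial. -/
def dPoly (L : List Mono) : List Mono := L.flatMap dMono

/-- The polynomial expressing the `k`-th derivative of the smooth transition function. -/
def sigmaPoly (k : ℕ) : List Mono := dPoly^[k] [(1, 0, 0, 0, 1)]

lemma polyVal_nil (A C S : ℝ) : polyVal [] A C S = 0 := rfl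

lemma polyVal_cons (M : Mono) (L : List Mono) (A C S : ℝ) :
    polyVal (M :: L) A C S = monoVal M A C S + polyVal L A C S := by
  simp [polyVal]

lemma polyVal_append (L L' : List Mono) (A C S : ℝ) :
    polyVal (L ++ L') A C S = polyVal L A C S + polyVal L' A C S := by
  simp [polyVal]

lemma dPoly_cons (M : Mono) (L : List Mono) : dPoly (M :: L) = dMono M ++ dPoly L := by
  simp [dPoly]

lemma primrec_dMono : Primrec dMono := by
  have hp : Primrec (fun M : Mono => M.1) := Primrec.fst
  have hm : Primrec (fun M : Mono => M.2.1) := Primrec.fst.comp Primrec.snd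
  have ha : Primrec (fun M : Mono => M.2.2.1) := Primrec.fst.comp (Primrec.snd.comp Primrec.snd)
  have hb : Primrec (fun M : Mono => M.2.2.2.1) :=
    Primrec.fst.comp (Primrec.snd.comp (Primrec.snd.comp Primrec.snd))
  have he : Primrec (fun M : Mono => M.2.2.2.2) :=
    Primrec.snd.comp (Primrec.snd.comp (Primrec.snd.comp Primrec.snd))
  have hc : ∀ k : ℕ, Primrec (fun _ : Mono => k) := fun k => Primrec.const k
  have add : ∀ {f : Mono → ℕ} (k : ℕ), Primrec f → Primrec (fun M => f M + k) :=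
    fun k hf => Primrec.nat_add.comp hf (hc k)
  have mul : ∀ {f g : Mono → ℕ}, Primrec f → Primrec g → Primrec (fun M => f M * g M) :=
    fun hf hg => Primrec.nat_mul.comp hf hg
  have mk : ∀ {c₁ c₂ c₃ c₄ c₅ : Mono → ℕ}, Primrec c₁ → Primrec c₂ → Primrec c₃ → Primrec c₄ →
      Primrec c₅ → Primrec (fun M => ((c₁ M, c₂ M, c₃ M, c₄ M, c₅ M) : Mono)) :=
    fun h₁ h₂ h₃ h₄ h₅ => h₁.pair (h₂.pair (h₃.pair (h₄.pair h₅)))
  have cons : ∀ {f : Mono → Mono} {g : Mono → List Mono}, Primrec f → Primrec g →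
      Primrec (fun M => f M :: g M) := fun hf hg => Primrec.list_cons.comp hf hg
  unfold dMono
  refine cons (mk (mul hm ha) (mul hp ha) (add 1 ha) hb he) ?_
  refine cons (mk (mul hp hb) (mul hm hb) ha (add 1 hb) he) ?_
  refine cons (mk (mul hp he) (mul hm he) (add 2 ha) hb he) ?_
  refine cons (mk (mul hp he) (mul hm he) ha (add 2 hb) he) ?_
  refine cons (mk (mul hm he) (mul hp he) (add 2 ha) hb (add 1 he)) ?_
  refine cons (mk (mul hm he) (mul hp he) ha (add 2 hb) (add 1 he)) ?_
  exact Primrec.const []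

lemma primrec_dPoly : Primrec dPoly :=
  Primrec.list_flatMap Primrec.id (primrec_dMono.comp Primrec.snd)

lemma primrec_sigmaPoly : Primrec sigmaPoly := by
  have h := Primrec.nat_iterate (f := fun k : ℕ => k) (g := fun _ : ℕ => ([(1, 0, 0, 0, 1)] : List Mono))
    (h := fun _ L => dPoly L) Primrec.id (Primrec.const _) (primrec_dPoly.comp Primrec.snd)
  exact h

/-! ### Evaluation on codes -/
end Vale.Agent.P113
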