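import Vale.Agent.P113.EffSigma

/-!
# Smooth functions `ℝ → ℝ` with computable derivatives at rational points
-/

open scoped ContDiff

namespace Vale.Agent.P113

/-- All derivatives of `g` at rational points are uniformly computable. -/
def EffFn (g : ℝ → ℝ) : Prop :=
  CompR (fun z : ℕ × RatCode => iteratedDeriv z.1 g (ratVal z.2))

/-- `g` is smooth with computable derivatives at rational points. -/
structure EffSm (g : ℝ → ℝ) : Prop where
  smooth : ContDiff ℝ ∞ g
  eff : EffFn g

lemma contDiffAt_of_smooth {g : ℝ → ℝ} (h : ContDiff ℝ ∞ g) (k : ℕ) (x : ℝ) :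
    ContDiffAt ℝ k g x :=
  (h.of_le (by exact_mod_cast le_top)).contDiffAt

theorem compR_of_nat : CompR (fun k : ℕ => (k : ℝ)) := by
  have h : Computable (fun k : ℕ => ((k, 0, 0) : RatCode)) :=
    Computable.id.pair (Computable.const _)
  refine CompR.congr (CompR.of_ratCode h) fun k => ?_
  simp [ratVal]

/-- Base case: the standard smooth transition function. -/
theorem effSm_smoothTransition : EffSm Real.smoothTransition :=
  ⟨Real.smoothTransition.contDiff, compR_iteratedDeriv_sigma⟩

theorem effFn_const_aux (q : ℚ) : EffFn (fun _ => (q : ℝ)) := by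
  unfold EffFn
  have hc : Computable (fun z : ℕ × RatCode => decide (z.1 = 0)) := by
    have : PrimrecPred (fun z : ℕ × RatCode => z.1 = 0) :=
      Primrec.eq.comp Primrec.fst (Primrec.const 0)
    exact this.decide.to_comp
  refine CompR.congr (CompR.cond' hc (CompR.rat q) (CompR.rat 0)) fun z => ?_
  rw [iteratedDeriv_const]
  by_cases h : z.1 = 0 <;> simp [h]

theorem EffSm.const (q : ℚ) : EffSm (fun _ => (q : ℝ)) :=
  ⟨contDiff_const, effFn_const_aux q⟩

theorem EffSm.add {g h : ℝ → ℝ} (hg : EffSm g) (hh : EffSm h) :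
    EffSm (fun s => g s + h s) := by
  refine ⟨hg.smooth.add hh.smooth, ?_⟩
  refine CompR.congr (CompR.add hg.eff hh.eff) fun z => ?_
  exact (iteratedDeriv_fun_add (contDiffAt_of_smooth hg.smooth _ _)
    (contDiffAt_of_smooth hh.smooth _ _)).symm

theorem EffSm.finset_sum {ι : Type*} (S : Finset ι) {g : ι → ℝ → ℝ} (h : ∀ k ∈ S, EffSm (g k)) :
    EffSm (fun s => ∑ k ∈ S, g k s) := by
  classical
  induction S using Finset.induction_on with
  | empty =>
    simpa using EffSm.const 0
  | insert a S ha ih =>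
    have h1 := h a (Finset.mem_insert_self a S)
    have h2 := ih fun k hk => h k (Finset.mem_insert_of_mem hk)
    have e : (fun s => ∑ k ∈ insert a S, g k s) = fun s => g a s + ∑ k ∈ S, g k s := by
      funext s
      rw [Finset.sum_insert ha]
    rw [e]
    exact h1.add h2

theorem EffSm.rat_mul (q : ℚ) {g : ℝ → ℝ} (hg : EffSm g) :
    EffSm (fun s => (q : ℝ) * g s) := by
  refine ⟨contDiff_const.mul hg.smooth, ?_⟩
  refine CompR.congr (CompR.mul (CompR.rat q) hg.eff) fun z => ?_
  exact (iteratedDeriv_const_mul_field (q : ℝ) g).symm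

theorem EffSm.sub {g h : ℝ → ℝ} (hg : EffSm g) (hh : EffSm h) :
    EffSm (fun s => g s - h s) := by
  have h1 := hg.add (EffSm.rat_mul (-1) hh)
  have e : (fun s => g s + (((-1 : ℚ) : ℝ)) * h s) = fun s => g s - h s := by
    funext s
    push_cast
    ring
  rwa [e] at h1

/-- Composition with a rational affine map. -/
theorem EffSm.comp_affine (a b : ℚ) {g : ℝ → ℝ} (hg : EffSm g) :
    EffSm (fun s => g ((a : ℝ) * s + (b : ℝ))) := by
  have hs : ContDiff ℝ ∞ (fun s => g ((a : ℝ) * s + (b : ℝ))) :=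
    hg.smooth.comp ((contDiff_const.mul contDiff_id).add contDiff_const)
  refine ⟨hs, ?_⟩
  -- the formula for the derivatives
  have hform : ∀ (k : ℕ) (x : ℝ), iteratedDeriv k (fun s => g ((a : ℝ) * s + (b : ℝ))) x =
      (a : ℝ) ^ k * iteratedDeriv k g ((a : ℝ) * x + (b : ℝ)) := by
    intro k x
    have h1 : ContDiff ℝ k (fun y => g (y + (b : ℝ))) :=
      (hg.smooth.of_le (by exact_mod_cast le_top)).comp (contDiff_id.add contDiff_const)
    have h2 := iteratedDeriv_comp_const_mul (n := k) h1 (a : ℝ)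
    have h3 := congrFun h2 x
    rw [h3]
    have h4 := congrFun (iteratedDeriv_comp_add_const k g (b : ℝ)) ((a : ℝ) * x)
    rw [h4]
  -- codes
  have hcode : Computable (fun z : ℕ × RatCode =>
      ((z.1, ratAdd (ratMul (ratOfRat a) z.2) (ratOfRat b)) : ℕ × RatCode)) := by
    refine Computable.fst.pair ?_
    refine primrec_ratAdd.to_comp.comp ?_ (Computable.const _)
    exact primrec_ratMul.to_comp.comp (Computable.const _) Computable.snd
  have hpow : Computable (fun z : ℕ × RatCode => ratPow (ratOfRat a) z.1) :=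
    primrec_ratPow.to_comp.comp (Computable.const _) Computable.fst
  refine CompR.congr (CompR.mul (CompR.of_ratCode hpow) (hg.eff.comp hcode)) fun z => ?_
  rw [hform, ratVal_ratPow, ratVal_ratOfRat, ratVal_ratAdd, ratVal_ratMul, ratVal_ratOfRat,
    ratVal_ratOfRat]

/-- Leibniz rule for the multiplication by the identity function. -/
lemma iteratedDeriv_id_mul {g : ℝ → ℝ} (hg : ContDiff ℝ ∞ g) (k : ℕ) :
    iteratedDeriv k (fun s => s * g s) =
      fun x => x * iteratedDeriv k g x + (k : ℝ) * iteratedDeriv (k - 1) g x := by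
  have hd : ∀ k, Differentiable ℝ (iteratedDeriv k g) := fun k =>
    (hg.of_le (by exact_mod_cast le_top : ((k + 1 : ℕ) : WithTop ℕ∞) ≤ ∞)).differentiable_iteratedDeriv k
      (by exact_mod_cast Nat.lt_succ_self k)
  induction k with
  | zero =>
    funext x
    simp
  | succ k ih =>
    rw [iteratedDeriv_succ, ih]
    funext x
    have h1 : HasDerivAt (fun x => x * iteratedDeriv k g x + (k : ℝ) * iteratedDeriv (k - 1) g x)
        (1 * iteratedDeriv k g x + x * iteratedDeriv (k + 1) g x +
          (k : ℝ) * deriv (iteratedDeriv (k - 1) g) x) x := by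
      have h2 : HasDerivAt (iteratedDeriv k g) (iteratedDeriv (k + 1) g x) x := by
        rw [iteratedDeriv_succ]
        exact (hd k x).hasDerivAt
      have h3 : HasDerivAt (iteratedDeriv (k - 1) g) (deriv (iteratedDeriv (k - 1) g) x) x :=
        (hd (k - 1) x).hasDerivAt
      exact ((hasDerivAt_id x).mul h2).add (h3.const_mul _)
    rw [h1.deriv]
    rcases Nat.eq_zero_or_pos k with h0 | h0
    · subst h0
      simp
      ring
    · have e : deriv (iteratedDeriv (k - 1) g) = iteratedDeriv k g := by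
        rw [← iteratedDeriv_succ, Nat.sub_add_cancel h0]
      rw [e]
      simp only [Nat.add_sub_cancel]
      push_cast
      ring

/-- Multiplication by the identity function. -/
theorem EffSm.id_mul {g : ℝ → ℝ} (hg : EffSm g) : EffSm (fun s => s * g s) := by
  refine ⟨contDiff_id.mul hg.smooth, ?_⟩
  have h1 : CompR (fun z : ℕ × RatCode => ratVal z.2) := CompR.of_ratCode Computable.snd
  have h2 : CompR (fun z : ℕ × RatCode => iteratedDeriv z.1 g (ratVal z.2)) := hg.eff
  have h3 : CompR (fun z : ℕ × RatCode => (z.1 : ℝ)) := compR_of_nat.comp Computable.fst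
  have hc : Computable (fun z : ℕ × RatCode => ((z.1 - 1, z.2) : ℕ × RatCode)) :=
    (Primrec.nat_sub.to_comp.comp Computable.fst (Computable.const 1)).pair Computable.snd
  have h4 : CompR (fun z : ℕ × RatCode => iteratedDeriv (z.1 - 1) g (ratVal z.2)) :=
    hg.eff.comp hc
  refine CompR.congr (CompR.add (h1.mul h2) (h3.mul h4)) fun z => ?_
  rw [iteratedDeriv_id_mul hg.smooth]

theorem EffSm.deriv {g : ℝ → ℝ} (hg : EffSm g) : EffSm (deriv g) := by
  have hs : ContDiff ℝ ∞ (_root_.deriv g) := by
    have := (contDiff_infty_iff_deriv.1 hg.smooth).2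
    exact this
  refine ⟨hs, ?_⟩
  have hc : Computable (fun z : ℕ × RatCode => ((z.1 + 1, z.2) : ℕ × RatCode)) :=
    (Computable.succ.comp Computable.fst).pair Computable.snd
  refine CompR.congr (hg.eff.comp hc) fun z => ?_
  rw [iteratedDeriv_succ']

/-- The `1`-periodic extension of the restriction of `g` to `[0,1)`. -/
noncomputable def perExt (g : ℝ → ℝ) (s : ℝ) : ℝ := g (Int.fract s)

theorem perExt_periodic (g : ℝ → ℝ) (s : ℝ) : perExt g (s + 1) = perExt g s := by
  simp [perExt]

/-- `g` vanishes for `s ≤ ε` and for `s ≥ 1 - ε`. -/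
def VanishOff (g : ℝ → ℝ) (ε : ℝ) : Prop := ∀ s, s ≤ ε ∨ 1 - ε ≤ s → g s = 0

/-- Near any point, the periodic extension is a translate of `g`. -/
lemma perExt_eventuallyEq {g : ℝ → ℝ} {ε : ℝ} (hε : 0 < ε) (hv : VanishOff g ε) (s : ℝ) :
    perExt g =ᶠ[nhds s] fun u => g (u - (⌊s⌋ : ℝ)) := by
  set δ := min ε 1 with hδ
  have hδ0 : 0 < δ := lt_min hε one_pos
  filter_upwards [Metric.ball_mem_nhds s hδ0] with u hu
  rw [Metric.mem_ball, Real.dist_eq, abs_lt] at hu
  set n := ⌊s⌋ with hn
  have h1 : (n : ℝ) ≤ s := Int.floor_le s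
  have h2 : s < n + 1 := Int.lt_floor_add_one s
  have hδ1 : δ ≤ ε := min_le_left _ _
  have hδ2 : δ ≤ 1 := min_le_right _ _
  unfold perExt
  rcases lt_or_ge u n with h3 | h3
  · -- to the left of the integer
    have hfl : ⌊u⌋ = n - 1 := by
      rw [Int.floor_eq_iff]
      push_cast
      constructor <;> linarith [hu.1, hu.2]
    have e1 : Int.fract u = u - n + 1 := by
      unfold Int.fract
      rw [hfl]
      push_cast
      ring
    rw [e1, hv _ (Or.inr (by linarith [hu.1])), hv _ (Or.inl (by linarith))]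
  · rcases lt_or_ge u (n + 1) with h4 | h4
    · have hfl : ⌊u⌋ = n := by
        rw [Int.floor_eq_iff]
        exact ⟨h3, h4⟩
      have e1 : Int.fract u = u - n := by
        unfold Int.fract
        rw [hfl]
      rw [e1]
    · have hfl : ⌊u⌋ = n + 1 := by
        rw [Int.floor_eq_iff]
        push_cast
        constructor <;> linarith [hu.1, hu.2]
      have e1 : Int.fract u = u - n - 1 := by
        unfold Int.fract
        rw [hfl]
        push_cast
        ring
      rw [e1, hv _ (Or.inl (by linarith [hu.2])), hv _ (Or.inr (by linarith))]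

/-- Derivatives of the periodic extension: they are periodic extensions of the derivatives. -/
theorem iteratedDeriv_perExt {g : ℝ → ℝ} {ε : ℝ} (hε : 0 < ε) (hg : ContDiff ℝ ∞ g)
    (hv : VanishOff g ε) (k : ℕ) (s : ℝ) :
    iteratedDeriv k (perExt g) s = iteratedDeriv k g (Int.fract s) := by
  have _ := hg
  have h1 := (perExt_eventuallyEq hε hv s).iteratedDeriv k
  rw [h1.self_of_nhds]
  have h2 := congrFun (iteratedDeriv_comp_sub_const k g (⌊s⌋ : ℝ)) s
  rw [h2]
  rfl

lemma perExt_smooth {g : ℝ → ℝ} {ε : ℝ} (hε : 0 < ε) (hg : ContDiff ℝ ∞ g)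
    (hv : VanishOff g ε) : ContDiff ℝ ∞ (perExt g) := by
  rw [contDiff_iff_contDiffAt]
  intro s
  have h1 : ContDiffAt ℝ ∞ (fun u => g (u - (⌊s⌋ : ℝ))) s :=
    (hg.comp (contDiff_id.sub contDiff_const)).contDiffAt
  exact h1.congr_of_eventuallyEq (perExt_eventuallyEq hε hv s)

/-- Code of the fractional part. -/
def ratFract (r : RatCode) : RatCode :=
  ((r.1 + r.2.1 * r.2.2) % (r.2.2 + 1), 0, r.2.2)

lemma ratVal_ratFract (r : RatCode) : ratVal (ratFract r) = Int.fract (ratVal r) := by
  obtain ⟨a, b, d⟩ := r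
  simp only [ratFract, ratVal]
  symm
  rw [Int.fract_eq_iff]
  have hd : (0 : ℝ) < (d : ℝ) + 1 := by positivity
  set N := a + b * d with hN
  have hdiv := Nat.div_add_mod N (d + 1)
  have hmod : N % (d + 1) < d + 1 := Nat.mod_lt _ (Nat.succ_pos d)
  generalize N / (d + 1) = q at hdiv
  generalize N % (d + 1) = ρ at hdiv hmod ⊢
  have hmod' : (ρ : ℝ) < (d : ℝ) + 1 := by exact_mod_cast hmod
  refine ⟨?_, ?_, ?_⟩
  · simp only [Nat.cast_zero, sub_zero]
    positivity
  · simp only [Nat.cast_zero, sub_zero]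
    rwa [div_lt_one hd]
  · refine ⟨(q : ℤ) - b, ?_⟩
    have h3 : ((d + 1 : ℕ) : ℝ) * (q : ℝ) + (ρ : ℝ) = (N : ℝ) := by
      exact_mod_cast hdiv
    have h4 : (N : ℝ) = (a : ℝ) + (b : ℝ) * (d : ℝ) := by
      rw [hN]
      push_cast
      ring
    push_cast at h3 ⊢
    field_simp
    nlinarith

lemma primrec_ratFract : Primrec ratFract := by
  have hd : Primrec (fun r : RatCode => r.2.2) := Primrec.snd.comp Primrec.snd
  refine Primrec.pair ?_ (Primrec.pair (Primrec.const 0) hd)
  refine Primrec.nat_mod.comp ?_ (Primrec.succ.comp hd)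
  exact Primrec.nat_add.comp Primrec.fst
    (Primrec.nat_mul.comp (Primrec.fst.comp Primrec.snd) hd)

theorem EffSm.perExt {g : ℝ → ℝ} {ε : ℝ} (hε : 0 < ε) (hg : EffSm g) (hv : VanishOff g ε) :
    EffSm (perExt g) := by
  refine ⟨perExt_smooth hε hg.smooth hv, ?_⟩
  have hc : Computable (fun z : ℕ × RatCode => ((z.1, ratFract z.2) : ℕ × RatCode)) :=
    Computable.fst.pair (primrec_ratFract.to_comp.comp Computable.snd)
  refine CompR.congr (hg.eff.comp hc) fun z => ?_
  rw [iteratedDeriv_perExt hε hg.smooth hv, ratVal_ratFract]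

end Vale.Agent.P113
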