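import Vale.Agent.P113.EffExp

/-!
# The derivatives of the smooth transition function are computable: evaluation
-/

open scoped ContDiff
open Filter Topology Set

namespace Vale.Agent.P113

/-! ### Evaluation on codes -/

/-- Code of the value of a monomial. -/
def monoCode (M : Mono) (A C S : RatCode) : RatCode :=
  ratMul (ratMul (ratMul (M.1, M.2.1, 0) (ratPow A M.2.2.1)) (ratPow C M.2.2.2.1))
    (ratPow S M.2.2.2.2)

lemma ratVal_monoCode (M : Mono) (A C S : RatCode) :
    ratVal (monoCode M A C S) = monoVal M (ratVal A) (ratVal C) (ratVal S) := by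
  unfold monoCode monoVal
  rw [ratVal_ratMul, ratVal_ratMul, ratVal_ratMul, ratVal_ratPow, ratVal_ratPow, ratVal_ratPow]
  simp [ratVal]

/-- Code of the value of a polynomial. -/
def polyCode (L : List Mono) (A C S : RatCode) : RatCode :=
  L.foldr (fun M acc => ratAdd (monoCode M A C S) acc) (ratOfRat 0)

lemma ratVal_polyCode (L : List Mono) (A C S : RatCode) :
    ratVal (polyCode L A C S) = polyVal L (ratVal A) (ratVal C) (ratVal S) := by
  induction L with
  | nil =>
    simp only [polyCode, List.foldr_nil, polyVal_nil]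
    rw [ratVal_ratOfRat]
    simp
  | cons M L ih =>
    rw [polyVal_cons, ← ratVal_monoCode, ← ih, ← ratVal_ratAdd]
    rfl

lemma primrec_monoCode : Primrec (fun x : Mono × RatCode × RatCode × RatCode =>
    monoCode x.1 x.2.1 x.2.2.1 x.2.2.2) := by
  have hM : Primrec (fun x : Mono × RatCode × RatCode × RatCode => x.1) := Primrec.fst
  have hA : Primrec (fun x : Mono × RatCode × RatCode × RatCode => x.2.1) :=
    Primrec.fst.comp Primrec.snd
  have hC : Primrec (fun x : Mono × RatCode × RatCode × RatCode => x.2.2.1) :=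
    Primrec.fst.comp (Primrec.snd.comp Primrec.snd)
  have hS : Primrec (fun x : Mono × RatCode × RatCode × RatCode => x.2.2.2) :=
    Primrec.snd.comp (Primrec.snd.comp Primrec.snd)
  have h1 : Primrec (fun x : Mono × RatCode × RatCode × RatCode =>
      ((x.1.1, x.1.2.1, 0) : RatCode)) :=
    (Primrec.fst.comp hM).pair ((Primrec.fst.comp (Primrec.snd.comp hM)).pair (Primrec.const 0))
  have ha : Primrec (fun x : Mono × RatCode × RatCode × RatCode => x.1.2.2.1) :=
    Primrec.fst.comp (Primrec.snd.comp (Primrec.snd.comp hM))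
  have hb : Primrec (fun x : Mono × RatCode × RatCode × RatCode => x.1.2.2.2.1) :=
    Primrec.fst.comp (Primrec.snd.comp (Primrec.snd.comp (Primrec.snd.comp hM)))
  have he : Primrec (fun x : Mono × RatCode × RatCode × RatCode => x.1.2.2.2.2) :=
    Primrec.snd.comp (Primrec.snd.comp (Primrec.snd.comp (Primrec.snd.comp hM)))
  unfold monoCode
  exact primrec_ratMul.comp (primrec_ratMul.comp (primrec_ratMul.comp h1
    (primrec_ratPow.comp hA ha)) (primrec_ratPow.comp hC hb)) (primrec_ratPow.comp hS he)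

lemma primrec_polyCode : Primrec (fun x : List Mono × RatCode × RatCode × RatCode =>
    polyCode x.1 x.2.1 x.2.2.1 x.2.2.2) := by
  have hh : Primrec₂ (fun (x : List Mono × RatCode × RatCode × RatCode) (y : Mono × RatCode) =>
      ratAdd (monoCode y.1 x.2.1 x.2.2.1 x.2.2.2) y.2) := by
    have h1 : Primrec (fun p : (List Mono × RatCode × RatCode × RatCode) × (Mono × RatCode) =>
        (p.2.1, p.1.2)) :=
      (Primrec.fst.comp Primrec.snd).pair (Primrec.snd.comp Primrec.fst)
    have h2 := primrec_monoCode.comp h1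
    have h3 : Primrec (fun p : (List Mono × RatCode × RatCode × RatCode) × (Mono × RatCode) =>
        p.2.2) := Primrec.snd.comp Primrec.snd
    have h4 := primrec_ratAdd.comp h2 h3
    exact h4
  have h := Primrec.list_foldr (f := fun x : List Mono × RatCode × RatCode × RatCode => x.1)
    (g := fun _ => ratOfRat 0) Primrec.fst (Primrec.const _) hh
  exact h

/-- The power function on naturals. -/
def natPow (x : ℕ) : ℕ → ℕ
  | 0 => 1
  | k + 1 => natPow x k * x

lemma natPow_eq (x k : ℕ) : natPow x k = x ^ k := by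
  induction k with
  | zero => rfl
  | succ k ih => simp only [natPow]; rw [ih, pow_succ]

lemma primrec_natPow : Primrec₂ natPow := by
  have h : Primrec (fun p : ℕ × ℕ =>
      Nat.rec (motive := fun _ => ℕ) 1 (fun _ r => r * p.1) p.2) :=
    Primrec.nat_rec' (h := fun p (y : ℕ × ℕ) => y.2 * p.1) Primrec.snd (Primrec.const _)
      (Primrec.nat_mul.comp (Primrec.snd.comp Primrec.snd) (Primrec.fst.comp Primrec.fst))
  refine h.of_eq fun p => ?_
  obtain ⟨a, k⟩ := p
  induction k with
  | zero => rfl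
  | succ k ih => simp only [natPow]; rw [← ih]

/-- The Lipschitz weight of a monomial. -/
def wMono (M : Mono) (x : ℕ) : ℕ :=
  (M.1 + M.2.1) * natPow x M.2.2.1 * natPow x M.2.2.2.1 * (M.2.2.2.2 * natPow 2 M.2.2.2.2)

/-- The Lipschitz weight of a polynomial. -/
def wPoly (L : List Mono) (x : ℕ) : ℕ := L.foldr (fun M acc => wMono M x + acc) 0

lemma primrec_wMono : Primrec₂ wMono := by
  have hM : Primrec (fun y : Mono × ℕ => y.1) := Primrec.fst
  have hx : Primrec (fun y : Mono × ℕ => y.2) := Primrec.snd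
  have hp : Primrec (fun y : Mono × ℕ => y.1.1) := Primrec.fst.comp hM
  have hm : Primrec (fun y : Mono × ℕ => y.1.2.1) := Primrec.fst.comp (Primrec.snd.comp hM)
  have ha : Primrec (fun y : Mono × ℕ => y.1.2.2.1) :=
    Primrec.fst.comp (Primrec.snd.comp (Primrec.snd.comp hM))
  have hb : Primrec (fun y : Mono × ℕ => y.1.2.2.2.1) :=
    Primrec.fst.comp (Primrec.snd.comp (Primrec.snd.comp (Primrec.snd.comp hM)))
  have he : Primrec (fun y : Mono × ℕ => y.1.2.2.2.2) :=
    Primrec.snd.comp (Primrec.snd.comp (Primrec.snd.comp (Primrec.snd.comp hM)))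
  unfold wMono
  refine Primrec.nat_mul.comp (Primrec.nat_mul.comp (Primrec.nat_mul.comp
    (Primrec.nat_add.comp hp hm) (primrec_natPow.comp hx ha)) (primrec_natPow.comp hx hb))
    (Primrec.nat_mul.comp he (primrec_natPow.comp (Primrec.const 2) he))

lemma primrec_wPoly : Primrec₂ wPoly := by
  unfold wPoly
  refine Primrec.list_foldr (h := fun (p : List Mono × ℕ) (y : Mono × ℕ) =>
    wMono y.1 p.2 + y.2) Primrec.fst (Primrec.const _) ?_
  refine Primrec.nat_add.comp ?_ (Primrec.snd.comp Primrec.snd)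
  exact primrec_wMono.comp (Primrec.fst.comp Primrec.snd) (Primrec.snd.comp Primrec.fst)

lemma monoVal_lipschitz (M : Mono) {A C S S' : ℝ} {x : ℕ} (hA : |A| ≤ x) (hC : |C| ≤ x)
    (hS : |S| ≤ 2) (hS' : |S'| ≤ 2) :
    |monoVal M A C S - monoVal M A C S'| ≤ (wMono M x : ℝ) * |S - S'| := by
  obtain ⟨p, m, a, b, e⟩ := M
  simp only [monoVal, wMono, natPow_eq]
  have e1 : ((p : ℝ) - m) * A ^ a * C ^ b * S ^ e - ((p : ℝ) - m) * A ^ a * C ^ b * S' ^ e =
      ((p : ℝ) - m) * A ^ a * C ^ b * (S ^ e - S' ^ e) := by ring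
  rw [e1, abs_mul, abs_mul, abs_mul, abs_pow, abs_pow]
  have h1 : |(p : ℝ) - m| ≤ (p : ℝ) + m := by
    rw [abs_le]
    have hp : (0 : ℝ) ≤ p := Nat.cast_nonneg p
    have hm : (0 : ℝ) ≤ m := Nat.cast_nonneg m
    constructor <;> linarith
  have h2 : |A| ^ a ≤ (x : ℝ) ^ a := pow_le_pow_left₀ (abs_nonneg _) hA a
  have h3 : |C| ^ b ≤ (x : ℝ) ^ b := pow_le_pow_left₀ (abs_nonneg _) hC b
  have h4 : |S ^ e - S' ^ e| ≤ (e : ℝ) * (2 : ℝ) ^ e * |S - S'| := by
    have h5 := abs_pow_sub_pow_le (a := S) (b := S') (n := e)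
    have h6 : max |S| |S'| ^ (e - 1) ≤ (2 : ℝ) ^ e := by
      calc max |S| |S'| ^ (e - 1) ≤ (2 : ℝ) ^ (e - 1) :=
            pow_le_pow_left₀ (le_max_of_le_left (abs_nonneg _)) (max_le hS hS') _
        _ ≤ (2 : ℝ) ^ e := pow_le_pow_right₀ (by norm_num) (Nat.sub_le _ _)
    calc |S ^ e - S' ^ e| ≤ |S - S'| * e * max |S| |S'| ^ (e - 1) := h5
      _ ≤ |S - S'| * e * (2 : ℝ) ^ e := mul_le_mul_of_nonneg_left h6 (by positivity)
      _ = _ := by ring
  push_cast
  calc |(p : ℝ) - m| * |A| ^ a * |C| ^ b * |S ^ e - S' ^ e|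
      ≤ ((p : ℝ) + m) * (x : ℝ) ^ a * (x : ℝ) ^ b * ((e : ℝ) * (2 : ℝ) ^ e * |S - S'|) := by
        gcongr
    _ = _ := by ring

lemma polyVal_lipschitz (L : List Mono) {A C S S' : ℝ} {x : ℕ} (hA : |A| ≤ x) (hC : |C| ≤ x)
    (hS : |S| ≤ 2) (hS' : |S'| ≤ 2) :
    |polyVal L A C S - polyVal L A C S'| ≤ (wPoly L x : ℝ) * |S - S'| := by
  induction L with
  | nil =>
    simp [polyVal_nil, wPoly]
  | cons M L ih =>
    rw [polyVal_cons, polyVal_cons]
    have h1 := monoVal_lipschitz M hA hC hS hS'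
    have e : monoVal M A C S + polyVal L A C S - (monoVal M A C S' + polyVal L A C S') =
        (monoVal M A C S - monoVal M A C S') + (polyVal L A C S - polyVal L A C S') := by ring
    rw [e]
    refine (abs_add_le _ _).trans ?_
    have e2 : ((wPoly (M :: L) x : ℕ) : ℝ) = (wMono M x : ℝ) + (wPoly L x : ℝ) := by
      simp [wPoly]
    rw [e2, add_mul]
    exact add_le_add h1 ih

/-- The code of `1 - r`, with the same denominator. -/
def ratOneSub (r : RatCode) : RatCode := (r.2.2 + 1 + r.2.1, r.1, r.2.2)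

lemma ratVal_ratOneSub (r : RatCode) : ratVal (ratOneSub r) = 1 - ratVal r := by
  obtain ⟨a, b, d⟩ := r
  simp only [ratOneSub, ratVal]
  have hd : (d : ℝ) + 1 ≠ 0 := by positivity
  push_cast
  field_simp
  ring

lemma primrec_ratOneSub : Primrec ratOneSub := by
  have hd : Primrec (fun r : RatCode => r.2.2) := Primrec.snd.comp Primrec.snd
  refine Primrec.pair ?_ (Primrec.pair Primrec.fst hd)
  exact Primrec.nat_add.comp (Primrec.succ.comp hd) (Primrec.fst.comp Primrec.snd)

/-- Code of `1/s - 1/(1-s)`. -/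
def ratY (r : RatCode) : RatCode := ratAdd (ratInv r) (ratNeg (ratInv (ratOneSub r)))

lemma primrec_ratY : Primrec ratY :=
  primrec_ratAdd.comp primrec_ratInv
    (primrec_ratNeg.comp (primrec_ratInv.comp primrec_ratOneSub))

/-- The value of the polynomial at a rational point, with total codes. -/
noncomputable def sigmaVal (z : ℕ × RatCode) : ℝ :=
  polyVal (sigmaPoly z.1) (ratVal (ratInv z.2)) (ratVal (ratInv (ratOneSub z.2)))
    ((1 + Real.exp (ratVal (ratY z.2)))⁻¹)

theorem compR_sigmaVal : CompR sigmaVal := by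
  obtain ⟨ψ, hψ, hb⟩ := compR_logistic
  refine ⟨fun z n => polyCode (sigmaPoly z.1) (ratInv z.2) (ratInv (ratOneSub z.2))
    (ψ (ratY z.2) (n + wPoly (sigmaPoly z.1) (z.2.2.2 + 1))), ?_, ?_⟩
  · have hk : Computable (fun y : (ℕ × RatCode) × ℕ => sigmaPoly y.1.1) :=
      primrec_sigmaPoly.to_comp.comp (Computable.fst.comp Computable.fst)
    have hs : Computable (fun y : (ℕ × RatCode) × ℕ => y.1.2) :=
      Computable.snd.comp Computable.fst
    have hd : Computable (fun y : (ℕ × RatCode) × ℕ => y.1.2.2.2 + 1) :=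
      Computable.succ.comp (Computable.snd.comp (Computable.snd.comp hs))
    have hW : Computable (fun y : (ℕ × RatCode) × ℕ =>
        y.2 + wPoly (sigmaPoly y.1.1) (y.1.2.2.2 + 1)) :=
      Primrec.nat_add.to_comp.comp Computable.snd (primrec_wPoly.to_comp.comp hk hd)
    have hS : Computable (fun y : (ℕ × RatCode) × ℕ =>
        ψ (ratY y.1.2) (y.2 + wPoly (sigmaPoly y.1.1) (y.1.2.2.2 + 1))) :=
      hψ.comp (primrec_ratY.to_comp.comp hs) hW
    have hI : Computable (fun y : (ℕ × RatCode) × ℕ => ratInv y.1.2) :=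
      primrec_ratInv.to_comp.comp hs
    have hJ : Computable (fun y : (ℕ × RatCode) × ℕ => ratInv (ratOneSub y.1.2)) :=
      primrec_ratInv.to_comp.comp (primrec_ratOneSub.to_comp.comp hs)
    have hT := hk.pair (hI.pair (hJ.pair hS))
    have hR := primrec_polyCode.to_comp.comp hT
    exact hR
  · intro z n
    rw [ratVal_polyCode]
    unfold sigmaVal
    set W := wPoly (sigmaPoly z.1) (z.2.2.2 + 1) with hW
    set S := (1 + Real.exp (ratVal (ratY z.2)))⁻¹ with hS
    set S' := ratVal (ψ (ratY z.2) (n + W)) with hS'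
    have h1 : |S - S'| ≤ (1 / 2 : ℝ) ^ (n + W) := hb _ _
    have hS0 : 0 ≤ S := by positivity
    have hS1 : S ≤ 1 := by
      rw [hS]
      refine inv_le_one_of_one_le₀ ?_
      linarith [Real.exp_pos (ratVal (ratY z.2))]
    have hp1 : (1 / 2 : ℝ) ^ (n + W) ≤ 1 := pow_le_one₀ (by norm_num) (by norm_num)
    have hSabs : |S| ≤ 2 := by
      rw [abs_of_nonneg hS0]
      linarith
    have hS'abs : |S'| ≤ 2 := by
      have h2 : |S'| ≤ |S| + |S - S'| := by
        have := abs_sub_abs_le_abs_sub S' S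
        rw [abs_sub_comm S' S] at this
        linarith
      rw [abs_of_nonneg hS0] at h2
      linarith
    have hA : |ratVal (ratInv z.2)| ≤ ((z.2.2.2 + 1 : ℕ) : ℝ) := by
      rw [abs_of_nonneg (ratVal_ratInv_nonneg _)]
      exact ratVal_ratInv_le _
    have hC : |ratVal (ratInv (ratOneSub z.2))| ≤ ((z.2.2.2 + 1 : ℕ) : ℝ) := by
      rw [abs_of_nonneg (ratVal_ratInv_nonneg _)]
      exact ratVal_ratInv_le (ratOneSub z.2)
    have h3 := polyVal_lipschitz (sigmaPoly z.1) hA hC hSabs hS'abs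
    refine h3.trans ?_
    have hW2 : (W : ℝ) ≤ (2 : ℝ) ^ W := by
      exact_mod_cast (Nat.lt_two_pow_self (n := W)).le
    calc (W : ℝ) * |S - S'| ≤ (2 : ℝ) ^ W * (1 / 2 : ℝ) ^ (n + W) :=
          mul_le_mul hW2 h1 (abs_nonneg _) (by positivity)
      _ = (1 / 2 : ℝ) ^ n := by
          rw [pow_add, mul_comm ((1 / 2 : ℝ) ^ n), ← mul_assoc, ← mul_pow]
          norm_num


/-! ### The calculus of the smooth transition function -/

lemma sigma_eq_logistic {u : ℝ} (h0 : 0 < u) (h1 : u < 1) :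
    Real.smoothTransition u = (1 + Real.exp (u⁻¹ - (1 - u)⁻¹))⁻¹ := by
  have hu : ¬ u ≤ 0 := not_le.2 h0
  have hv : ¬ (1 - u) ≤ 0 := by
    rw [not_le]
    linarith
  simp only [Real.smoothTransition, expNegInvGlue, hu, hv, if_false]
  rw [Real.exp_sub, Real.exp_neg, Real.exp_neg]
  have ha := Real.exp_pos u⁻¹
  have hb := Real.exp_pos (1 - u)⁻¹
  field_simp

lemma hasDerivAt_A {s : ℝ} (h0 : 0 < s) : HasDerivAt (fun u : ℝ => u⁻¹) (-(s⁻¹) ^ 2) s := by
  have h := hasDerivAt_inv h0.ne'
  refine h.congr_deriv ?_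
  rw [inv_pow]

lemma hasDerivAt_C {s : ℝ} (h1 : s < 1) : HasDerivAt (fun u : ℝ => (1 - u)⁻¹) (((1 - s)⁻¹) ^ 2) s := by
  have hne : 1 - s ≠ 0 := by
    intro h
    linarith
  have h := ((hasDerivAt_id' s).const_sub 1).fun_inv hne
  refine h.congr_deriv ?_
  rw [inv_pow]
  simp

lemma hasDerivAt_sigma {s : ℝ} (h0 : 0 < s) (h1 : s < 1) :
    HasDerivAt Real.smoothTransition
      (Real.smoothTransition s * (1 - Real.smoothTransition s) * ((s⁻¹) ^ 2 + ((1 - s)⁻¹) ^ 2)) s := by
  have hev : Real.smoothTransition =ᶠ[𝓝 s] fun u => (1 + Real.exp (u⁻¹ - (1 - u)⁻¹))⁻¹ := by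
    filter_upwards [Ioo_mem_nhds h0 h1] with u hu using sigma_eq_logistic hu.1 hu.2
  refine HasDerivAt.congr_of_eventuallyEq ?_ hev
  have hY := (hasDerivAt_A h0).fun_sub (hasDerivAt_C h1)
  have hE := hY.exp
  have hD := hE.const_add 1
  have hne : (1 + Real.exp (s⁻¹ - (1 - s)⁻¹)) ≠ 0 := by positivity
  have hF := hD.fun_inv hne
  refine hF.congr_deriv ?_
  rw [sigma_eq_logistic h0 h1]
  field_simp
  ring

lemma nat_mul_pow_pred (a : ℕ) (A : ℝ) : (a : ℝ) * A ^ (a - 1) * A = a * A ^ a := by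
  cases a with
  | zero => simp
  | succ a => simp [pow_succ]; ring

lemma hasDerivAt_mono (M : Mono) {s : ℝ} (h0 : 0 < s) (h1 : s < 1) :
    HasDerivAt (fun u => monoVal M u⁻¹ (1 - u)⁻¹ (Real.smoothTransition u))
      (polyVal (dMono M) s⁻¹ (1 - s)⁻¹ (Real.smoothTransition s)) s := by
  obtain ⟨p, m, a, b, e⟩ := M
  have hA := (hasDerivAt_A h0).fun_pow a
  have hC := (hasDerivAt_C h1).fun_pow b
  have hS := (hasDerivAt_sigma h0 h1).fun_pow e
  have h := ((hA.const_mul ((p : ℝ) - m)).fun_mul hC).fun_mul hS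
  refine h.congr_deriv ?_
  simp only [polyVal, dMono, monoVal, List.map_cons, List.map_nil, List.sum_cons, List.sum_nil]
  simp only [Nat.cast_mul]
  set A := s⁻¹
  set C := (1 - s)⁻¹
  set S := Real.smoothTransition s
  have e1 := nat_mul_pow_pred a A
  have e2 := nat_mul_pow_pred b C
  have e3 := nat_mul_pow_pred e S
  linear_combination (-(((p : ℝ) - m) * A * C ^ b * S ^ e)) * e1
    + (((p : ℝ) - m) * A ^ a * C * S ^ e) * e2
    + (((p : ℝ) - m) * A ^ a * C ^ b * (1 - S) * (A ^ 2 + C ^ 2)) * e3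

lemma hasDerivAt_poly (L : List Mono) {s : ℝ} (h0 : 0 < s) (h1 : s < 1) :
    HasDerivAt (fun u => polyVal L u⁻¹ (1 - u)⁻¹ (Real.smoothTransition u))
      (polyVal (dPoly L) s⁻¹ (1 - s)⁻¹ (Real.smoothTransition s)) s := by
  induction L with
  | nil =>
    simpa [polyVal_nil, dPoly] using hasDerivAt_const s (0 : ℝ)
  | cons M L ih =>
    simp only [polyVal_cons]
    rw [dPoly_cons, polyVal_append]
    exact (hasDerivAt_mono M h0 h1).add ih

lemma sigmaPoly_succ (k : ℕ) : sigmaPoly (k + 1) = dPoly (sigmaPoly k) := by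
  simp only [sigmaPoly, Function.iterate_succ_apply']

lemma iteratedDeriv_sigma_open (k : ℕ) {s : ℝ} (h0 : 0 < s) (h1 : s < 1) :
    iteratedDeriv k Real.smoothTransition s =
      polyVal (sigmaPoly k) s⁻¹ (1 - s)⁻¹ (Real.smoothTransition s) := by
  induction k generalizing s with
  | zero =>
    simp [sigmaPoly, polyVal, monoVal]
  | succ k ih =>
    rw [iteratedDeriv_succ]
    have he : iteratedDeriv k Real.smoothTransition =ᶠ[𝓝 s]
        fun u => polyVal (sigmaPoly k) u⁻¹ (1 - u)⁻¹ (Real.smoothTransition u) := by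
      filter_upwards [Ioo_mem_nhds h0 h1] with u hu using ih hu.1 hu.2
    rw [he.deriv_eq, (hasDerivAt_poly _ h0 h1).deriv, sigmaPoly_succ]

lemma iteratedDeriv_eq_of_eventuallyEq {f g : ℝ → ℝ} {s : ℝ} (h : f =ᶠ[𝓝 s] g) (k : ℕ) :
    iteratedDeriv k f =ᶠ[𝓝 s] iteratedDeriv k g := by
  induction k with
  | zero => simpa [iteratedDeriv_zero] using h
  | succ k ih =>
    simp only [iteratedDeriv_succ]
    exact ih.deriv

lemma continuous_iteratedDeriv_sigma (k : ℕ) :
    Continuous (iteratedDeriv k Real.smoothTransition) := by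
  have h : ContDiff ℝ ∞ Real.smoothTransition := Real.smoothTransition.contDiff
  exact h.continuous_iteratedDeriv k (by exact_mod_cast le_top)

lemma iteratedDeriv_sigma_nonpos (k : ℕ) {s : ℝ} (h : s ≤ 0) :
    iteratedDeriv k Real.smoothTransition s = 0 := by
  have hcl : IsClosed {x | iteratedDeriv k Real.smoothTransition x = 0} :=
    isClosed_eq (continuous_iteratedDeriv_sigma k) continuous_const
  have hsub : Iio (0 : ℝ) ⊆ {x | iteratedDeriv k Real.smoothTransition x = 0} := by
    intro x hx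
    have he : Real.smoothTransition =ᶠ[𝓝 x] fun _ => (0 : ℝ) := by
      filter_upwards [Iio_mem_nhds hx] with u hu
      exact Real.smoothTransition.zero_of_nonpos (le_of_lt hu)
    have := (iteratedDeriv_eq_of_eventuallyEq he k).eq_of_nhds
    simp only [mem_ofPred_eq]
    rw [this, iteratedDeriv_const]
    split_ifs <;> rfl
  have hcl2 := hcl.closure_subset_iff.2 hsub
  rw [closure_Iio] at hcl2
  exact hcl2 h

lemma iteratedDeriv_sigma_ge_one (k : ℕ) {s : ℝ} (h : 1 ≤ s) :
    iteratedDeriv k Real.smoothTransition s = if k = 0 then 1 else 0 := by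
  have hcl : IsClosed {x | iteratedDeriv k Real.smoothTransition x = if k = 0 then (1 : ℝ) else 0} :=
    isClosed_eq (continuous_iteratedDeriv_sigma k) continuous_const
  have hsub : Ioi (1 : ℝ) ⊆
      {x | iteratedDeriv k Real.smoothTransition x = if k = 0 then (1 : ℝ) else 0} := by
    intro x hx
    have he : Real.smoothTransition =ᶠ[𝓝 x] fun _ => (1 : ℝ) := by
      filter_upwards [Ioi_mem_nhds hx] with u hu
      exact Real.smoothTransition.one_of_one_le (le_of_lt hu)
    have := (iteratedDeriv_eq_of_eventuallyEq he k).eq_of_nhds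
    simp only [mem_ofPred_eq]
    rw [this, iteratedDeriv_const]
  have hcl2 := hcl.closure_subset_iff.2 hsub
  rw [closure_Ioi] at hcl2
  exact hcl2 h

/-! ### The computability of the derivatives -/

lemma ratVal_nonpos_of_le {r : RatCode} (h : r.1 ≤ r.2.1) : ratVal r ≤ 0 := by
  obtain ⟨a, b, d⟩ := r
  simp only [ratVal] at *
  have hd : (0 : ℝ) < (d : ℝ) + 1 := by positivity
  have hab : (a : ℝ) ≤ b := by exact_mod_cast h
  exact div_nonpos_of_nonpos_of_nonneg (by linarith) hd.le

lemma one_le_ratVal_of_le {r : RatCode} (h : r.2.1 + r.2.2 + 1 ≤ r.1) : 1 ≤ ratVal r := by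
  obtain ⟨a, b, d⟩ := r
  simp only [ratVal] at *
  have hd : (0 : ℝ) < (d : ℝ) + 1 := by positivity
  have hab : (b : ℝ) + d + 1 ≤ a := by exact_mod_cast h
  rw [le_div_iff₀ hd]
  linarith

lemma ratVal_lt_one_of_lt {r : RatCode} (h : ¬ r.2.1 + r.2.2 + 1 ≤ r.1) : ratVal r < 1 := by
  obtain ⟨a, b, d⟩ := r
  simp only [ratVal] at *
  have hd : (0 : ℝ) < (d : ℝ) + 1 := by positivity
  have hab : (a : ℝ) < (b : ℝ) + d + 1 := by
    have : a < b + d + 1 := not_le.1 h
    exact_mod_cast this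
  rw [div_lt_iff₀ hd]
  linarith

theorem compR_iteratedDeriv_sigma :
    CompR (fun z : ℕ × RatCode => iteratedDeriv z.1 Real.smoothTransition (ratVal z.2)) := by
  have hk : Primrec (fun z : ℕ × RatCode => z.1) := Primrec.fst
  have ha : Primrec (fun z : ℕ × RatCode => z.2.1) := Primrec.fst.comp Primrec.snd
  have hb : Primrec (fun z : ℕ × RatCode => z.2.2.1) :=
    Primrec.fst.comp (Primrec.snd.comp Primrec.snd)
  have hd : Primrec (fun z : ℕ × RatCode => z.2.2.2) :=
    Primrec.snd.comp (Primrec.snd.comp Primrec.snd)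
  have c1 : Computable (fun z : ℕ × RatCode => decide (z.2.1 ≤ z.2.2.1)) :=
    (Primrec.nat_le.decide.comp ha hb).to_comp
  have hbd : Primrec (fun z : ℕ × RatCode => z.2.2.1 + z.2.2.2 + 1) :=
    Primrec.succ.comp (Primrec.nat_add.comp hb hd)
  have c2 : Computable (fun z : ℕ × RatCode => decide (z.2.2.1 + z.2.2.2 + 1 ≤ z.2.1)) :=
    (Primrec.nat_le.decide.comp hbd ha).to_comp
  have c3 : Computable (fun z : ℕ × RatCode => decide (z.1 = 0)) :=
    (Primrec.eq.decide.comp hk (Primrec.const 0)).to_comp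
  have hR : CompR (fun z : ℕ × RatCode =>
      bif decide (z.2.1 ≤ z.2.2.1) then ((0 : ℚ) : ℝ) else
        bif decide (z.2.2.1 + z.2.2.2 + 1 ≤ z.2.1) then
          (bif decide (z.1 = 0) then ((1 : ℚ) : ℝ) else ((0 : ℚ) : ℝ))
        else sigmaVal z) :=
    CompR.cond' c1 (CompR.rat 0) (CompR.cond' c2 (CompR.cond' c3 (CompR.rat 1) (CompR.rat 0))
      compR_sigmaVal)
  refine CompR.congr hR fun z => ?_
  by_cases h1 : z.2.1 ≤ z.2.2.1
  · simp only [h1, decide_true, cond_true]
    rw [iteratedDeriv_sigma_nonpos _ (ratVal_nonpos_of_le h1)]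
    simp
  · simp only [h1, decide_false, cond_false]
    by_cases h2 : z.2.2.1 + z.2.2.2 + 1 ≤ z.2.1
    · simp only [h2, decide_true, cond_true]
      rw [iteratedDeriv_sigma_ge_one _ (one_le_ratVal_of_le h2)]
      by_cases h3 : z.1 = 0 <;> simp [h3]
    · simp only [h2, decide_false, cond_false]
      have hs0 : 0 < ratVal z.2 := ratVal_pos_iff.2 (not_le.1 h1)
      have hs1 : ratVal z.2 < 1 := ratVal_lt_one_of_lt h2
      have hb1 : (ratOneSub z.2).2.1 < (ratOneSub z.2).1 := by
        have hpos : 0 < ratVal (ratOneSub z.2) := by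
          rw [ratVal_ratOneSub]
          linarith
        exact ratVal_pos_iff.1 hpos
      have e1 : ratVal (ratInv z.2) = (ratVal z.2)⁻¹ := ratVal_ratInv (not_le.1 h1)
      have e2 : ratVal (ratInv (ratOneSub z.2)) = (1 - ratVal z.2)⁻¹ := by
        rw [ratVal_ratInv hb1, ratVal_ratOneSub]
      have e3 : ratVal (ratY z.2) = (ratVal z.2)⁻¹ - (1 - ratVal z.2)⁻¹ := by
        unfold ratY
        rw [ratVal_ratAdd, ratVal_ratNeg, e1, e2]
        ring
      rw [iteratedDeriv_sigma_open _ hs0 hs1, sigma_eq_logistic hs0 hs1]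
      unfold sigmaVal
      rw [e1, e2, e3]

/-- The derivatives of the smooth transition function at rational points are computable. -/
theorem effFn_smoothTransition_aux :
    CompR (fun z : ℕ × RatCode => iteratedDeriv z.1 Real.smoothTransition (ratVal z.2)) :=
  compR_iteratedDeriv_sigma

end Vale.Agent.P113
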