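import Vale.Agent.P113.FlowSol

/-!
# Programs for the force
-/

open Set
open scoped ContDiff

namespace Vale.Agent.P113

section sums

variable {ι : Type} [Fintype ι]

/-- A finite sum of products of a function of time and three functions of the coordinates. -/
noncomputable def tsumF (κ : ι → ℝ) (T : ι → ℝ → ℝ) (f : ι → Fin 3 → ℝ → ℝ) : ℝ → R3 → ℝ :=
  fun s y => ∑ l, κ l * T l s * P3 (f l) y

lemma update_smooth {f : Fin 3 → ℝ → ℝ} (hf : ∀ j, ContDiff ℝ ∞ (f j)) (i : Fin 3) {g : ℝ → ℝ}
    (hg : ContDiff ℝ ∞ g) (j : Fin 3) : ContDiff ℝ ∞ (Function.update f i g j) := by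
  by_cases hj : j = i
  · subst hj
    rw [Function.update_self]
    exact hg
  · rw [Function.update_of_ne hj]
    exact hf j

lemma opT_step (κ : ι → ℝ) {T : ι → ℝ → ℝ} (f : ι → Fin 3 → ℝ → ℝ)
    (hT : ∀ l, ContDiff ℝ ∞ (T l)) :
    (fun (h : ℝ → R3 → ℝ) t x => deriv (fun s => h s x) t) (tsumF κ T f)
      = tsumF κ (fun l => deriv (T l)) f := by
  funext t x
  apply HasDerivAt.deriv
  refine HasDerivAt.fun_sum fun l _ => ?_
  have h1 : HasDerivAt (T l) (deriv (T l) t) t := (smooth_diff (hT l) t).hasDerivAt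
  exact (h1.const_mul (κ l)).mul_const _

lemma opT_iter (κ : ι → ℝ) {T : ι → ℝ → ℝ} (f : ι → Fin 3 → ℝ → ℝ)
    (hT : ∀ l, ContDiff ℝ ∞ (T l)) (a : ℕ) :
    (fun (h : ℝ → R3 → ℝ) t x => deriv (fun s => h s x) t)^[a] (tsumF κ T f)
      = tsumF κ (fun l => iteratedDeriv a (T l)) f := by
  induction a with
  | zero => simp [iteratedDeriv_zero]
  | succ a ih =>
    rw [Function.iterate_succ_apply', ih]
    refine (opT_step κ f (fun l => smooth_iteratedDeriv (hT l) a)).trans ?_
    simp_rw [iteratedDeriv_succ]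

lemma opX_step (κ : ι → ℝ) (T : ι → ℝ → ℝ) {f : ι → Fin 3 → ℝ → ℝ} (i : Fin 3)
    (hf : ∀ l, ContDiff ℝ ∞ (f l i)) :
    (fun (h : ℝ → R3 → ℝ) t => pd i (h t)) (tsumF κ T f)
      = tsumF κ T (fun l => Function.update (f l) i (deriv (f l i))) := by
  funext t x
  apply HasLineDerivAt.lineDeriv
  show HasDerivAt (fun s : ℝ => ∑ l, κ l * T l t * P3 (f l) (x + s • unitVec i)) _ 0
  refine HasDerivAt.fun_sum fun l _ => ?_
  have h1 : HasDerivAt (fun s : ℝ => P3 (f l) (x + s • unitVec i))
      (P3 (Function.update (f l) i (deriv (f l i))) x) 0 :=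
    hasLine_P3 i (smooth_diff (hf l)) x
  exact h1.const_mul _

lemma opX_iter (κ : ι → ℝ) (T : ι → ℝ → ℝ) {f : ι → Fin 3 → ℝ → ℝ} (i : Fin 3)
    (hf : ∀ l, ContDiff ℝ ∞ (f l i)) (b : ℕ) :
    (fun (h : ℝ → R3 → ℝ) t => pd i (h t))^[b] (tsumF κ T f)
      = tsumF κ T (fun l => Function.update (f l) i (iteratedDeriv b (f l i))) := by
  induction b with
  | zero =>
    simp [iteratedDeriv_zero]
  | succ b ih =>
    rw [Function.iterate_succ_apply', ih]
    refine (opX_step κ T i ?_).trans ?_
    · intro l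
      rw [Function.update_self]
      exact smooth_iteratedDeriv (hf l) b
    · congr 1
      funext l
      rw [Function.update_self, Function.update_idem, iteratedDeriv_succ]

/-- The mixed derivatives of a finite sum of product terms. -/
lemma mixedDeriv_tsumF (κ : ι → ℝ) {T : ι → ℝ → ℝ} {f : ι → Fin 3 → ℝ → ℝ}
    (hT : ∀ l, ContDiff ℝ ∞ (T l)) (hf : ∀ l j, ContDiff ℝ ∞ (f l j))
    (a b₀ b₁ b₂ : ℕ) (s : ℝ) (y : R3) :
    mixedDeriv a b₀ b₁ b₂ (tsumF κ T f) s y
      = ∑ l, κ l * iteratedDeriv a (T l) s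
          * (iteratedDeriv b₀ (f l 0) (y 0) * iteratedDeriv b₁ (f l 1) (y 1)
              * iteratedDeriv b₂ (f l 2) (y 2)) := by
  unfold mixedDeriv
  rw [opX_iter κ T (2 : Fin 3) (fun l => hf l 2) b₂]
  rw [opX_iter κ T (1 : Fin 3) (fun l => by
    rw [Function.update_of_ne (by decide)]; exact hf l 1) b₁]
  rw [opX_iter κ T (0 : Fin 3) (fun l => by
    rw [Function.update_of_ne (by decide), Function.update_of_ne (by decide)]; exact hf l 0) b₀]
  rw [opT_iter κ _ hT a]
  unfold tsumF
  refine Finset.sum_congr rfl fun l _ => ?_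
  simp [P3]

end sums

variable {I : Type*} [Primcodable I]

/-- The argument type of force programs. -/
abbrev Args : Type := ℕ × ℕ × ℕ × ℕ × Fin 3 × RatCode × (RatCode × RatCode × RatCode) × RatCode

lemma CompR.of_fin3 {A : Type*} [Primcodable A] {r : Fin 3 → A → ℝ} (hr : ∀ k, CompR (r k))
    {kk : A → Fin 3} (hk : Computable kk) : CompR (fun a => r (kk a) a) := by
  let ind : Fin 3 → A → ℝ := fun k0 a => ratVal (if kk a = k0 then ((1, 0, 0) : RatCode) else (0, 0, 0))
  have h1 : ∀ k0, CompR (ind k0) := by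
    intro k0
    refine CompR.of_ratCode ?_
    have hp : Primrec (fun k : Fin 3 => if k = k0 then ((1, 0, 0) : RatCode) else (0, 0, 0)) :=
      Primrec.dom_finite _
    exact hp.to_comp.comp hk
  have h2 : CompR (fun a => ∑ k0 : Fin 3, ind k0 a * r k0 a) :=
    CompR.finset_sum Finset.univ fun k0 _ => (h1 k0).mul (hr k0)
  refine h2.congr fun a => ?_
  have e : ∀ k0, ind k0 a * r k0 a = if kk a = k0 then r k0 a else 0 := by
    intro k0
    by_cases h : kk a = k0
    · simp [ind, h, ratVal]
    · simp [ind, h, ratVal]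
  simp_rw [e]
  simp

lemma EffSm.iter2 {g : ℝ → ℝ} (hg : EffSm g) : EffSm (iteratedDeriv 2 g) := by
  rw [Vale.Agent.P113.iter2]
  exact hg.deriv.deriv

/-- One term of the mixed derivative formula is uniformly computable. -/
lemma term_compR {κ : I × Args → ℝ} (hκ : CompR κ) {T : ℝ → ℝ} {f : Fin 3 → ℝ → ℝ}
    (hT : EffSm T) (hf : ∀ j, EffSm (f j)) :
    CompR (fun w : I × Args => κ w * iteratedDeriv w.2.1 T (ratVal w.2.2.2.2.2.2.1)
      * (iteratedDeriv w.2.2.1 (f 0) (ratVal w.2.2.2.2.2.2.2.1.1)
        * iteratedDeriv w.2.2.2.1 (f 1) (ratVal w.2.2.2.2.2.2.2.1.2.1)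
        * iteratedDeriv w.2.2.2.2.1 (f 2) (ratVal w.2.2.2.2.2.2.2.1.2.2))) := by
  have hz : Computable (fun w : I × Args => w.2) := Computable.snd
  have c1 : Computable (fun w : I × Args => w.2.1) := Computable.fst.comp hz
  have c2 : Computable (fun w : I × Args => w.2.2) := Computable.snd.comp hz
  have c3 : Computable (fun w : I × Args => w.2.2.1) := Computable.fst.comp c2
  have c4 : Computable (fun w : I × Args => w.2.2.2) := Computable.snd.comp c2
  have c5 : Computable (fun w : I × Args => w.2.2.2.1) := Computable.fst.comp c4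
  have c6 : Computable (fun w : I × Args => w.2.2.2.2) := Computable.snd.comp c4
  have c7 : Computable (fun w : I × Args => w.2.2.2.2.1) := Computable.fst.comp c6
  have c8 : Computable (fun w : I × Args => w.2.2.2.2.2) := Computable.snd.comp c6
  have c9 : Computable (fun w : I × Args => w.2.2.2.2.2.2) := Computable.snd.comp c8
  have ct : Computable (fun w : I × Args => w.2.2.2.2.2.2.1) := Computable.fst.comp c9
  have c10 : Computable (fun w : I × Args => w.2.2.2.2.2.2.2) := Computable.snd.comp c9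
  have cx : Computable (fun w : I × Args => w.2.2.2.2.2.2.2.1) := Computable.fst.comp c10
  have h1 := hT.eff.comp (c1.pair ct)
  have h2 := (hf 0).eff.comp (c3.pair (Computable.fst.comp cx))
  have h3 := (hf 1).eff.comp (c5.pair (Computable.fst.comp (Computable.snd.comp cx)))
  have h4 := (hf 2).eff.comp (c7.pair (Computable.snd.comp (Computable.snd.comp cx)))
  exact (hκ.mul h1).mul ((h2.mul h3).mul h4)

variable {J : ℕ} {Sh : Fin J → Shear}

/-- Index set of the terms of the force. -/
abbrev TIdx (J : ℕ) : Type := Option (Fin J × Option (Fin 3))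

/-- Coefficients. -/
noncomputable def tKap (Sh : Fin J → Shear) (ν : ℝ) (c : R3) (k : Fin 3) : TIdx J → ℝ
  | none => c k
  | some (m, none) => unitVec (Sh m).dir k
  | some (m, some _) => - ν * unitVec (Sh m).dir k

/-- Time factors. -/
noncomputable def tTime (J : ℕ) : TIdx J → ℝ → ℝ
  | none => fun s => ((J : ℝ) + 2) ^ 2 * iteratedDeriv 2 Real.smoothTransition (((J : ℝ) + 2) * s)
  | some (m, none) => deriv (timeFac J m)
  | some (m, some _) => timeFac J m

/-- Space factors. -/
noncomputable def tFac (Sh : Fin J → Shear) : TIdx J → Fin 3 → ℝ → ℝ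
  | none => fun _ _ => 1
  | some (m, none) => (Sh m).fac
  | some (m, some i) => Function.update (Sh m).fac i (iteratedDeriv 2 ((Sh m).fac i))

lemma flowF_eq_tsum (ν : ℝ) (c : R3) (k : Fin 3) :
    (fun s y => flowF ν Sh c s y k) = tsumF (tKap Sh ν c k) (tTime J) (tFac Sh) := by
  funext s y
  simp only [flowF, tsumF, Pi.add_apply, Pi.smul_apply, smul_eq_mul, Finset.sum_apply]
  rw [Fintype.sum_option, Fintype.sum_prod_type]
  congr 1
  · simp [tKap, tTime, tFac, P3]
    ring
  · refine Finset.sum_congr rfl fun m _ => ?_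
    rw [Fintype.sum_option]
    simp only [tKap, tTime, tFac]
    rw [lapH_eq, Shear.H_eq, ← Finset.mul_sum]
    ring

lemma tTime_effSm (l : TIdx J) : EffSm (tTime J l) := by
  rcases l with _ | ⟨m, _ | i⟩
  · have h := ((effSm_smoothTransition.iter2).comp_affine ((J : ℚ) + 2) 0).rat_mul (((J : ℚ) + 2) ^ 2)
    have e : (fun s : ℝ => ((((J : ℚ) + 2) ^ 2 : ℚ) : ℝ) * iteratedDeriv 2 Real.smoothTransition
        ((((J : ℚ) + 2 : ℚ) : ℝ) * s + ((0 : ℚ) : ℝ))) = tTime J none := by
      funext s
      simp [tTime]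
    rw [e] at h
    exact h
  · exact (timeFac_effSm m.2).deriv
  · exact timeFac_effSm m.2

lemma tFac_effSm (hSh : ∀ m, (Sh m).Good) (l : TIdx J) (j : Fin 3) : EffSm (tFac Sh l j) := by
  rcases l with _ | ⟨m, _ | i⟩
  · have h := EffSm.const (1 : ℚ)
    simpa [tFac] using h
  · exact (hSh m).fac_eff j
  · simp only [tFac]
    by_cases hj : j = i
    · subst hj
      rw [Function.update_self]
      exact ((hSh m).fac_eff j).iter2
    · rw [Function.update_of_ne hj]
      exact (hSh m).fac_eff j

/-- The compiler: `cv i` is a rational translation vector depending computably on `i`. -/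
theorem flow_program (hSh : ∀ m, (Sh m).Good) {ν : ℝ} (hν : IsComputableReal ν)
    {I : Type*} [Primcodable I] {cv : I → RatCode × RatCode × RatCode} (hcv : Computable cv) :
    ∃ compiler : I → Nat.Partrec.Code, Computable compiler ∧
      ∀ i, IsProgramFor (compiler i) (flowF ν Sh (ratPoint (cv i))) := by
  -- the index of the component, as a computable function of the arguments
  have hkk : Computable (fun w : I × Args => w.2.2.2.2.2.1) :=
    Computable.fst.comp (Computable.snd.comp (Computable.snd.comp (Computable.snd.comp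
      (Computable.snd.comp Computable.snd))))
  have hcvw : Computable (fun w : I × Args => cv w.1) := hcv.comp Computable.fst
  have hunit : ∀ (m : Fin J) (k : Fin 3), CompR (fun _ : I × Args => unitVec (Sh m).dir k) := by
    intro m k
    by_cases hk : (Sh m).dir = k
    · refine (CompR.rat (I := I × Args) 1).congr fun _ => ?_
      simp [unitVec, hk]
    · refine (CompR.rat (I := I × Args) 0).congr fun _ => ?_
      simp [unitVec, hk]
  -- coefficients
  have hκ : ∀ l : TIdx J, CompR (fun w : I × Args =>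
      tKap Sh ν (ratPoint (cv w.1)) w.2.2.2.2.2.1 l) := by
    intro l
    rcases l with _ | ⟨m, _ | i⟩
    · have h1 : ∀ k : Fin 3, CompR (fun w : I × Args => ratPoint (cv w.1) k) := by
        intro k
        fin_cases k
        · exact CompR.of_ratCode (Computable.fst.comp hcvw)
        · exact CompR.of_ratCode (Computable.fst.comp (Computable.snd.comp hcvw))
        · exact CompR.of_ratCode (Computable.snd.comp (Computable.snd.comp hcvw))
      exact CompR.of_fin3 (r := fun k (w : I × Args) => ratPoint (cv w.1) k)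
        (kk := fun w => w.2.2.2.2.2.1) h1 hkk
    · exact CompR.of_fin3 (r := fun k (_ : I × Args) => unitVec (Sh m).dir k)
        (kk := fun w => w.2.2.2.2.2.1) (fun k => hunit m k) hkk
    · exact CompR.of_fin3 (r := fun k (_ : I × Args) => - ν * unitVec (Sh m).dir k)
        (kk := fun w => w.2.2.2.2.2.1)
        (fun k => (CompR.const_of_computable hν).neg.mul (hunit m k)) hkk
  have hr : CompR (fun w : I × Args =>
      mixedDeriv w.2.1 w.2.2.1 w.2.2.2.1 w.2.2.2.2.1
        (fun s y => flowF ν Sh (ratPoint (cv w.1)) s y w.2.2.2.2.2.1)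
        (ratVal w.2.2.2.2.2.2.1) (ratPoint w.2.2.2.2.2.2.2.1)) := by
    have h0 := CompR.finset_sum (Finset.univ : Finset (TIdx J))
      (fun l _ => term_compR (hκ l) (tTime_effSm l) (tFac_effSm hSh l))
    refine h0.congr fun w => ?_
    rw [flowF_eq_tsum, mixedDeriv_tsumF _ (fun l => (tTime_effSm l).smooth)
      (fun l j => (tFac_effSm hSh l j).smooth)]
    rfl
  have heps : Computable (fun z : Args => z.2.2.2.2.2.2.2) :=
    Computable.snd.comp (Computable.snd.comp (Computable.snd.comp (Computable.snd.comp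
      (Computable.snd.comp (Computable.snd.comp Computable.snd)))))
  obtain ⟨compiler, hc, h⟩ := CompR.exists_compiler hr heps
  refine ⟨compiler, hc, fun i a b₀ b₁ b₂ k t x ε hε => ?_⟩
  exact h i (a, b₀, b₁, b₂, k, t, x, ε) hε

end Vale.Agent.P113
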