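import Vale.Agent.P113.FlowSol

/-!
# Trajectories of the shear flow

The trajectory is written down explicitly: slot number `g` (the slot number `g % J` of the unit of
time number `g / J`) moves the particle from the point `W g` to the point `W (g + 1)` along a
segment, with speed profile the derivative of the smooth transition function.
-/

open Set Filter Topology
open scoped ContDiff

namespace Vale.Agent.P113

variable {J : ℕ} {Sh : Fin J → Shear}

theorem slotPt_add {J : ℕ} [NeZero J] (Sh : Fin J → Shear) (p : R3) (n g : ℕ) :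
    slotPt Sh p (n * J + g) = slotPt Sh (slotPt Sh p (n * J)) g := by
  induction g with
  | zero => simp [slotPt]
  | succ g ih =>
    have h : n * J + (g + 1) = (n * J + g) + 1 := rfl
    rw [h]
    simp only [slotPt]
    rw [ih]
    have e : Fin.ofNat J (n * J + g) = Fin.ofNat J g := by
      apply Fin.ext
      simp [Fin.ofNat]
    rw [e]

/-! ### Slot times -/

/-- The time at which slot number `g` starts. -/
noncomputable def slotStart (J g : ℕ) : ℝ :=
  ((g / J : ℕ) : ℝ) + (((g % J : ℕ) : ℝ) + 1) / ((J : ℝ) + 2)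

lemma slotStart_mul_add {n m : ℕ} (hm : m < J) :
    slotStart J (n * J + m) = (n : ℝ) + ((m : ℝ) + 1) / ((J : ℝ) + 2) := by
  have hJ : 0 < J := by omega
  have h1 : (n * J + m) / J = n := by
    rw [Nat.mul_comm, Nat.mul_add_div hJ, Nat.div_eq_of_lt hm, Nat.add_zero]
  have h2 : (n * J + m) % J = m := by
    rw [Nat.mul_add_mod', Nat.mod_eq_of_lt hm]
  rw [slotStart, h1, h2]

lemma slotStart_succ (hJ : 0 < J) (g : ℕ) :
    slotStart J g + 1 / ((J : ℝ) + 2) ≤ slotStart J (g + 1) := by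
  have hJ2 : (0 : ℝ) < (J : ℝ) + 2 := by positivity
  have hm : g % J < J := Nat.mod_lt _ hJ
  have hg : g = g / J * J + g % J := (Nat.div_add_mod' g J).symm
  generalize g / J = n at hg
  generalize hmm : g % J = m at hg hm
  subst hg
  rw [slotStart_mul_add hm]
  rcases Nat.lt_or_ge (m + 1) J with h | h
  · have e : n * J + m + 1 = n * J + (m + 1) := rfl
    rw [e, slotStart_mul_add h]
    push_cast
    have : ((m : ℝ) + 1 + 1) / ((J : ℝ) + 2) = ((m : ℝ) + 1) / ((J : ℝ) + 2) + 1 / ((J : ℝ) + 2) := by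
      ring
    rw [this]
    linarith
  · have hmJ : m + 1 = J := by omega
    have e : n * J + m + 1 = (n + 1) * J + 0 := by
      rw [Nat.add_mul, Nat.one_mul, Nat.add_assoc, hmJ, Nat.add_zero]
    rw [e, slotStart_mul_add hJ]
    push_cast
    have h1 : ((m : ℝ) + 1) / ((J : ℝ) + 2) ≤ 1 := by
      rw [div_le_one hJ2]
      have : ((m : ℝ) + 1) = J := by exact_mod_cast hmJ
      linarith
    have h2 : ((0 : ℝ) + 1) / ((J : ℝ) + 2) = 1 / ((J : ℝ) + 2) := by ring
    rw [h2]
    linarith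

lemma slotStart_mono (hJ : 0 < J) : Monotone (slotStart J) := by
  refine monotone_nat_of_le_succ fun g => ?_
  have h := slotStart_succ hJ g
  have h2 : (0 : ℝ) < 1 / ((J : ℝ) + 2) := by positivity
  linarith

lemma slotStart_add_le (hJ : 0 < J) {g g' : ℕ} (h : g < g') :
    slotStart J g + 1 / ((J : ℝ) + 2) ≤ slotStart J g' :=
  (slotStart_succ hJ g).trans (slotStart_mono hJ h)

lemma slotStart_zero : slotStart J 0 = 1 / ((J : ℝ) + 2) := by
  simp [slotStart]

lemma slotStart_ge (hJ : 0 < J) (n : ℕ) : (n : ℝ) ≤ slotStart J (n * J) := by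
  have h := slotStart_mul_add (J := J) (n := n) (m := 0) hJ
  rw [Nat.add_zero] at h
  rw [h]
  have : (0 : ℝ) ≤ (((0 : ℕ) : ℝ) + 1) / ((J : ℝ) + 2) := by positivity
  linarith

lemma slotStart_mul (hJ : 0 < J) (n : ℕ) :
    slotStart J (n * J) = (n : ℝ) + 1 / ((J : ℝ) + 2) := by
  have h := slotStart_mul_add (J := J) (n := n) (m := 0) hJ
  rw [Nat.add_zero] at h
  rw [h]
  simp

/-! ### The values of the transition function -/

lemma st_zero_of_le {t s : ℝ} (h : t ≤ s) :
    Real.smoothTransition (((J : ℝ) + 2) * (t - s)) = 0 := by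
  apply Real.smoothTransition.zero_of_nonpos
  have hJ2 : (0 : ℝ) < (J : ℝ) + 2 := by positivity
  exact mul_nonpos_of_nonneg_of_nonpos hJ2.le (by linarith)

lemma one_le_of_add_le {t s : ℝ} (h : s + 1 / ((J : ℝ) + 2) ≤ t) :
    1 ≤ ((J : ℝ) + 2) * (t - s) := by
  have hJ2 : (0 : ℝ) < (J : ℝ) + 2 := by positivity
  have h2 : 1 / ((J : ℝ) + 2) ≤ t - s := by linarith
  rw [div_le_iff₀ hJ2] at h2
  linarith

lemma st_one_of_le {t s : ℝ} (h : s + 1 / ((J : ℝ) + 2) ≤ t) :
    Real.smoothTransition (((J : ℝ) + 2) * (t - s)) = 1 :=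
  Real.smoothTransition.one_of_one_le (one_le_of_add_le h)

/-- The speed profile of slot number `g`. -/
noncomputable def slotRate (J g : ℕ) (t : ℝ) : ℝ :=
  ((J : ℝ) + 2) * deriv Real.smoothTransition (((J : ℝ) + 2) * (t - slotStart J g))

lemma slotRate_zero_of_le {g : ℕ} {t : ℝ} (h : t ≤ slotStart J g) : slotRate J g t = 0 := by
  have hJ2 : (0 : ℝ) < (J : ℝ) + 2 := by positivity
  rw [slotRate, st_deriv_left (mul_nonpos_of_nonneg_of_nonpos hJ2.le (by linarith)), mul_zero]

lemma slotRate_zero_of_ge {g : ℕ} {t : ℝ} (h : slotStart J g + 1 / ((J : ℝ) + 2) ≤ t) :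
    slotRate J g t = 0 := by
  rw [slotRate, st_deriv_right (one_le_of_add_le h), mul_zero]

lemma timeFac_eq_slotRate {t : ℝ} (ht : 0 ≤ t) (m : Fin J) :
    timeFac J m t = slotRate J (⌊t⌋₊ * J + m) t := by
  have hJ2 : (0 : ℝ) < (J : ℝ) + 2 := by positivity
  rw [timeFac_apply, slotRate, slotStart_mul_add m.2]
  have h1 : Int.fract t = t - (⌊t⌋₊ : ℝ) := by
    rw [natCast_floor_eq_intCast_floor ht]
    rfl
  rw [h1]
  congr 2
  field_simp
  ring

/-! ### The trajectory -/

/-- The partial sums defining the trajectory. -/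
noncomputable def trajSum (J : ℕ) (W : ℕ → R3) (a c : R3) (G : ℕ) (t : ℝ) : R3 :=
  a + Real.smoothTransition (((J : ℝ) + 2) * t) • c
    + ∑ g ∈ Finset.range G,
        Real.smoothTransition (((J : ℝ) + 2) * (t - slotStart J g)) • (W (g + 1) - W g)

section
variable (hJ : 0 < J) (W : ℕ → R3) (a c : R3)
include hJ

lemma trajSum_stable {G₁ G : ℕ} {t : ℝ} (h : t ≤ slotStart J G₁) (hG : G₁ ≤ G) :
    trajSum J W a c G t = trajSum J W a c G₁ t := by
  unfold trajSum
  congr 1
  symm
  apply Finset.sum_subset (Finset.range_subset_range.2 hG)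
  intro g _ hg
  have hg2 : G₁ ≤ g := by simpa using hg
  rw [st_zero_of_le (h.trans (slotStart_mono hJ hg2)), zero_smul]

lemma trajSum_indep {G₁ G₂ : ℕ} {t : ℝ} (h₁ : t ≤ slotStart J G₁) (h₂ : t ≤ slotStart J G₂) :
    trajSum J W a c G₁ t = trajSum J W a c G₂ t := by
  rcases le_total G₁ G₂ with h | h
  · exact (trajSum_stable hJ W a c h₁ h).symm
  · exact trajSum_stable hJ W a c h₂ h

lemma trajSum_pos (hW : W 0 = a + c) {g₀ : ℕ} {t : ℝ} (h1 : slotStart J g₀ ≤ t) :
    trajSum J W a c (g₀ + 1) t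
      = W g₀ + Real.smoothTransition (((J : ℝ) + 2) * (t - slotStart J g₀)) • (W (g₀ + 1) - W g₀) := by
  have hJ2 : (0 : ℝ) < (J : ℝ) + 2 := by positivity
  have h0 : 1 / ((J : ℝ) + 2) ≤ t := by
    have := slotStart_mono hJ (Nat.zero_le g₀)
    rw [slotStart_zero] at this
    linarith
  have hA : Real.smoothTransition (((J : ℝ) + 2) * t) = 1 := by
    apply Real.smoothTransition.one_of_one_le
    rw [div_le_iff₀ hJ2] at h0
    linarith
  have hB : ∑ g ∈ Finset.range g₀,
      Real.smoothTransition (((J : ℝ) + 2) * (t - slotStart J g)) • (W (g + 1) - W g)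
      = W g₀ - W 0 := by
    rw [← Finset.sum_range_sub]
    refine Finset.sum_congr rfl fun g hg => ?_
    have hg2 : g < g₀ := by simpa using hg
    rw [st_one_of_le ((slotStart_add_le hJ hg2).trans h1), one_smul]
  unfold trajSum
  rw [Finset.sum_range_succ, hB, hA, one_smul, hW]
  abel

omit hJ in
/-- The derivative of a partial sum. -/
lemma trajSum_hasDeriv (G : ℕ) (t : ℝ) :
    HasDerivAt (trajSum J W a c G)
      (timeA J t • c + ∑ g ∈ Finset.range G, slotRate J g t • (W (g + 1) - W g)) t := by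
  have hd (s : ℝ) : HasDerivAt (fun u : ℝ => Real.smoothTransition (((J : ℝ) + 2) * (u - s)))
      (((J : ℝ) + 2) * deriv Real.smoothTransition (((J : ℝ) + 2) * (t - s))) t := by
    have h1 : HasDerivAt Real.smoothTransition
        (deriv Real.smoothTransition (((J : ℝ) + 2) * (t - s))) (((J : ℝ) + 2) * (t - s)) :=
      (smooth_diff st_smooth _).hasDerivAt
    have h2 : HasDerivAt (fun u : ℝ => ((J : ℝ) + 2) * (u - s)) ((J : ℝ) + 2) t := by
      simpa using ((hasDerivAt_id t).sub_const s).const_mul ((J : ℝ) + 2)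
    have h3 := h1.comp t h2
    rw [mul_comm] at h3
    exact h3
  unfold trajSum
  refine HasDerivAt.add ?_ ?_
  · refine HasDerivAt.const_add a ?_
    have h := hd 0
    simp only [sub_zero] at h
    exact h.smul_const c
  · refine HasDerivAt.fun_sum fun g _ => ?_
    exact (hd (slotStart J g)).smul_const _

end

/-- The explicit trajectory. -/
noncomputable def trajOf (J : ℕ) (W : ℕ → R3) (a c : R3) (t : ℝ) : R3 :=
  trajSum J W a c ((⌈t⌉₊ + 1) * J) t

section
variable (hJ : 0 < J) (W : ℕ → R3) (a c : R3)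
include hJ

lemma trajOf_eq {G : ℕ} {t : ℝ} (h : t ≤ slotStart J G) :
    trajOf J W a c t = trajSum J W a c G t := by
  refine trajSum_indep hJ W a c ?_ h
  have h1 := slotStart_ge hJ (⌈t⌉₊ + 1)
  have h2 := Nat.le_ceil t
  push_cast at h1
  linarith

lemma trajOf_hasDeriv (t : ℝ) :
    HasDerivAt (trajOf J W a c)
      (timeA J t • c + ∑ g ∈ Finset.range ((⌈t⌉₊ + 2) * J), slotRate J g t • (W (g + 1) - W g)) t := by
  refine (trajSum_hasDeriv W a c ((⌈t⌉₊ + 2) * J) t).congr_of_eventuallyEq ?_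
  have hm : Iio (t + 1) ∈ 𝓝 t := Iio_mem_nhds (by linarith)
  filter_upwards [hm] with s hs
  apply trajOf_eq hJ
  have h1 := slotStart_ge hJ (⌈t⌉₊ + 2)
  have h2 := Nat.le_ceil t
  push_cast at h1
  have h3 : s < t + 1 := hs
  linarith

end

/-- The amplitude of a shear does not depend on the coordinate moved. -/
lemma Shear.H_add_dir {S : Shear} (h : S.Good) (x : R3) (s : ℝ) :
    S.H (x + s • unitVec S.dir) = S.H x := by
  have e : ∀ k, S.fac k ((x + s • unitVec S.dir) k) = S.fac k (x k) := by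
    intro k
    by_cases hk : k = S.dir
    · subst hk
      rw [h.fac_dir, h.fac_dir]
    · simp [unitVec, hk]
  simp only [Shear.H, e]

lemma slotPt_succ_sub [NeZero J] (Sh : Fin J → Shear) (p : R3) (g : ℕ) :
    slotPt Sh p (g + 1) - slotPt Sh p g
      = (Sh (Fin.ofNat J g)).H (slotPt Sh p g) • unitVec (Sh (Fin.ofNat J g)).dir := by
  simp [slotPt, Shear.map]

/-- The derivative of the explicit trajectory is the velocity at its position. -/
lemma traj_velocity [NeZero J] (hSh : ∀ m, (Sh m).Good) (a c : R3) {t : ℝ} (ht : 0 ≤ t) :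
    timeA J t • c + ∑ g ∈ Finset.range ((⌈t⌉₊ + 2) * J),
        slotRate J g t • (slotPt Sh (a + c) (g + 1) - slotPt Sh (a + c) g)
      = flowU Sh c t (trajOf J (slotPt Sh (a + c)) a c t) := by
  have hJ : 0 < J := Nat.pos_of_ne_zero (NeZero.ne J)
  have hJ2 : (0 : ℝ) < (J : ℝ) + 2 := by positivity
  set W := slotPt Sh (a + c) with hWdef
  have hW0 : W 0 = a + c := rfl
  have hU : flowU Sh c t (trajOf J W a c t)
      = timeA J t • c + ∑ m : Fin J,
          (slotRate J (⌊t⌋₊ * J + m) t * (Sh m).H (trajOf J W a c t)) • unitVec (Sh m).dir := by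
    unfold flowU timeA
    congr 1
    refine Finset.sum_congr rfl fun m _ => ?_
    rw [timeFac_eq_slotRate ht]
  rw [hU]
  congr 1
  by_cases hex : ∃ g, slotRate J g t ≠ 0
  · obtain ⟨g₁, hg₁⟩ := hex
    -- the slot is active: `t` is inside it
    have hlo : slotStart J g₁ < t := by
      by_contra hc
      exact hg₁ (slotRate_zero_of_le (not_lt.1 hc))
    have hhi : t < slotStart J g₁ + 1 / ((J : ℝ) + 2) := by
      by_contra hc
      exact hg₁ (slotRate_zero_of_ge (not_lt.1 hc))
    have hne : ∀ g, g ≠ g₁ → slotRate J g t = 0 := by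
      intro g hg
      rcases lt_or_gt_of_ne hg with h | h
      · exact slotRate_zero_of_ge ((slotStart_add_le hJ h).trans hlo.le)
      · exact slotRate_zero_of_le (hhi.le.trans (slotStart_add_le hJ h))
    -- the position
    have hfl : ⌊t⌋₊ = g₁ / J := by
      rw [Nat.floor_eq_iff ht]
      have hm : g₁ % J < J := Nat.mod_lt _ hJ
      have hs : slotStart J g₁
          = ((g₁ / J : ℕ) : ℝ) + (((g₁ % J : ℕ) : ℝ) + 1) / ((J : ℝ) + 2) := rfl
      have hm2 : (((g₁ % J : ℕ) : ℝ) + 1) ≤ J := by exact_mod_cast hm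
      have h3 : (0 : ℝ) ≤ (((g₁ % J : ℕ) : ℝ) + 1) / ((J : ℝ) + 2) := by positivity
      have h4 : (((g₁ % J : ℕ) : ℝ) + 1) / ((J : ℝ) + 2) + 1 / ((J : ℝ) + 2) < 1 := by
        rw [← add_div, div_lt_one hJ2]
        linarith
      constructor <;> linarith
    have hg₁G : g₁ + 1 ≤ (⌈t⌉₊ + 2) * J := by
      by_contra hc
      have hc2 : (⌈t⌉₊ + 2) * J ≤ g₁ := by omega
      have h1 := slotStart_mono hJ hc2
      have h2 := slotStart_ge hJ (⌈t⌉₊ + 2)
      have h3 := Nat.le_ceil t
      push_cast at h2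
      linarith
    set m₁ : Fin J := Fin.ofNat J g₁ with hm₁
    have hm₁v : (m₁ : ℕ) = g₁ % J := rfl
    have hgm : ⌊t⌋₊ * J + (m₁ : ℕ) = g₁ := by
      rw [hfl, hm₁v]
      exact Nat.div_add_mod' g₁ J
    have hpos : trajOf J W a c t = W g₁ +
        (Real.smoothTransition (((J : ℝ) + 2) * (t - slotStart J g₁))
          * (Sh m₁).H (W g₁)) • unitVec (Sh m₁).dir := by
      have h1 : t ≤ slotStart J (g₁ + 1) := by
        have := slotStart_succ hJ g₁
        linarith
      rw [trajOf_eq hJ W a c h1, trajSum_pos hJ W a c hW0 hlo.le, hWdef, slotPt_succ_sub, mul_smul]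
    have hH : (Sh m₁).H (trajOf J W a c t) = (Sh m₁).H (W g₁) := by
      rw [hpos]
      exact Shear.H_add_dir (hSh m₁) _ _
    have hL : ∑ g ∈ Finset.range ((⌈t⌉₊ + 2) * J), slotRate J g t • (W (g + 1) - W g)
        = slotRate J g₁ t • (W (g₁ + 1) - W g₁) := by
      refine Finset.sum_eq_single g₁ (fun g _ hg => ?_) (fun h => ?_)
      · rw [hne g hg, zero_smul]
      · exact absurd (Finset.mem_range.2 hg₁G) h
    have hR : ∑ m : Fin J,
          (slotRate J (⌊t⌋₊ * J + m) t * (Sh m).H (trajOf J W a c t)) • unitVec (Sh m).dir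
        = (slotRate J g₁ t * (Sh m₁).H (W g₁)) • unitVec (Sh m₁).dir := by
      rw [Finset.sum_eq_single m₁ (fun m _ hm => ?_) (fun h => absurd (Finset.mem_univ _) h), hgm, hH]
      have hne2 : ⌊t⌋₊ * J + (m : ℕ) ≠ g₁ := by
        rw [← hgm]
        intro h
        apply hm
        apply Fin.ext
        omega
      rw [hne _ hne2, zero_mul, zero_smul]
    rw [hL, hR, hWdef, slotPt_succ_sub, mul_smul]
  · push Not at hex
    rw [Finset.sum_eq_zero fun g _ => by rw [hex, zero_smul],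
      Finset.sum_eq_zero fun m _ => by rw [hex, zero_mul, zero_smul]]

/-- The trajectory from `a` exists, it reaches `a + c` at time `1/(J+2)`, and after that it moves
along the segments between consecutive slot points; its value at `n + 1/(J+2)` is the slot point
number `n * J`. -/
theorem flow_traj [NeZero J] (hSh : ∀ m, (Sh m).Good) (a c : R3) :
    ∃ X : ℝ → R3, IsTrajectory (flowU Sh c) a X ∧
      (∀ n : ℕ, X ((n : ℝ) + 1 / ((J : ℝ) + 2)) = slotPt Sh (a + c) (n * J)) ∧
      (∀ t ∈ Icc 0 (1 / ((J : ℝ) + 2)), ∃ θ ∈ Icc (0 : ℝ) 1, X t = a + θ • c) ∧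
      (∀ t ≥ 1 / ((J : ℝ) + 2), ∃ g : ℕ, ∃ θ ∈ Icc (0 : ℝ) 1,
        X t = slotPt Sh (a + c) g + θ • (slotPt Sh (a + c) (g + 1) - slotPt Sh (a + c) g)) := by
  have hJ : 0 < J := Nat.pos_of_ne_zero (NeZero.ne J)
  have hJ2 : (0 : ℝ) < (J : ℝ) + 2 := by positivity
  set W := slotPt Sh (a + c) with hWdef
  have hW0 : W 0 = a + c := rfl
  have hearly : ∀ t, t ≤ 1 / ((J : ℝ) + 2) →
      trajOf J W a c t = a + Real.smoothTransition (((J : ℝ) + 2) * t) • c := by
    intro t ht
    rw [trajOf_eq hJ W a c (G := 0) (by rw [slotStart_zero]; exact ht)]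
    simp [trajSum]
  refine ⟨trajOf J W a c, ⟨?_, fun t ht => ?_⟩, fun n => ?_, fun t ht => ?_, fun t ht => ?_⟩
  · rw [hearly 0 (by positivity)]
    simp [Real.smoothTransition.zero_of_nonpos]
  · have h := trajOf_hasDeriv hJ W a c t
    rw [traj_velocity hSh a c ht] at h
    exact h.hasDerivWithinAt
  · have e := slotStart_mul hJ n
    rw [← e]
    have h1 : slotStart J (n * J) ≤ slotStart J (n * J + 1) := slotStart_mono hJ (Nat.le_succ _)
    rw [trajOf_eq hJ W a c h1, trajSum_pos hJ W a c hW0 le_rfl]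
    simp [Real.smoothTransition.zero_of_nonpos]
  · refine ⟨Real.smoothTransition (((J : ℝ) + 2) * t), ⟨Real.smoothTransition.nonneg _,
      Real.smoothTransition.le_one _⟩, hearly t ht.2⟩
  · -- find the slot
    have hex : ∃ g, t < slotStart J g := by
      refine ⟨(⌈t⌉₊ + 1) * J, ?_⟩
      have h1 := slotStart_ge hJ (⌈t⌉₊ + 1)
      have h2 := Nat.le_ceil t
      push_cast at h1
      linarith
    classical
    have hfind := Nat.find_spec hex
    have hne : Nat.find hex ≠ 0 := by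
      intro h
      rw [h, slotStart_zero] at hfind
      linarith
    obtain ⟨g₀, hg₀⟩ := Nat.exists_eq_succ_of_ne_zero hne
    have hmin : ¬ t < slotStart J g₀ := Nat.find_min hex (by omega)
    rw [hg₀] at hfind
    refine ⟨g₀, Real.smoothTransition (((J : ℝ) + 2) * (t - slotStart J g₀)),
      ⟨Real.smoothTransition.nonneg _, Real.smoothTransition.le_one _⟩, ?_⟩
    rw [trajOf_eq hJ W a c hfind.le]
    exact trajSum_pos hJ W a c hW0 (not_lt.1 hmin)

/-- Trajectories are unique. -/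
theorem flow_traj_unique (hSh : ∀ m, (Sh m).Good) (a c : R3) {X Y : ℝ → R3}
    (hX : IsTrajectory (flowU Sh c) a X) (hY : IsTrajectory (flowU Sh c) a Y) :
    ∀ t ≥ 0, X t = Y t := by
  intro t ht
  have hcontX : ContinuousOn X (Icc 0 t) := fun s hs =>
    ((hX.2 s hs.1).continuousWithinAt).mono Icc_subset_Ici_self
  have hcontY : ContinuousOn Y (Icc 0 t) := fun s hs =>
    ((hY.2 s hs.1).continuousWithinAt).mono Icc_subset_Ici_self
  obtain ⟨R₁, hR₁⟩ := isCompact_Icc.exists_bound_of_continuousOn hcontX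
  obtain ⟨R₂, hR₂⟩ := isCompact_Icc.exists_bound_of_continuousOn hcontY
  set R := max R₁ R₂ with hR
  set K : Set (ℝ × R3) := Icc 0 t ×ˢ Metric.closedBall 0 R with hK
  have hKc : IsCompact K := isCompact_Icc.prod (isCompact_closedBall _ _)
  have hKv : Convex ℝ K := (convex_Icc _ _).prod (convex_closedBall _ _)
  obtain ⟨L, hL⟩ : ∃ L, LipschitzOnWith L (fun z : ℝ × R3 => flowU Sh c z.1 z.2) K :=
    ContDiffOn.exists_lipschitzOnWith (n := 1)
      (((flowU_smooth hSh c).of_le (by exact_mod_cast le_top)).contDiffOn) (by simp) hKv hKc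
  have hlip : ∀ s ∈ Ico 0 t, LipschitzOnWith L (flowU Sh c s) (Metric.closedBall 0 R) := by
    intro s hs x hx y hy
    have h := hL (x := (s, x)) ⟨⟨hs.1, hs.2.le⟩, hx⟩ (y := (s, y)) ⟨⟨hs.1, hs.2.le⟩, hy⟩
    simpa [Prod.edist_eq] using h
  have hmem : ∀ (Z : ℝ → R3), (∀ s ∈ Icc 0 t, ‖Z s‖ ≤ R) → ∀ s ∈ Ico 0 t,
      Z s ∈ Metric.closedBall (0 : R3) R := by
    intro Z hZ s hs
    simpa using hZ s ⟨hs.1, hs.2.le⟩
  have hfin := ODE_solution_unique_of_mem_Icc_right (v := flowU Sh c)
    (s := fun _ => Metric.closedBall (0 : R3) R) (K := L) (f := X) (g := Y) (a := 0) (b := t)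
    hlip hcontX
    (fun s hs => (hX.2 s hs.1).mono (Ici_subset_Ici.2 hs.1))
    (hmem X fun s hs => (hR₁ s hs).trans (le_max_left _ _))
    hcontY
    (fun s hs => (hY.2 s hs.1).mono (Ici_subset_Ici.2 hs.1))
    (hmem Y fun s hs => (hR₂ s hs).trans (le_max_right _ _))
    (hX.1.trans hY.1.symm)
  exact hfin ⟨ht, le_rfl⟩

end Vale.Agent.P113
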