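import Vale.Agent.P113.FlowDefs

/-!
# Basic facts about shear flows: products of one-variable functions, time factors
-/

open Set Filter Topology
open scoped ContDiff

namespace Vale.Agent.P113

/-! ### The smooth transition function -/

lemma st_smooth : ContDiff ℝ ∞ Real.smoothTransition := Real.smoothTransition.contDiff

lemma smooth_iteratedDeriv {g : ℝ → ℝ} (hg : ContDiff ℝ ∞ g) (k : ℕ) :
    ContDiff ℝ ∞ (iteratedDeriv k g) := by
  rw [iteratedDeriv_eq_iterate]
  exact ContDiff.iterate_deriv k hg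

lemma smooth_deriv {g : ℝ → ℝ} (hg : ContDiff ℝ ∞ g) : ContDiff ℝ ∞ (deriv g) := by
  simpa [iteratedDeriv_one] using smooth_iteratedDeriv hg 1

lemma smooth_diff {g : ℝ → ℝ} (hg : ContDiff ℝ ∞ g) : Differentiable ℝ g :=
  hg.differentiable (by simp)

lemma iter2 (g : ℝ → ℝ) : iteratedDeriv 2 g = deriv (deriv g) := by
  rw [iteratedDeriv_succ, iteratedDeriv_one]

lemma st_iter_right {k : ℕ} (hk : 1 ≤ k) {s : ℝ} (hs : 1 ≤ s) :
    iteratedDeriv k Real.smoothTransition s = 0 := by
  have hc : Continuous (iteratedDeriv k Real.smoothTransition) :=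
    (smooth_iteratedDeriv st_smooth k).continuous
  have hcl : IsClosed {y | iteratedDeriv k Real.smoothTransition y = 0} :=
    isClosed_eq hc continuous_const
  have hsub : Ioi (1 : ℝ) ⊆ {y | iteratedDeriv k Real.smoothTransition y = 0} := by
    intro y hy
    have h1 : Real.smoothTransition =ᶠ[𝓝 y] fun _ => (1 : ℝ) := by
      filter_upwards [Ioi_mem_nhds hy] with w hw
      exact Real.smoothTransition.one_of_one_le (le_of_lt hw)
    show iteratedDeriv k Real.smoothTransition y = 0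
    rw [h1.iteratedDeriv_eq]
    rw [iteratedDeriv_const]
    simp; omega
  have h2 : closure (Ioi (1 : ℝ)) ⊆ {y | iteratedDeriv k Real.smoothTransition y = 0} :=
    closure_minimal hsub hcl
  rw [closure_Ioi] at h2
  exact h2 hs

lemma st_iter_left {k : ℕ} (_hk : 1 ≤ k) {s : ℝ} (hs : s ≤ 0) :
    iteratedDeriv k Real.smoothTransition s = 0 := by
  have hc : Continuous (iteratedDeriv k Real.smoothTransition) :=
    (smooth_iteratedDeriv st_smooth k).continuous
  have hcl : IsClosed {y | iteratedDeriv k Real.smoothTransition y = 0} :=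
    isClosed_eq hc continuous_const
  have hsub : Iio (0 : ℝ) ⊆ {y | iteratedDeriv k Real.smoothTransition y = 0} := by
    intro y hy
    have h1 : Real.smoothTransition =ᶠ[𝓝 y] fun _ => (0 : ℝ) := by
      filter_upwards [Iio_mem_nhds hy] with w hw
      exact Real.smoothTransition.zero_of_nonpos (le_of_lt hw)
    show iteratedDeriv k Real.smoothTransition y = 0
    rw [h1.iteratedDeriv_eq]
    rw [iteratedDeriv_const]
    simp
  have h2 : closure (Iio (0 : ℝ)) ⊆ {y | iteratedDeriv k Real.smoothTransition y = 0} :=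
    closure_minimal hsub hcl
  rw [closure_Iio] at h2
  exact h2 hs

lemma st_deriv_right {s : ℝ} (hs : 1 ≤ s) : deriv Real.smoothTransition s = 0 := by
  simpa [iteratedDeriv_one] using st_iter_right (k := 1) le_rfl hs

lemma st_deriv_left {s : ℝ} (hs : s ≤ 0) : deriv Real.smoothTransition s = 0 := by
  simpa [iteratedDeriv_one] using st_iter_left (k := 1) le_rfl hs

/-! ### Products of three one-variable functions -/

/-- The function `x ↦ f 0 (x 0) * f 1 (x 1) * f 2 (x 2)`. -/
noncomputable def P3 (f : Fin 3 → ℝ → ℝ) (x : R3) : ℝ := f 0 (x 0) * f 1 (x 1) * f 2 (x 2)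

lemma Shear.H_eq (S : Shear) : S.H = P3 S.fac := rfl

lemma P3_smooth {f : Fin 3 → ℝ → ℝ} (hf : ∀ j, ContDiff ℝ ∞ (f j)) : ContDiff ℝ ∞ (P3 f) := by
  unfold P3
  have h (j : Fin 3) : ContDiff ℝ ∞ (fun x : R3 => f j (x j)) :=
    (hf j).comp (contDiff_apply ℝ ℝ j)
  exact ((h 0).mul (h 1)).mul (h 2)

lemma hasLine_P3 {f : Fin 3 → ℝ → ℝ} (i : Fin 3) (hf : Differentiable ℝ (f i)) (x : R3) :
    HasLineDerivAt ℝ (P3 f) (P3 (Function.update f i (deriv (f i))) x) x (unitVec i) := by
  show HasDerivAt (fun t : ℝ => P3 f (x + t • unitVec i)) _ 0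
  have hd : HasDerivAt (fun t : ℝ => f i (x i + t)) (deriv (f i) (x i)) 0 := by
    have h1 : HasDerivAt (f i) (deriv (f i) (x i)) (x i + 0) := by
      simpa using (hf (x i)).hasDerivAt
    exact h1.comp_const_add (x i) 0
  fin_cases i
  · have e : (fun t : ℝ => P3 f (x + t • unitVec 0))
        = fun t => f 0 (x 0 + t) * (f 1 (x 1) * f 2 (x 2)) := by
      funext t
      simp [P3, unitVec, mul_assoc]
    have e2 : P3 (Function.update f 0 (deriv (f 0))) x
        = deriv (f 0) (x 0) * (f 1 (x 1) * f 2 (x 2)) := by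
      simp [P3, mul_assoc]
    simp only [Fin.zero_eta, Fin.isValue] at hd ⊢
    rw [e, e2]
    exact hd.mul_const _
  · have e : (fun t : ℝ => P3 f (x + t • unitVec 1))
        = fun t => f 1 (x 1 + t) * (f 0 (x 0) * f 2 (x 2)) := by
      funext t
      simp [P3, unitVec]
      ring
    have e2 : P3 (Function.update f 1 (deriv (f 1))) x
        = deriv (f 1) (x 1) * (f 0 (x 0) * f 2 (x 2)) := by
      simp [P3]
      ring
    simp only [Fin.mk_one, Fin.isValue] at hd ⊢
    rw [e, e2]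
    exact hd.mul_const _
  · have e : (fun t : ℝ => P3 f (x + t • unitVec 2))
        = fun t => f 2 (x 2 + t) * (f 0 (x 0) * f 1 (x 1)) := by
      funext t
      simp [P3, unitVec]
      ring
    have e2 : P3 (Function.update f 2 (deriv (f 2))) x
        = deriv (f 2) (x 2) * (f 0 (x 0) * f 1 (x 1)) := by
      simp [P3]
      ring
    simp only [Fin.reduceFinMk, Fin.isValue] at hd ⊢
    rw [e, e2]
    exact hd.mul_const _

lemma P3_update_zero (f : Fin 3 → ℝ → ℝ) (d : Fin 3) (x : R3) :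
    P3 (Function.update f d (fun _ => 0)) x = 0 := by
  fin_cases d <;> simp [P3]

lemma P3_periodic {f : Fin 3 → ℝ → ℝ} (hf : ∀ j s, f j (s + 1) = f j s) (x : R3) (i : Fin 3) :
    P3 f (x + unitVec i) = P3 f x := by
  fin_cases i <;> simp [P3, unitVec, hf]

lemma deriv_periodic {g : ℝ → ℝ} (hg : ∀ s, g (s + 1) = g s) (s : ℝ) :
    deriv g (s + 1) = deriv g s := by
  have h := deriv_comp_add_const g 1 s
  have e : (fun x => g (x + 1)) = g := funext hg
  rw [e] at h
  exact h.symm

lemma iter2_periodic {g : ℝ → ℝ} (hg : ∀ s, g (s + 1) = g s) (s : ℝ) :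
    iteratedDeriv 2 g (s + 1) = iteratedDeriv 2 g s := by
  rw [iter2]
  exact deriv_periodic (deriv_periodic hg) s

lemma unitVec_sum (d : Fin 3) (g : Fin 3 → ℝ) : ∑ i, unitVec d i * g i = g d := by
  simp [unitVec, Pi.single_apply]

/-! ### Time factors -/

lemma timeFac_apply (J m : ℕ) (t : ℝ) :
    timeFac J m t
      = ((J : ℝ) + 2) * deriv Real.smoothTransition (((J : ℝ) + 2) * Int.fract t - ((m : ℝ) + 1)) :=
  rfl

lemma timeFac_zero_of {J m : ℕ} {t : ℝ}
    (h : ((J : ℝ) + 2) * Int.fract t ≤ (m : ℝ) + 1 ∨ (m : ℝ) + 2 ≤ ((J : ℝ) + 2) * Int.fract t) :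
    timeFac J m t = 0 := by
  rw [timeFac_apply]
  rcases h with h | h
  · rw [st_deriv_left (by linarith), mul_zero]
  · rw [st_deriv_right (by linarith), mul_zero]

lemma timeFac_disjoint_lt {J m n : ℕ} (h : m < n) (t : ℝ) :
    timeFac J m t * timeFac J n t = 0 := by
  by_cases h1 : ((J : ℝ) + 2) * Int.fract t ≤ (m : ℝ) + 1 ∨ (m : ℝ) + 2 ≤ ((J : ℝ) + 2) * Int.fract t
  · rw [timeFac_zero_of h1, zero_mul]
  · push Not at h1
    have h2 : ((m : ℝ) + 1) ≤ n := by exact_mod_cast h
    rw [timeFac_zero_of (m := n) (Or.inl (by linarith [h1.2])), mul_zero]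

lemma timeFac_disjoint {J m n : ℕ} (h : m ≠ n) (t : ℝ) :
    timeFac J m t * timeFac J n t = 0 := by
  rcases lt_or_gt_of_ne h with h | h
  · exact timeFac_disjoint_lt h t
  · rw [mul_comm]; exact timeFac_disjoint_lt h t

/-- The time factor of the translation. -/
noncomputable def timeA (J : ℕ) (t : ℝ) : ℝ :=
  ((J : ℝ) + 2) * deriv Real.smoothTransition (((J : ℝ) + 2) * t)

lemma timeA_timeFac (J m : ℕ) (t : ℝ) : timeA J t * timeFac J m t = 0 := by
  have hJ : (0 : ℝ) < (J : ℝ) + 2 := by positivity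
  by_cases h1 : t ≤ 0
  · rw [timeA, st_deriv_left (by nlinarith), mul_zero, zero_mul]
  by_cases h2 : 1 ≤ ((J : ℝ) + 2) * t
  · rw [timeA, st_deriv_right h2, mul_zero, zero_mul]
  push Not at h1 h2
  have hJ2 : (2 : ℝ) ≤ (J : ℝ) + 2 := by
    have : (0 : ℝ) ≤ J := Nat.cast_nonneg J
    linarith
  have ht1 : t < 1 := by nlinarith
  have hf : Int.fract t = t := Int.fract_eq_self.2 ⟨h1.le, ht1⟩
  have hm : (0 : ℝ) ≤ m := Nat.cast_nonneg m
  rw [timeFac_zero_of (Or.inl (by rw [hf]; linarith)), mul_zero]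

lemma timeFac_periodic (J m : ℕ) (t : ℝ) : timeFac J m (t + 1) = timeFac J m t :=
  perExt_periodic _ _

lemma timeA_tail {J : ℕ} {t : ℝ} (ht : 1 / ((J : ℝ) + 2) ≤ t) : timeA J t = 0 := by
  have hJ : (0 : ℝ) < (J : ℝ) + 2 := by positivity
  have : 1 ≤ ((J : ℝ) + 2) * t := by
    rw [div_le_iff₀ hJ] at ht
    linarith
  rw [timeA, st_deriv_right this, mul_zero]

lemma timeA_zero (J : ℕ) : timeA J 0 = 0 := by
  rw [timeA, st_deriv_left (by simp), mul_zero]

lemma timeFac_zero (J m : ℕ) : timeFac J m 0 = 0 := by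
  apply timeFac_zero_of
  left
  have hm : (0 : ℝ) ≤ m := Nat.cast_nonneg m
  simp
  linarith

/-- The generating function of the time factor. -/
lemma timeFac_effSm {J m : ℕ} (hm : m < J) : EffSm (timeFac J m) := by
  have hJ : (0 : ℝ) < (J : ℝ) + 2 := by positivity
  refine EffSm.perExt (ε := 1 / ((J : ℝ) + 2)) (by positivity) ?_ ?_
  · have h := ((effSm_smoothTransition.deriv).comp_affine ((J : ℚ) + 2) (-((m : ℚ) + 1))).rat_mul
      ((J : ℚ) + 2)
    have e : (fun s : ℝ => (((J : ℚ) + 2 : ℚ) : ℝ) * deriv Real.smoothTransition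
        ((((J : ℚ) + 2 : ℚ) : ℝ) * s + ((-((m : ℚ) + 1) : ℚ) : ℝ)))
        = fun s : ℝ => ((J : ℝ) + 2) * deriv Real.smoothTransition (((J : ℝ) + 2) * s - ((m : ℝ) + 1)) := by
      funext s
      push_cast
      ring_nf
    rw [e] at h
    exact h
  · intro s hs
    have hm' : ((m : ℝ) + 1) ≤ J := by exact_mod_cast hm
    have hm0 : (0 : ℝ) ≤ m := Nat.cast_nonneg m
    rcases hs with hs | hs
    · have : ((J : ℝ) + 2) * s ≤ 1 := by
        rw [le_div_iff₀ hJ] at hs
        linarith
      simp only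
      rw [st_deriv_left (by linarith), mul_zero]
    · have : (J : ℝ) + 1 ≤ ((J : ℝ) + 2) * s := by
        have h3 : 1 - 1 / ((J : ℝ) + 2) = ((J : ℝ) + 1) / ((J : ℝ) + 2) := by
          field_simp; ring
        rw [h3, div_le_iff₀ hJ] at hs
        linarith
      simp only
      rw [st_deriv_right (by linarith), mul_zero]

end Vale.Agent.P113
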