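import Vale.Agent.P113.EffFn

/-!
# Time-periodic shear flows

A `Shear` is a map `x ↦ x + H x • e_dir` with `H x = fac 0 (x 0) * fac 1 (x 1) * fac 2 (x 2)`,
and `fac dir = 1`, so that `H` is independent of the `dir` coordinate.  A family of `J` shears is
run in time slots of length `1/(J+2)`:  on `[n + (m+1)/(J+2), n + (m+2)/(J+2)]`
the velocity is `τ_m(t) H_m(x) e_{dir m}`; the two extra slots per unit of time are padding.
The first padding slot of the first unit of time also holds a translation by `c`.
Such a velocity field solves Navier-Stokes with zero pressure and an explicit force.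
-/

open Set
open scoped ContDiff

namespace Vale.Agent.P113

/-- A shear: direction and three factors. -/
structure Shear where
  dir : Fin 3
  fac : Fin 3 → ℝ → ℝ

/-- Factors must be smooth, effective, and `1`-periodic, and the factor in the shear direction must
be `1`. -/
structure Shear.Good (S : Shear) : Prop where
  fac_eff : ∀ k, EffSm (S.fac k)
  fac_per : ∀ k s, S.fac k (s + 1) = S.fac k s
  fac_dir : ∀ s, S.fac S.dir s = 1

/-- The amplitude of a shear. -/
noncomputable def Shear.H (S : Shear) (x : R3) : ℝ :=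
  S.fac 0 (x 0) * S.fac 1 (x 1) * S.fac 2 (x 2)

/-- The shear map. -/
noncomputable def Shear.map (S : Shear) (x : R3) : R3 := x + S.H x • unitVec S.dir

/-- The Laplacian of the amplitude. -/
noncomputable def Shear.lapH (S : Shear) (x : R3) : ℝ :=
  iteratedDeriv 2 (S.fac 0) (x 0) * S.fac 1 (x 1) * S.fac 2 (x 2)
  + S.fac 0 (x 0) * iteratedDeriv 2 (S.fac 1) (x 1) * S.fac 2 (x 2)
  + S.fac 0 (x 0) * S.fac 1 (x 1) * iteratedDeriv 2 (S.fac 2) (x 2)

/-- The time factor of slot `m` when there are `J` slots. -/
noncomputable def timeFac (J m : ℕ) : ℝ → ℝ :=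
  perExt (fun s => ((J : ℝ) + 2) * deriv Real.smoothTransition (((J : ℝ) + 2) * s - ((m : ℝ) + 1)))

/-- The velocity field. -/
noncomputable def flowU {J : ℕ} (Sh : Fin J → Shear) (c : R3) (t : ℝ) (x : R3) : R3 :=
  (((J : ℝ) + 2) * deriv Real.smoothTransition (((J : ℝ) + 2) * t)) • c
  + ∑ m : Fin J, (timeFac J m t * (Sh m).H x) • unitVec (Sh m).dir

/-- The force making `flowU` a solution with zero pressure. -/
noncomputable def flowF {J : ℕ} (ν : ℝ) (Sh : Fin J → Shear) (c : R3) (t : ℝ) (x : R3) : R3 :=
  (((J : ℝ) + 2) ^ 2 * iteratedDeriv 2 Real.smoothTransition (((J : ℝ) + 2) * t)) • c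
  + ∑ m : Fin J, (deriv (timeFac J m) t * (Sh m).H x - ν * timeFac J m t * (Sh m).lapH x)
      • unitVec (Sh m).dir

/-- The sequence of points visited at the slot ends, starting from `p`. -/
noncomputable def slotPt {J : ℕ} [NeZero J] (Sh : Fin J → Shear) (p : R3) : ℕ → R3
  | 0 => p
  | g + 1 => (Sh (Fin.ofNat J g)).map (slotPt Sh p g)

end Vale.Agent.P113
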