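import Vale.Agent.P113.FlowBasic

/-!
# The shear flow solves Navier-Stokes
-/

open Set
open scoped ContDiff

namespace Vale.Agent.P113

variable {J : ℕ} {Sh : Fin J → Shear}

lemma flowU_apply (c : R3) (t : ℝ) (x : R3) (k : Fin 3) :
    flowU Sh c t x k
      = timeA J t * c k + ∑ m : Fin J, timeFac J m t * unitVec (Sh m).dir k * P3 (Sh m).fac x := by
  simp only [flowU, Pi.add_apply, Pi.smul_apply, smul_eq_mul, Finset.sum_apply, timeA]
  congr 1
  refine Finset.sum_congr rfl fun m _ => ?_
  rw [Shear.H_eq]
  ring

/-- The time derivative of the velocity. -/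
noncomputable def flowV (Sh : Fin J → Shear) (c : R3) (t : ℝ) (x : R3) : R3 :=
  (((J : ℝ) + 2) ^ 2 * iteratedDeriv 2 Real.smoothTransition (((J : ℝ) + 2) * t)) • c
  + ∑ m : Fin J, (deriv (timeFac J m) t * (Sh m).H x) • unitVec (Sh m).dir

section
variable (hSh : ∀ m, (Sh m).Good)
include hSh

lemma fac_smooth (m : Fin J) (j : Fin 3) : ContDiff ℝ ∞ ((Sh m).fac j) :=
  ((hSh m).fac_eff j).smooth

lemma H_smooth (m : Fin J) : ContDiff ℝ ∞ ((Sh m).H) := P3_smooth (fac_smooth hSh m)

omit hSh in
lemma tau_smooth (m : Fin J) : ContDiff ℝ ∞ (timeFac J m) := (timeFac_effSm m.2).smooth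

omit hSh in
lemma timeA_hasDeriv (t : ℝ) :
    HasDerivAt (timeA J)
      (((J : ℝ) + 2) ^ 2 * iteratedDeriv 2 Real.smoothTransition (((J : ℝ) + 2) * t)) t := by
  have h1 : HasDerivAt (deriv Real.smoothTransition)
      (iteratedDeriv 2 Real.smoothTransition (((J : ℝ) + 2) * t)) (((J : ℝ) + 2) * t) := by
    rw [iter2]
    exact (smooth_diff (smooth_deriv st_smooth) _).hasDerivAt
  have h2 : HasDerivAt (fun s : ℝ => ((J : ℝ) + 2) * s) ((J : ℝ) + 2) t := by
    simpa using (hasDerivAt_id t).const_mul ((J : ℝ) + 2)
  have h3 := (h1.comp t h2).const_mul ((J : ℝ) + 2)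
  have e : ((J : ℝ) + 2) * (iteratedDeriv 2 Real.smoothTransition (((J : ℝ) + 2) * t) * ((J : ℝ) + 2))
      = ((J : ℝ) + 2) ^ 2 * iteratedDeriv 2 Real.smoothTransition (((J : ℝ) + 2) * t) := by ring
  rw [← e]
  exact h3

omit hSh in
lemma timeA_smooth : ContDiff ℝ ∞ (timeA J) := by
  unfold timeA
  exact contDiff_const.mul ((smooth_deriv st_smooth).comp (contDiff_const.mul contDiff_id))

omit hSh in
lemma flowU_hasDeriv (c : R3) (t : ℝ) (x : R3) :
    HasDerivAt (fun s => flowU Sh c s x) (flowV Sh c t x) t := by
  unfold flowU flowV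
  refine HasDerivAt.add ?_ ?_
  · exact (timeA_hasDeriv t).smul_const c
  · refine HasDerivAt.fun_sum fun m _ => ?_
    have h1 : HasDerivAt (timeFac J m) (deriv (timeFac J m) t) t :=
      (smooth_diff (tau_smooth m) t).hasDerivAt
    exact (h1.mul_const _).smul_const _

lemma flowU_smooth (c : R3) : ContDiff ℝ ∞ (fun z : ℝ × R3 => flowU Sh c z.1 z.2) := by
  unfold flowU
  refine ContDiff.add ?_ ?_
  · exact (timeA_smooth.comp contDiff_fst).smul contDiff_const
  · refine ContDiff.sum fun m _ => ?_
    exact (((tau_smooth m).comp contDiff_fst).mul ((H_smooth hSh m).comp contDiff_snd)).smul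
      contDiff_const

lemma flowV_cont (c : R3) : Continuous (fun z : ℝ × R3 => flowV Sh c z.1 z.2) := by
  unfold flowV
  refine Continuous.add ?_ ?_
  · exact (continuous_const.mul ((smooth_iteratedDeriv st_smooth 2).continuous.comp
      (continuous_const.mul continuous_fst))).smul continuous_const
  · refine continuous_finsetSum _ fun m _ => ?_
    exact (((smooth_deriv (tau_smooth m)).continuous.comp continuous_fst).mul
      ((H_smooth hSh m).continuous.comp continuous_snd)).smul continuous_const

/-- The first spatial derivative of a component of the velocity. -/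
lemma pd_flowU (c : R3) (t : ℝ) (i k : Fin 3) (x : R3) :
    pd i (fun y => flowU Sh c t y k) x
      = ∑ m : Fin J, timeFac J m t * unitVec (Sh m).dir k
          * P3 (Function.update (Sh m).fac i (deriv ((Sh m).fac i))) x := by
  have e : (fun y => flowU Sh c t y k)
      = fun y => timeA J t * c k
          + ∑ m : Fin J, timeFac J m t * unitVec (Sh m).dir k * P3 (Sh m).fac y := by
    funext y
    exact flowU_apply c t y k
  rw [e]
  apply HasLineDerivAt.lineDeriv
  show HasDerivAt (fun s : ℝ => timeA J t * c k
    + ∑ m : Fin J, timeFac J m t * unitVec (Sh m).dir k * P3 (Sh m).fac (x + s • unitVec i)) _ 0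
  have h : HasDerivAt (fun s : ℝ =>
      ∑ m : Fin J, timeFac J m t * unitVec (Sh m).dir k * P3 (Sh m).fac (x + s • unitVec i))
      (∑ m : Fin J, timeFac J m t * unitVec (Sh m).dir k
          * P3 (Function.update (Sh m).fac i (deriv ((Sh m).fac i))) x) 0 := by
    refine HasDerivAt.fun_sum fun m _ => ?_
    have h1 : HasDerivAt (fun s : ℝ => P3 (Sh m).fac (x + s • unitVec i))
        (P3 (Function.update (Sh m).fac i (deriv ((Sh m).fac i))) x) 0 :=
      hasLine_P3 i (smooth_diff (fac_smooth hSh m i)) x
    exact h1.const_mul _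
  exact h.const_add _

/-- The second spatial derivative of a component of the velocity. -/
lemma pd_pd_flowU (c : R3) (t : ℝ) (i k : Fin 3) (x : R3) :
    pd i (pd i (fun y => flowU Sh c t y k)) x
      = ∑ m : Fin J, timeFac J m t * unitVec (Sh m).dir k
          * P3 (Function.update (Sh m).fac i (iteratedDeriv 2 ((Sh m).fac i))) x := by
  have e : pd i (fun y => flowU Sh c t y k)
      = fun y => ∑ m : Fin J, timeFac J m t * unitVec (Sh m).dir k
          * P3 (Function.update (Sh m).fac i (deriv ((Sh m).fac i))) y := by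
    funext y
    exact pd_flowU hSh c t i k y
  rw [e]
  apply HasLineDerivAt.lineDeriv
  show HasDerivAt (fun s : ℝ => ∑ m : Fin J, timeFac J m t * unitVec (Sh m).dir k
          * P3 (Function.update (Sh m).fac i (deriv ((Sh m).fac i))) (x + s • unitVec i)) _ 0
  refine HasDerivAt.fun_sum fun m _ => ?_
  have h0 : Differentiable ℝ (Function.update (Sh m).fac i (deriv ((Sh m).fac i)) i) := by
    rw [Function.update_self]
    exact smooth_diff (smooth_deriv (fac_smooth hSh m i))
  have h1 : HasDerivAt (fun s : ℝ =>
      P3 (Function.update (Sh m).fac i (deriv ((Sh m).fac i))) (x + s • unitVec i))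
      (P3 (Function.update (Sh m).fac i (iteratedDeriv 2 ((Sh m).fac i))) x) 0 := by
    have := hasLine_P3 i h0 x
    rw [Function.update_self, Function.update_idem, ← iter2] at this
    exact this
  exact h1.const_mul _

omit hSh in
lemma lapH_eq (S : Shear) (x : R3) :
    S.lapH x = ∑ i, P3 (Function.update S.fac i (iteratedDeriv 2 (S.fac i))) x := by
  rw [Fin.sum_univ_three]
  simp [Shear.lapH, P3]

/-- The derivative of the amplitude in the direction of the shear vanishes. -/
lemma dH_dir (m : Fin J) (x : R3) :
    P3 (Function.update (Sh m).fac (Sh m).dir (deriv ((Sh m).fac (Sh m).dir))) x = 0 := by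
  have e : deriv ((Sh m).fac (Sh m).dir) = fun _ => 0 := by
    have h : (Sh m).fac (Sh m).dir = fun _ => 1 := funext (hSh m).fac_dir
    rw [h]
    funext s
    simp
  rw [e]
  exact P3_update_zero _ _ _

omit hSh in
lemma pd_zero (k : Fin 3) (x : R3) : pd k (fun _ : R3 => (0 : ℝ)) x = 0 := by
  apply HasLineDerivAt.lineDeriv
  show HasDerivAt (fun _ : ℝ => (0 : ℝ)) 0 0
  exact hasDerivAt_const _ _

/-- The divergence vanishes. -/
lemma flowU_div (c : R3) (t : ℝ) (x : R3) :
    ∑ i, pd i (fun y => flowU Sh c t y i) x = 0 := by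
  simp_rw [pd_flowU hSh]
  rw [Finset.sum_comm]
  refine Finset.sum_eq_zero fun m _ => ?_
  have h := unitVec_sum (Sh m).dir
    (fun i => timeFac J m t * P3 (Function.update (Sh m).fac i (deriv ((Sh m).fac i))) x)
  have e : ∑ i, timeFac J m t * unitVec (Sh m).dir i
        * P3 (Function.update (Sh m).fac i (deriv ((Sh m).fac i))) x
      = ∑ i, unitVec (Sh m).dir i
        * (timeFac J m t * P3 (Function.update (Sh m).fac i (deriv ((Sh m).fac i))) x) :=
    Finset.sum_congr rfl fun i _ => by ring
  rw [e, h, dH_dir hSh, mul_zero]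

/-- The convection term vanishes. -/
lemma flowU_conv (c : R3) (t : ℝ) (x : R3) (k : Fin 3) :
    ∑ i, flowU Sh c t x i * pd i (fun y => flowU Sh c t y k) x = 0 := by
  simp_rw [pd_flowU hSh]
  by_cases h : ∃ m : Fin J, timeFac J m t ≠ 0
  · obtain ⟨m0, hm0⟩ := h
    have hA : timeA J t = 0 := by
      have := timeA_timeFac J m0 t
      exact (mul_eq_zero.1 this).resolve_right hm0
    have hn : ∀ n : Fin J, n ≠ m0 → timeFac J n t = 0 := by
      intro n hn
      have hne : (n : ℕ) ≠ m0 := fun h => hn (Fin.ext h)
      have := timeFac_disjoint (J := J) hne t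
      exact (mul_eq_zero.1 this).resolve_right hm0
    have e1 : ∀ i, flowU Sh c t x i
        = timeFac J m0 t * unitVec (Sh m0).dir i * P3 (Sh m0).fac x := by
      intro i
      rw [flowU_apply, hA, zero_mul, zero_add]
      refine Finset.sum_eq_single m0 (fun n _ hne => ?_) (fun h => absurd (Finset.mem_univ _) h)
      rw [hn n hne]
      ring
    have e2 : ∀ i, ∑ m : Fin J, timeFac J m t * unitVec (Sh m).dir k
          * P3 (Function.update (Sh m).fac i (deriv ((Sh m).fac i))) x
        = timeFac J m0 t * unitVec (Sh m0).dir k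
          * P3 (Function.update (Sh m0).fac i (deriv ((Sh m0).fac i))) x := by
      intro i
      refine Finset.sum_eq_single m0 (fun n _ hne => ?_) (fun h => absurd (Finset.mem_univ _) h)
      rw [hn n hne]
      ring
    simp_rw [e1, e2]
    have h := unitVec_sum (Sh m0).dir
      (fun i => (timeFac J m0 t * P3 (Sh m0).fac x) * (timeFac J m0 t * unitVec (Sh m0).dir k
          * P3 (Function.update (Sh m0).fac i (deriv ((Sh m0).fac i))) x))
    have e : ∑ i, timeFac J m0 t * unitVec (Sh m0).dir i * P3 (Sh m0).fac x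
        * (timeFac J m0 t * unitVec (Sh m0).dir k
          * P3 (Function.update (Sh m0).fac i (deriv ((Sh m0).fac i))) x)
        = ∑ i, unitVec (Sh m0).dir i * ((timeFac J m0 t * P3 (Sh m0).fac x)
          * (timeFac J m0 t * unitVec (Sh m0).dir k
          * P3 (Function.update (Sh m0).fac i (deriv ((Sh m0).fac i))) x)) :=
      Finset.sum_congr rfl fun i _ => by ring
    rw [e, h, dH_dir hSh, mul_zero, mul_zero]
  · push Not at h
    refine Finset.sum_eq_zero fun i _ => ?_
    have : ∑ m : Fin J, timeFac J m t * unitVec (Sh m).dir k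
          * P3 (Function.update (Sh m).fac i (deriv ((Sh m).fac i))) x = 0 :=
      Finset.sum_eq_zero fun m _ => by rw [h m]; ring
    rw [this, mul_zero]

omit hSh in
lemma fderiv_cont {u : ℝ → R3 → R3} (hu : ContDiff ℝ ∞ (fun z : ℝ × R3 => u z.1 z.2)) :
    ContDiff ℝ ∞ (fun z : ℝ × R3 => fderiv ℝ (u z.1) z.2) := by
  have h : ContDiff ℝ ∞ (Function.uncurry (fun z : ℝ × R3 => u z.1)) :=
    hu.comp (contDiff_fst.fst.prodMk contDiff_snd)
  exact ContDiff.fderiv (m := ∞) (n := ∞) h contDiff_snd (by simp)

omit hSh in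
lemma fderiv2_cont {u : ℝ → R3 → R3} (hu : ContDiff ℝ ∞ (fun z : ℝ × R3 => u z.1 z.2)) :
    ContDiff ℝ ∞ (fun z : ℝ × R3 => fderiv ℝ (fderiv ℝ (u z.1)) z.2) := by
  have h0 := fderiv_cont hu
  have h : ContDiff ℝ ∞ (Function.uncurry (fun z : ℝ × R3 => fderiv ℝ (u z.1))) :=
    h0.comp (contDiff_fst.fst.prodMk contDiff_snd)
  exact ContDiff.fderiv (m := ∞) (n := ∞) h contDiff_snd (by simp)

lemma H_periodic (m : Fin J) (x : R3) (i : Fin 3) : (Sh m).H (x + unitVec i) = (Sh m).H x :=
  P3_periodic (hSh m).fac_per x i

lemma flowU_periodic (c : R3) (t : ℝ) : SpacePeriodic (flowU Sh c t) := by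
  intro x i
  unfold flowU
  simp_rw [H_periodic hSh]

lemma derivWithin_flowU (c : R3) {T t : ℝ} (hT : 0 < T) (ht : t ∈ Icc 0 T) (x : R3) :
    derivWithin (fun s => flowU Sh c s x) (Icc 0 T) t = flowV Sh c t x :=
  ((flowU_hasDeriv c t x).hasDerivWithinAt).derivWithin (uniqueDiffOn_Icc hT t ht)

end

theorem flow_solution (hSh : ∀ m, (Sh m).Good) (ν : ℝ) (c : R3) :
    IsGlobalSmoothSolution ν (flowF ν Sh c) (flowU Sh c) (fun _ _ => 0) := by
  have hU := flowU_smooth hSh c
  refine ⟨hU, contDiff_const, fun T hT => ?_⟩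
  have hslice : ∀ t, ContDiff ℝ ∞ (flowU Sh c t) := fun t =>
    hU.comp (contDiff_const.prodMk contDiff_id)
  exact
    { u_periodic := fun t _ => flowU_periodic hSh c t
      p_periodic := fun _ _ _ _ => rfl
      u_contDiff := fun t _ => by exact_mod_cast contDiff_infty.1 (hslice t) 2
      p_contDiff := fun _ _ => contDiff_const
      u_timeDiff := fun t _ x =>
        ((flowU_hasDeriv c t x).differentiableAt).differentiableWithinAt
      u_cont := hU.continuous.continuousOn
      dt_cont := by
        refine (flowV_cont hSh c).continuousOn.congr ?_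
        rintro ⟨t, x⟩ ⟨ht, -⟩
        exact derivWithin_flowU hSh c hT ht x
      du_cont := (fderiv_cont hU).continuous.continuousOn
      ddu_cont := (fderiv2_cont hU).continuous.continuousOn
      p_cont := continuous_const.continuousOn
      dp_cont := by
        simp only [fderiv_fun_const, Pi.zero_apply]
        exact continuous_const.continuousOn
      initial := by
        intro x
        unfold flowU
        have h1 := timeA_zero J
        unfold timeA at h1
        rw [h1]
        simp [timeFac_zero]
      divergence_free := fun t _ x => flowU_div hSh c t x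
      momentum := by
        intro t ht x k
        rw [derivWithin_flowU hSh c hT ht x, flowU_conv hSh c t x k, pd_zero]
        simp_rw [pd_pd_flowU hSh c t _ k x]
        rw [Finset.sum_comm]
        have e : ∀ m : Fin J, ∑ i, timeFac J m t * unitVec (Sh m).dir k
              * P3 (Function.update (Sh m).fac i (iteratedDeriv 2 ((Sh m).fac i))) x
            = timeFac J m t * unitVec (Sh m).dir k * (Sh m).lapH x := by
          intro m
          rw [lapH_eq, Finset.mul_sum]
        simp_rw [e]
        simp only [flowV, flowF, Pi.add_apply, Pi.smul_apply, smul_eq_mul, Finset.sum_apply]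
        rw [Finset.mul_sum]
        have e2 : ∀ m : Fin J, (deriv (timeFac J m) t * (Sh m).H x - ν * timeFac J m t * (Sh m).lapH x)
              * unitVec (Sh m).dir k
            = deriv (timeFac J m) t * (Sh m).H x * unitVec (Sh m).dir k
              - ν * (timeFac J m t * unitVec (Sh m).dir k * (Sh m).lapH x) := by
          intro m; ring
        simp_rw [e2, Finset.sum_sub_distrib]
        ring
      p_mean_zero := fun _ _ => by simp }

theorem flow_force_smooth (hSh : ∀ m, (Sh m).Good) (ν : ℝ) (c : R3) :
    IsSmoothForce (flowF ν Sh c) := by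
  constructor
  · unfold flowF
    refine ContDiff.add ?_ ?_
    · exact (contDiff_const.mul ((smooth_iteratedDeriv st_smooth 2).comp
        (contDiff_const.mul contDiff_fst))).smul contDiff_const
    · refine ContDiff.sum fun m _ => ?_
      have h0 : ContDiff ℝ ∞ (fun z : ℝ × R3 =>
          deriv (timeFac J m) z.1 * (Sh m).H z.2 - ν * timeFac J m z.1 * (Sh m).lapH z.2) := by
        refine ContDiff.sub ?_ ?_
        · exact ((smooth_deriv (tau_smooth m)).comp contDiff_fst).mul
            ((H_smooth hSh m).comp contDiff_snd)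
        refine ((contDiff_const.mul ((tau_smooth m).comp contDiff_fst))).mul ?_
        have h : ContDiff ℝ ∞ (Sh m).lapH := by
          have : (Sh m).lapH = fun x => ∑ i, P3 (Function.update (Sh m).fac i
              (iteratedDeriv 2 ((Sh m).fac i))) x := funext (lapH_eq (Sh m))
          rw [this]
          refine ContDiff.sum fun i _ => ?_
          refine P3_smooth fun j => ?_
          by_cases hj : j = i
          · subst hj
            rw [Function.update_self]
            exact smooth_iteratedDeriv (fac_smooth hSh m j) 2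
          · rw [Function.update_of_ne hj]
            exact fac_smooth hSh m j
        exact h.comp contDiff_snd
      exact h0.smul contDiff_const
  · intro t x i
    unfold flowF
    have e1 : ∀ m : Fin J, (Sh m).lapH (x + unitVec i) = (Sh m).lapH x := by
      intro m
      rw [lapH_eq, lapH_eq]
      refine Finset.sum_congr rfl fun j _ => ?_
      refine P3_periodic (fun l s => ?_) x i
      by_cases hl : l = j
      · subst hl
        rw [Function.update_self]
        exact iter2_periodic ((hSh m).fac_per l) s
      · rw [Function.update_of_ne hl]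
        exact (hSh m).fac_per l s
    simp_rw [H_periodic hSh, e1]

lemma st_iter2_tail {J : ℕ} {t : ℝ} (ht : 1 / ((J : ℝ) + 2) ≤ t) :
    iteratedDeriv 2 Real.smoothTransition (((J : ℝ) + 2) * t) = 0 := by
  have hJ : (0 : ℝ) < (J : ℝ) + 2 := by positivity
  refine st_iter_right (by norm_num) ?_
  rw [div_le_iff₀ hJ] at ht
  linarith

/-- After the first slot the force does not depend on `c`. -/
theorem flow_force_tail (ν : ℝ) (c c' : R3) (t : ℝ) (ht : 1 / ((J : ℝ) + 2) ≤ t) (x : R3) :
    flowF ν Sh c t x = flowF ν Sh c' t x := by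
  unfold flowF
  rw [st_iter2_tail ht]
  simp

/-- After the first slot the force is `1`-periodic in time. -/
theorem flow_force_periodic (ν : ℝ) (c : R3) (t : ℝ) (ht : 1 / ((J : ℝ) + 2) ≤ t) (x : R3) :
    flowF ν Sh c (t + 1) x = flowF ν Sh c t x := by
  unfold flowF
  have hJ : (0 : ℝ) < (J : ℝ) + 2 := by positivity
  have ht2 : 1 / ((J : ℝ) + 2) ≤ t + 1 := by linarith
  rw [st_iter2_tail ht, st_iter2_tail ht2]
  have e : ∀ m : Fin J, deriv (timeFac J m) (t + 1) = deriv (timeFac J m) t := fun m =>
    deriv_periodic (timeFac_periodic J m) t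
  simp_rw [e, timeFac_periodic]

end Vale.Agent.P113
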