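import Vale.Agent.P113.PhysEnc
import Vale.Agent.P113.CompBase

/-!
# Rational codes of finite digit expansions
-/

namespace Vale.Agent.P113

/-- The value of a finite digit list in base `B`. -/
noncomputable def valB (B : ℕ) : List ℕ → ℝ
  | [] => 0
  | d :: ds => ((d : ℝ) + valB B ds) / B

/-- Numerator and denominator of the value of a finite digit list in base `B`. -/
def foldB (B : ℕ) (ds : List ℕ) : ℕ × ℕ :=
  ds.foldr (fun d p => (d * p.2 + p.1, B * p.2)) (0, 1)

lemma foldB_pos {B : ℕ} (hB : 0 < B) (ds : List ℕ) : 0 < (foldB B ds).2 := by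
  induction ds with
  | nil => simp [foldB]
  | cons d ds ih =>
    have : foldB B (d :: ds) = (d * (foldB B ds).2 + (foldB B ds).1, B * (foldB B ds).2) := rfl
    rw [this]
    exact Nat.mul_pos hB ih

lemma valB_eq {B : ℕ} (hB : 0 < B) (ds : List ℕ) :
    valB B ds = ((foldB B ds).1 : ℝ) / ((foldB B ds).2 : ℝ) := by
  induction ds with
  | nil => simp [foldB, valB]
  | cons d ds ih =>
    have h1 : foldB B (d :: ds) = (d * (foldB B ds).2 + (foldB B ds).1, B * (foldB B ds).2) := rfl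
    have h2 := foldB_pos hB ds
    have hB' : (B : ℝ) ≠ 0 := by positivity
    have h2' : ((foldB B ds).2 : ℝ) ≠ 0 := by positivity
    rw [h1]
    simp only [valB, ih]
    push_cast
    field_simp

lemma foldB_primrec (B : ℕ) : Primrec (foldB B) := by
  have h : Primrec (fun ds : List ℕ => ds.foldr (fun d p => ((d * p.2 + p.1, B * p.2) : ℕ × ℕ)) ((0 : ℕ), (1 : ℕ))) :=
    Primrec.list_foldr (h := fun (_ : List ℕ) (bs : ℕ × (ℕ × ℕ)) => ((bs.1 * bs.2.2 + bs.2.1, B * bs.2.2) : ℕ × ℕ))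
      Primrec.id (Primrec.const _) (by
        refine Primrec.pair ?_ ?_
        · exact Primrec.nat_add.comp
            (Primrec.nat_mul.comp (Primrec.fst.comp (Primrec.snd)) (Primrec.snd.comp (Primrec.snd.comp Primrec.snd)))
            (Primrec.fst.comp (Primrec.snd.comp Primrec.snd))
        · exact Primrec.nat_mul.comp (Primrec.const B) (Primrec.snd.comp (Primrec.snd.comp Primrec.snd)))
  exact h

/-- A code of the rational `ℓ * valB B ds`, for `ℓ > 0`. -/
def ellCode (ℓ : ℚ) (B : ℕ) (ds : List ℕ) : RatCode :=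
  (ℓ.num.toNat * (foldB B ds).1, 0, ℓ.den * (foldB B ds).2 - 1)

lemma ratVal_ellCode {ℓ : ℚ} (hℓ : 0 < ℓ) {B : ℕ} (hB : 0 < B) (ds : List ℕ) :
    ratVal (ellCode ℓ B ds) = (ℓ : ℝ) * valB B ds := by
  have h1 : 0 < (foldB B ds).2 := foldB_pos hB ds
  have h2 : 0 < ℓ.den := ℓ.den_pos
  have h3 : 1 ≤ ℓ.den * (foldB B ds).2 := Nat.mul_pos h2 h1
  have hnum : 0 < ℓ.num := Rat.num_pos.2 hℓ
  have hcast : ((ℓ.num.toNat : ℕ) : ℝ) = ((ℓ.num : ℤ) : ℝ) := by
    have : ((ℓ.num.toNat : ℕ) : ℤ) = ℓ.num := Int.toNat_of_nonneg hnum.le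
    exact_mod_cast this
  have hℓr : (ℓ : ℝ) = ((ℓ.num : ℤ) : ℝ) / ((ℓ.den : ℕ) : ℝ) := by
    have := Rat.num_div_den ℓ
    exact_mod_cast this.symm
  unfold ratVal ellCode
  simp only
  rw [valB_eq hB, hℓr]
  have hsub : (((ℓ.den * (foldB B ds).2 - 1 : ℕ) : ℝ)) + 1 = (ℓ.den : ℝ) * ((foldB B ds).2 : ℝ) := by
    have : ((ℓ.den * (foldB B ds).2 - 1 + 1 : ℕ) : ℝ) = ((ℓ.den * (foldB B ds).2 : ℕ) : ℝ) := by
      rw [Nat.sub_add_cancel h3]
    push_cast at this ⊢
    linarith
  rw [hsub]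
  push_cast
  rw [hcast]
  have h1' : ((foldB B ds).2 : ℝ) ≠ 0 := by positivity
  have h2' : (ℓ.den : ℝ) ≠ 0 := by positivity
  field_simp
  ring

lemma ellCode_primrec (ℓ : ℚ) (B : ℕ) : Primrec (ellCode ℓ B) := by
  have hf := foldB_primrec B
  refine Primrec.pair ?_ (Primrec.pair (Primrec.const 0) ?_)
  · exact Primrec.nat_mul.comp (Primrec.const _) (Primrec.fst.comp hf)
  · exact Primrec.nat_sub.comp (Primrec.nat_mul.comp (Primrec.const _) (Primrec.snd.comp hf))
      (Primrec.const 1)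

/-- The infinite sum with finitely many nonzero digits is the finite value. -/
lemma tsum_digits_eq_valB {B : ℕ} (hB : 2 ≤ B) (ds : List ℕ) (hds : ∀ d ∈ ds, d < B) :
    ∑' k : ℕ, ((ds.getD k 0 : ℕ) : ℝ) / (B : ℝ) ^ (k + 1) = valB B ds := by
  induction ds with
  | nil => simp [valB]
  | cons d ds ih =>
    have hds' : ∀ d ∈ ds, d < B := fun e he => hds e (List.mem_cons_of_mem _ he)
    have hBpos : (0 : ℝ) < B := by
      have : 0 < B := by omega
      exact_mod_cast this
    have hlt : ∀ k, (d :: ds).getD k 0 < B := by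
      intro k
      cases k with
      | zero => simpa using hds d (by simp)
      | succ k =>
        by_cases h : k < ds.length
        · simp only [List.getD_cons_succ]
          rw [List.getD_eq_getElem _ _ h]
          exact hds' _ (List.getElem_mem h)
        · simp only [List.getD_cons_succ]
          rw [List.getD_eq_default _ _ (by omega)]
          omega
    have hs := enc_summable_aux hB (fun k => (d :: ds).getD k 0) hlt
    rw [hs.tsum_eq_zero_add]
    have hterm : ∀ k : ℕ, (((d :: ds).getD (k + 1) 0 : ℕ) : ℝ) / (B : ℝ) ^ (k + 1 + 1)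
        = (1 / (B : ℝ)) * (((ds.getD k 0 : ℕ) : ℝ) / (B : ℝ) ^ (k + 1)) := by
      intro k
      simp only [List.getD_cons_succ]
      rw [pow_succ (B : ℝ) (k + 1)]
      field_simp
    simp only [hterm]
    rw [tsum_mul_left, ih hds']
    simp only [valB, List.getD_cons_zero, zero_add, pow_one]
    field_simp

/-- Every rational has a code. -/
lemma exists_ratCode (q : ℚ) : ∃ r : RatCode, ratVal r = q := by
  refine ⟨(q.num.toNat, (-q.num).toNat, q.den - 1), ?_⟩
  unfold ratVal
  simp only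
  have h2 : 1 ≤ q.den := q.den_pos
  have hsub : ((q.den - 1 : ℕ) : ℝ) + 1 = (q.den : ℝ) := by
    have : ((q.den - 1 + 1 : ℕ) : ℝ) = (q.den : ℝ) := by rw [Nat.sub_add_cancel h2]
    push_cast at this ⊢
    linarith
  rw [hsub]
  have hnum : ((q.num.toNat : ℕ) : ℝ) - (((-q.num).toNat : ℕ) : ℝ) = ((q.num : ℤ) : ℝ) := by
    have : ((q.num.toNat : ℕ) : ℤ) - (((-q.num).toNat : ℕ) : ℤ) = q.num := by omega
    exact_mod_cast this
  rw [hnum]
  have := Rat.num_div_den q
  exact_mod_cast this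

end Vale.Agent.P113
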