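import Vale.Agent.P113.RevDefs

/-!
# Reversible simulation of a TM0 machine, with a history track

The tape cells of the simulating machine have three tracks: the simulated symbol, a head mark, and a
history track. The history track holds the tokens of all simulated steps so far, in consecutive cells,
followed by an end marker which always lies strictly to the right of the simulated head.
-/

open Turing

namespace Vale.Agent.P113

variable (Γ Λ : Type)

/-- A history token: the simulated state, the symbol read, and how the head got there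
(`none`: by a write; `some d`: by a move). -/
abbrev Tok : Type := Λ × Γ × Option Bool

/-- The history track alphabet: empty, the end marker, or a token. -/
inductive HSym
  | empty
  | stop
  | tok (τ : Tok Γ Λ)

/-- The tape alphabet of the simulating machine. -/
abbrev RS : Type := Γ × Bool × HSym Γ Λ

/-- The states of the simulating machine. -/
inductive RQ
  | sim (q : Λ) (tag : Option Bool)
  | walk (τ : Tok Γ Λ) (q' : Λ) (st : TM0.Stmt Γ)
  | dep (q' : Λ) (st : TM0.Stmt Γ)
  | ret (q' : Λ) (st : TM0.Stmt Γ)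
  | act (q' : Λ) (st : TM0.Stmt Γ)
  | mvst (q' : Λ) (d : Dir)
  | halted (τ : Tok Γ Λ)

variable {Γ Λ}

/-- `Dir` as a Boolean. -/
def dirB : Dir → Bool
  | Dir.left => false
  | Dir.right => true

theorem dirB_injective : Function.Injective dirB := by
  intro a b h
  cases a <;> cases b <;> simp_all [dirB]

instance finiteDir : Finite Dir := Finite.of_injective dirB dirB_injective

/-- `TM0.Stmt` as a sum type. -/
def stmtCode : TM0.Stmt Γ → Dir ⊕ Γ
  | TM0.Stmt.move d => Sum.inl d
  | TM0.Stmt.write a => Sum.inr a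

theorem stmtCode_injective : Function.Injective (stmtCode (Γ := Γ)) := by
  intro a b h
  cases a <;> cases b <;> simp_all [stmtCode]

/-- `HSym` as an option type. -/
def hsCode : HSym Γ Λ → Option (Option (Tok Γ Λ))
  | HSym.empty => none
  | HSym.stop => some none
  | HSym.tok τ => some (some τ)

theorem hsCode_injective : Function.Injective (hsCode (Γ := Γ) (Λ := Λ)) := by
  intro a b h
  cases a <;> cases b <;> simp_all [hsCode]

/-- `RQ` as a sum type. -/
def rqCode : RQ Γ Λ → (Λ × Option Bool) ⊕ (Tok Γ Λ × Λ × TM0.Stmt Γ) ⊕ (Λ × TM0.Stmt Γ) ⊕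
    (Λ × TM0.Stmt Γ) ⊕ (Λ × TM0.Stmt Γ) ⊕ (Λ × Dir) ⊕ Tok Γ Λ
  | RQ.sim q tag => Sum.inl (q, tag)
  | RQ.walk τ q' st => Sum.inr (Sum.inl (τ, q', st))
  | RQ.dep q' st => Sum.inr (Sum.inr (Sum.inl (q', st)))
  | RQ.ret q' st => Sum.inr (Sum.inr (Sum.inr (Sum.inl (q', st))))
  | RQ.act q' st => Sum.inr (Sum.inr (Sum.inr (Sum.inr (Sum.inl (q', st)))))
  | RQ.mvst q' d => Sum.inr (Sum.inr (Sum.inr (Sum.inr (Sum.inr (Sum.inl (q', d))))))
  | RQ.halted τ => Sum.inr (Sum.inr (Sum.inr (Sum.inr (Sum.inr (Sum.inr τ)))))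

theorem rqCode_injective : Function.Injective (rqCode (Γ := Γ) (Λ := Λ)) := by
  intro a b h
  cases a <;> cases b <;> simp_all [rqCode]

section
variable [Fintype Γ] [DecidableEq Γ] [Fintype Λ] [DecidableEq Λ]

noncomputable instance : Fintype (HSym Γ Λ) :=
  Fintype.ofInjective hsCode hsCode_injective

noncomputable instance : Fintype (RQ Γ Λ) :=
  have : Finite (TM0.Stmt Γ) := Finite.of_injective stmtCode stmtCode_injective
  have : Finite (RQ Γ Λ) := Finite.of_injective rqCode rqCode_injective
  Fintype.ofFinite _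

noncomputable instance : DecidableEq (HSym Γ Λ) := Classical.decEq _

noncomputable instance : DecidableEq (RQ Γ Λ) := Classical.decEq _

end

variable [Inhabited Γ] [Inhabited Λ]

/-- The blank cell of the simulating machine. -/
def rBlank : RS Γ Λ := (default, false, HSym.empty)

/-- The initial state of the simulating machine. -/
def rStart : RQ Γ Λ := RQ.sim default none

/-- The initial tape of the simulating machine on input `l`. -/
def rIni (l : List Γ) (i : ℤ) : RS Γ Λ :=
  ((Turing.Tape.mk₁ l).nth i, decide (i = 0), if i = 1 then HSym.stop else HSym.empty)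

/-- The halted states. -/
def rHalted : RQ Γ Λ → Prop
  | RQ.halted _ => True
  | _ => False

/-! ### The transition relation of the simulating machine -/

/-- Any functional and injective relation on a finite type extends to a permutation. -/
theorem exists_perm_of_rel {α : Type} [Finite α] (R : α → α → Prop)
    (hf : ∀ {x y z}, R x y → R x z → y = z) (hi : ∀ {x y z}, R x z → R y z → x = y) :
    ∃ π : Equiv.Perm α, ∀ x z, R x z → π x = z := by
  classical
  have := Fintype.ofFinite α
  let p : α → Prop := fun x => ∃ z, R x z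
  let q : α → Prop := fun z => ∃ x, R x z
  let f : {x // p x} → {z // q z} := fun x => ⟨x.2.choose, x.1, x.2.choose_spec⟩
  have hf_bij : Function.Bijective f := by
    constructor
    · intro a b hab
      have h1 := a.2.choose_spec
      have h2 := b.2.choose_spec
      have h3 : a.2.choose = b.2.choose := congrArg Subtype.val hab
      rw [h3] at h1
      exact Subtype.ext (hi h1 h2)
    · rintro ⟨z, x, hx⟩
      exact ⟨⟨x, z, hx⟩, Subtype.ext (hf (Exists.choose_spec (⟨z, hx⟩ : p x)) hx)⟩
  let e := Equiv.ofBijective f hf_bij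
  refine ⟨e.extendSubtype, ?_⟩
  intro x z hxz
  have hx : p x := ⟨z, hxz⟩
  rw [Equiv.extendSubtype_apply_of_mem e x hx]
  exact hf (Exists.choose_spec hx) hxz

/-- The symbol a statement leaves under the head. -/
def stWrite (a : Γ) : TM0.Stmt Γ → Γ
  | TM0.Stmt.write b => b
  | TM0.Stmt.move _ => a

/-- The tape a statement leaves (moves are carried out later). -/
def stTape (T : Tape Γ) : TM0.Stmt Γ → Tape Γ
  | TM0.Stmt.write b => T.write b
  | TM0.Stmt.move _ => T

/-- The tape after a statement of the simulated machine. -/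
def stFinal (T : Tape Γ) : TM0.Stmt Γ → Tape Γ
  | TM0.Stmt.write b => T.write b
  | TM0.Stmt.move d => T.move d

/-- The transition table of the simulating machine, as a relation. -/
inductive Tr (M : TM0.Machine Γ Λ) : RQ Γ Λ × RS Γ Λ → RQ Γ Λ × RS Γ Λ → Prop
  | simHalt {q tag a h} : M q a = none →
      Tr M (RQ.sim q tag, (a, true, h)) (RQ.halted (q, a, tag), (a, true, h))
  | simStep {q tag a h q2 st} : M q a = some (q2, st) →
      Tr M (RQ.sim q tag, (a, true, h)) (RQ.walk (q, a, tag) q2 st, (stWrite a st, true, h))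
  | walkStop {t q2 st a} :
      Tr M (RQ.walk t q2 st, (a, false, HSym.stop)) (RQ.dep q2 st, (a, false, HSym.tok t))
  | walkGo {t q2 st a h} : h ≠ HSym.stop →
      Tr M (RQ.walk t q2 st, (a, false, h)) (RQ.walk t q2 st, (a, false, h))
  | depEmpty {q2 st b} :
      Tr M (RQ.dep q2 st, (b, false, HSym.empty)) (RQ.ret q2 st, (b, false, HSym.stop))
  | retGo {q2 st a h} : h ≠ HSym.stop →
      Tr M (RQ.ret q2 st, (a, false, h)) (RQ.ret q2 st, (a, false, h))
  | retAct {q2 st a h} : Tr M (RQ.ret q2 st, (a, true, h)) (RQ.act q2 st, (a, true, h))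
  | actWrite {q2 b h} :
      Tr M (RQ.act q2 (TM0.Stmt.write b), (b, true, h)) (RQ.sim q2 none, (b, true, h))
  | actMove {q2 d a h} :
      Tr M (RQ.act q2 (TM0.Stmt.move d), (a, true, h)) (RQ.mvst q2 d, (a, false, h))
  | mvstGo {q2 d b h x} : x = dirB d →
      Tr M (RQ.mvst q2 d, (b, false, h)) (RQ.sim q2 (some x), (b, true, h))

theorem Tr.functional {M : TM0.Machine Γ Λ} {x y z : RQ Γ Λ × RS Γ Λ}
    (h1 : Tr M x y) (h2 : Tr M x z) : y = z := by
  cases h1 <;> cases h2 <;> simp_all

theorem Tr.injective {M : TM0.Machine Γ Λ} {x y z : RQ Γ Λ × RS Γ Λ}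
    (h1 : Tr M x z) (h2 : Tr M y z) : x = y := by
  cases h1 <;> cases h2 <;> simp_all
  exact (dirB_injective ‹_›).symm

/-- The head motion of the simulating machine. -/
def rmv : RQ Γ Λ → Option Bool
  | RQ.walk _ _ _ => some true
  | RQ.dep _ _ => some true
  | RQ.ret _ _ => some false
  | RQ.mvst _ d => some (dirB d)
  | _ => none

/-- The displacement of a move of the simulated machine. -/
def dZ : Dir → ℤ
  | Dir.left => -1
  | Dir.right => 1

theorem mvZ_dirB (d : Dir) : mvZ (some (dirB d)) = dZ d := by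
  cases d <;> rfl

theorem move_nth (T : Tape Γ) (d : Dir) (i : ℤ) : (T.move d).nth i = T.nth (i + dZ d) := by
  cases d
  · simp [dZ, sub_eq_add_neg]
  · simp [dZ]

/-- The tape of the simulating machine: the simulated tape translated to position `p`, the head mark
at `p`, and the history track `hs`. -/
def cellTape (T : Tape Γ) (p : ℤ) (hs : ℤ → HSym Γ Λ) (i : ℤ) : RS Γ Λ :=
  (T.nth (i - p), decide (i = p), hs i)

theorem cellTape_self (T : Tape Γ) (p : ℤ) (hs : ℤ → HSym Γ Λ) :
    cellTape T p hs p = (T.head, true, hs p) := by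
  simp [cellTape]

theorem cellTape_ne (T : Tape Γ) {p i : ℤ} (hs : ℤ → HSym Γ Λ) (h : i ≠ p) :
    cellTape T p hs i = (T.nth (i - p), false, hs i) := by
  simp [cellTape, h]

theorem update_hs (T : Tape Γ) {p : ℤ} (hs : ℤ → HSym Γ Λ) (i : ℤ) (x : HSym Γ Λ) :
    Function.update (cellTape T p hs) i (T.nth (i - p), decide (i = p), x) =
      cellTape T p (Function.update hs i x) := by
  funext j
  by_cases hj : j = i
  · subst hj; simp [cellTape]
  · simp [cellTape, Function.update_of_ne hj]

theorem update_write (T : Tape Γ) {p : ℤ} (hs : ℤ → HSym Γ Λ) (st : TM0.Stmt Γ) :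
    Function.update (cellTape T p hs) p (stWrite T.head st, true, hs p) =
      cellTape (stTape T st) p hs := by
  funext j
  by_cases hj : j = p
  · subst hj
    cases st <;> simp [cellTape, stWrite, stTape]
    rfl
  · have h0 : j - p ≠ 0 := sub_ne_zero.mpr hj
    rw [Function.update_of_ne hj, cellTape_ne _ _ hj, cellTape_ne _ _ hj]
    cases st <;> simp [stTape, h0]

/-- Number of steps without meeting a halted state. -/
def NH {α : Type} (S : RCfg (RQ Γ Λ) α → RCfg (RQ Γ Λ) α) (k : ℕ) (c c' : RCfg (RQ Γ Λ) α) : Prop :=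
  S^[k] c = c' ∧ ∀ j < k, ¬ rHalted (S^[j] c).q

theorem NH.refl {α : Type} (S : RCfg (RQ Γ Λ) α → RCfg (RQ Γ Λ) α) (c : RCfg (RQ Γ Λ) α) :
    NH S 0 c c :=
  ⟨rfl, fun _ h => absurd h (Nat.not_lt_zero _)⟩

theorem NH.one {α : Type} {S : RCfg (RQ Γ Λ) α → RCfg (RQ Γ Λ) α} {c c' : RCfg (RQ Γ Λ) α}
    (h : S c = c') (hq : ¬ rHalted c.q) : NH S 1 c c' := by
  refine ⟨h, fun j hj => ?_⟩
  have : j = 0 := by omega
  subst this
  exact hq

theorem NH.trans {α : Type} {S : RCfg (RQ Γ Λ) α → RCfg (RQ Γ Λ) α} {c c' c'' : RCfg (RQ Γ Λ) α}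
    {k k' : ℕ} (h : NH S k c c') (h' : NH S k' c' c'') : NH S (k + k') c c'' := by
  obtain ⟨h1, h2⟩ := h
  obtain ⟨h3, h4⟩ := h'
  refine ⟨?_, fun j hj => ?_⟩
  · rw [Nat.add_comm, Function.iterate_add_apply, h1, h3]
  · by_cases hjk : j < k
    · exact h2 j hjk
    · obtain ⟨m, rfl⟩ : ∃ m, j = m + k := ⟨j - k, by omega⟩
      rw [Function.iterate_add_apply, h1]
      exact h4 m (by omega)

/-- Properties of the history track after a deposit. -/
theorem hs2_props {hs : ℤ → HSym Γ Λ} {n : ℤ} (τ : Tok Γ Λ)
    (hne : ∀ i, i ≠ n → hs i ≠ HSym.stop) (hgt : ∀ i, n < i → hs i = HSym.empty) :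
    let hs2 := Function.update (Function.update hs n (HSym.tok τ)) (n + 1) HSym.stop
    hs2 (n + 1) = HSym.stop ∧ (∀ i, i ≠ n + 1 → hs2 i ≠ HSym.stop) ∧
      (∀ i, n + 1 < i → hs2 i = HSym.empty) := by
  intro hs2
  refine ⟨Function.update_self _ _ _, fun i hi => ?_, fun i hi => ?_⟩
  · simp only [hs2]
    rw [Function.update_of_ne hi]
    by_cases hin : i = n
    · subst hin
      rw [Function.update_self]
      simp
    · rw [Function.update_of_ne hin]
      exact hne i hin
  · simp only [hs2]
    rw [Function.update_of_ne (by omega), Function.update_of_ne (by omega)]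
    exact hgt i (by omega)

/-- The simulation invariant. -/
def Inv (c : RCfg (RQ Γ Λ) (RS Γ Λ)) (cfg : TM0.Cfg Γ Λ) : Prop :=
  ∃ (tag : Option Bool) (hs : ℤ → HSym Γ Λ) (n p : ℤ),
    c = ⟨RQ.sim cfg.q tag, cellTape cfg.Tape p hs, p⟩ ∧ hs n = HSym.stop ∧
    (∀ i, i ≠ n → hs i ≠ HSym.stop) ∧ (∀ i, n < i → hs i = HSym.empty) ∧ p < n

section Stages

variable {M : TM0.Machine Γ Λ} {π : Equiv.Perm (RQ Γ Λ × RS Γ Λ)}
variable (hπ : ∀ x z, Tr M x z → π x = z)
include hπ

theorem rstep_tr {c : RCfg (RQ Γ Λ) (RS Γ Λ)} {q' : RQ Γ Λ} {s' : RS Γ Λ}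
    (h : Tr M (c.q, c.tape c.pos) (q', s')) :
    rstep π rmv c = ⟨q', Function.update c.tape c.pos s', c.pos + mvZ (rmv q')⟩ := by
  unfold rstep
  simp only [hπ _ _ h]

/-- Walking right over the history until the end marker, where the token is deposited. -/
theorem walk_loop {τ : Tok Γ Λ} {q2 : Λ} {st : TM0.Stmt Γ} {T : Tape Γ} {p n : ℤ}
    {hs : ℤ → HSym Γ Λ} (hn : hs n = HSym.stop) (N : ℕ) :
    ∀ i : ℤ, n - i = N → p < i → (∀ j, i ≤ j → j < n → hs j ≠ HSym.stop) →
      ∃ k, NH (rstep π rmv) k ⟨RQ.walk τ q2 st, cellTape T p hs, i⟩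
        ⟨RQ.dep q2 st, cellTape T p (Function.update hs n (HSym.tok τ)), n + 1⟩ := by
  induction N with
  | zero =>
    intro i hi hp _
    have hin : i = n := by simpa [sub_eq_zero, eq_comm] using hi
    subst hin
    refine ⟨1, NH.one ?_ id⟩
    have hne : i ≠ p := by omega
    have htr : Tr M (RQ.walk τ q2 st, cellTape T p hs i)
        (RQ.dep q2 st, (T.nth (i - p), false, HSym.tok τ)) := by
      rw [cellTape_ne T hs hne, hn]
      exact Tr.walkStop
    rw [rstep_tr hπ htr]
    have := update_hs T (p := p) hs i (HSym.tok τ)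
    simp only [decide_eq_false hne] at this
    simp only [this]
    rfl
  | succ N ih =>
    intro i hi hp hj
    have hh : hs i ≠ HSym.stop := hj i le_rfl (by omega)
    have hne : i ≠ p := by omega
    have htr : Tr M (RQ.walk τ q2 st, cellTape T p hs i)
        (RQ.walk τ q2 st, cellTape T p hs i) := by
      rw [cellTape_ne T hs hne]
      exact Tr.walkGo hh
    have h1 : NH (rstep π rmv) 1 ⟨RQ.walk τ q2 st, cellTape T p hs, i⟩
        ⟨RQ.walk τ q2 st, cellTape T p hs, i + 1⟩ := by
      refine NH.one ?_ id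
      rw [rstep_tr hπ htr]
      simp only [Function.update_eq_self]
      rfl
    obtain ⟨k, hk⟩ := ih (i + 1) (by push_cast at hi ⊢; omega) (by omega)
      (fun j h1 h2 => hj j (by omega) h2)
    exact ⟨1 + k, h1.trans hk⟩

/-- Walking left back to the head mark. -/
theorem ret_loop {q2 : Λ} {st : TM0.Stmt Γ} {T : Tape Γ} {p : ℤ} {hs : ℤ → HSym Γ Λ} (N : ℕ) :
    ∀ i : ℤ, i - p = N → (∀ j, p ≤ j → j ≤ i → hs j ≠ HSym.stop) →
      ∃ k, NH (rstep π rmv) k ⟨RQ.ret q2 st, cellTape T p hs, i⟩
        ⟨RQ.act q2 st, cellTape T p hs, p⟩ := by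
  induction N with
  | zero =>
    intro i hi _
    have hin : i = p := by simpa [sub_eq_zero] using hi
    subst hin
    refine ⟨1, NH.one ?_ id⟩
    have htr : Tr M (RQ.ret q2 st, cellTape T i hs i)
        (RQ.act q2 st, cellTape T i hs i) := by
      rw [cellTape_self]
      exact Tr.retAct
    rw [rstep_tr hπ htr]
    simp only [Function.update_eq_self]
    simp [rmv, mvZ]
  | succ N ih =>
    intro i hi hj
    have hne : i ≠ p := by
      intro h
      subst h
      simp at hi
      omega
    have hh : hs i ≠ HSym.stop := hj i (by omega) le_rfl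
    have htr : Tr M (RQ.ret q2 st, cellTape T p hs i)
        (RQ.ret q2 st, cellTape T p hs i) := by
      rw [cellTape_ne T hs hne]
      exact Tr.retGo hh
    have h1 : NH (rstep π rmv) 1 ⟨RQ.ret q2 st, cellTape T p hs, i⟩
        ⟨RQ.ret q2 st, cellTape T p hs, i - 1⟩ := by
      refine NH.one ?_ id
      rw [rstep_tr hπ htr]
      simp only [Function.update_eq_self]
      simp [rmv, mvZ, sub_eq_add_neg]
    obtain ⟨k, hk⟩ := ih (i - 1) (by push_cast at hi ⊢; omega)
      (fun j h1 h2 => hj j h1 (by omega))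
    exact ⟨1 + k, h1.trans hk⟩

/-- From the simulated state with a statement to carry out, go to the act state with the history
updated. -/
theorem sim_to_act {q q2 : Λ} {tag : Option Bool} {st : TM0.Stmt Γ} {T : Tape Γ} {p n : ℤ}
    {hs : ℤ → HSym Γ Λ} (hM : M q T.head = some (q2, st)) (hn : hs n = HSym.stop)
    (hne : ∀ i, i ≠ n → hs i ≠ HSym.stop) (hgt : ∀ i, n < i → hs i = HSym.empty) (hp : p < n) :
    ∃ k, 0 < k ∧ NH (rstep π rmv) k ⟨RQ.sim q tag, cellTape T p hs, p⟩
        ⟨RQ.act q2 st, cellTape (stTape T st) p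
          (Function.update (Function.update hs n (HSym.tok (q, T.head, tag))) (n + 1) HSym.stop),
          p⟩ := by
  -- one step from `sim` to `walk`
  have htr : Tr M (RQ.sim q tag, cellTape T p hs p)
      (RQ.walk (q, T.head, tag) q2 st, (stWrite T.head st, true, hs p)) := by
    rw [cellTape_self]
    exact Tr.simStep hM
  have h1 : NH (rstep π rmv) 1 ⟨RQ.sim q tag, cellTape T p hs, p⟩
      ⟨RQ.walk (q, T.head, tag) q2 st, cellTape (stTape T st) p hs, p + 1⟩ := by
    refine NH.one ?_ id
    rw [rstep_tr hπ htr]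
    simp only [update_write]
    rfl
  -- walking
  obtain ⟨k2, h2⟩ := walk_loop (M := M) hπ (τ := (q, T.head, tag)) (q2 := q2) (st := st)
    (T := stTape T st) (p := p) hn (n - (p + 1)).toNat (p + 1)
    (by rw [Int.toNat_of_nonneg (by omega)]) (by omega)
    (fun j _ h => hne j (by omega))
  -- deposit
  set hs1 := Function.update hs n (HSym.tok (q, T.head, tag)) with hhs1
  set hs2 := Function.update hs1 (n + 1) HSym.stop with hhs2
  have hne1 : n + 1 ≠ p := by omega
  have hem : hs1 (n + 1) = HSym.empty := by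
    rw [hhs1, Function.update_of_ne (by omega)]
    exact hgt _ (by omega)
  have htr3 : Tr M (RQ.dep q2 st, cellTape (stTape T st) p hs1 (n + 1))
      (RQ.ret q2 st, ((stTape T st).nth (n + 1 - p), false, HSym.stop)) := by
    rw [cellTape_ne _ hs1 hne1, hem]
    exact Tr.depEmpty
  have h3 : NH (rstep π rmv) 1 ⟨RQ.dep q2 st, cellTape (stTape T st) p hs1, n + 1⟩
      ⟨RQ.ret q2 st, cellTape (stTape T st) p hs2, n⟩ := by
    refine NH.one ?_ id
    rw [rstep_tr hπ htr3]
    have := update_hs (stTape T st) (p := p) hs1 (n + 1) HSym.stop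
    simp only [decide_eq_false hne1] at this
    simp only [this]
    simp [rmv, mvZ]
    rfl
  -- returning
  obtain ⟨k4, h4⟩ := ret_loop (M := M) hπ (q2 := q2) (st := st) (T := stTape T st) (p := p)
    (hs := hs2) (n - p).toNat n (by rw [Int.toNat_of_nonneg (by omega)])
    (fun j _ hj => by
      rw [hhs2, Function.update_of_ne (by omega)]
      by_cases hjn : j = n
      · subst hjn
        rw [hhs1, Function.update_self]
        simp
      · rw [hhs1, Function.update_of_ne hjn]
        exact hne j hjn)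
  exact ⟨1 + k2 + (1 + k4), by omega, (h1.trans h2).trans (h3.trans h4)⟩


theorem sim_halt {c : RCfg (RQ Γ Λ) (RS Γ Λ)} {cfg : TM0.Cfg Γ Λ} (h : Inv c cfg)
    (hn : TM0.step M cfg = none) : rHalted (rstep π rmv c).q := by
  obtain ⟨tag, hs, n, p, rfl, -, -, -, -⟩ := h
  obtain ⟨q, T⟩ := cfg
  have hM : M q T.head = none := by
    cases hM : M q T.head with
    | none => rfl
    | some r =>
      simp [TM0.step, hM] at hn
  have htr : Tr M (RQ.sim q tag, cellTape T p hs p)
      (RQ.halted (q, T.head, tag), (T.head, true, hs p)) := by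
    rw [cellTape_self]
    exact Tr.simHalt hM
  rw [rstep_tr hπ htr]
  trivial

theorem sim_step {c : RCfg (RQ Γ Λ) (RS Γ Λ)} {cfg cfg' : TM0.Cfg Γ Λ} (h : Inv c cfg)
    (hn : TM0.step M cfg = some cfg') :
    ∃ (k : ℕ) (c' : RCfg (RQ Γ Λ) (RS Γ Λ)), 0 < k ∧ NH (rstep π rmv) k c c' ∧ Inv c' cfg' := by
  obtain ⟨tag, hs, n, p, rfl, h1, h2, h3, h4⟩ := h
  obtain ⟨q, T⟩ := cfg
  cases hM : M q T.head with
  | none => simp [TM0.step, hM] at hn
  | some r =>
    obtain ⟨q2, st⟩ := r
    obtain ⟨k, hk, hnh⟩ := sim_to_act (tag := tag) hπ hM h1 h2 h3 h4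
    have hn' : cfg' = ⟨q2, stFinal T st⟩ := by
      simp only [TM0.step, hM, Option.map_some, Option.some.injEq] at hn
      cases st <;> exact hn.symm
    subst hn'
    obtain ⟨h5, h6, h7⟩ := hs2_props (q, T.head, tag) h2 h3
    set hs2 := Function.update (Function.update hs n (HSym.tok (q, T.head, tag))) (n + 1)
      HSym.stop with hhs2
    cases st with
    | write b =>
      have htr : Tr M (RQ.act q2 (TM0.Stmt.write b), cellTape (T.write b) p hs2 p)
          (RQ.sim q2 none, cellTape (T.write b) p hs2 p) := by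
        rw [cellTape_self]
        exact Tr.actWrite
      have h8 : NH (rstep π rmv) 1 ⟨RQ.act q2 (TM0.Stmt.write b), cellTape (T.write b) p hs2, p⟩
          ⟨RQ.sim q2 none, cellTape (T.write b) p hs2, p⟩ := by
        refine NH.one ?_ id
        rw [rstep_tr hπ htr]
        simp only [Function.update_eq_self]
        simp [rmv, mvZ]
      exact ⟨k + 1, _, by omega, hnh.trans h8,
        ⟨none, hs2, n + 1, p, rfl, h5, h6, h7, by omega⟩⟩
    | move d =>
      have hd : dZ d ≠ 0 := by cases d <;> simp [dZ]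
      have hne : p + dZ d ≠ p := by simpa using hd
      have htr : Tr M (RQ.act q2 (TM0.Stmt.move d), cellTape T p hs2 p)
          (RQ.mvst q2 d, (T.head, false, hs2 p)) := by
        rw [cellTape_self]
        exact Tr.actMove
      have h8 : NH (rstep π rmv) 1 ⟨RQ.act q2 (TM0.Stmt.move d), cellTape T p hs2, p⟩
          ⟨RQ.mvst q2 d, Function.update (cellTape T p hs2) p (T.head, false, hs2 p), p + dZ d⟩ := by
        refine NH.one ?_ id
        rw [rstep_tr hπ htr]
        simp [rmv, mvZ_dirB]
      have hread : Function.update (cellTape T p hs2) p (T.head, false, hs2 p) (p + dZ d) =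
          (T.nth (p + dZ d - p), false, hs2 (p + dZ d)) := by
        rw [Function.update_of_ne hne, cellTape_ne T hs2 hne]
      have htr2 : Tr M (RQ.mvst q2 d,
            Function.update (cellTape T p hs2) p (T.head, false, hs2 p) (p + dZ d))
          (RQ.sim q2 (some (dirB d)), (T.nth (p + dZ d - p), true, hs2 (p + dZ d))) := by
        rw [hread]
        exact Tr.mvstGo rfl
      have h9 : NH (rstep π rmv) 1
          ⟨RQ.mvst q2 d, Function.update (cellTape T p hs2) p (T.head, false, hs2 p), p + dZ d⟩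
          ⟨RQ.sim q2 (some (dirB d)), cellTape (T.move d) (p + dZ d) hs2, p + dZ d⟩ := by
        refine NH.one ?_ id
        rw [rstep_tr hπ htr2]
        have hcell : Function.update (Function.update (cellTape T p hs2) p (T.head, false, hs2 p))
            (p + dZ d) (T.nth (p + dZ d - p), true, hs2 (p + dZ d)) =
            cellTape (T.move d) (p + dZ d) hs2 := by
          funext i
          have hnth : (T.move d).nth (i - (p + dZ d)) = T.nth (i - p) := by
            rw [move_nth]
            congr 1
            ring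
          by_cases hi : i = p + dZ d
          · subst hi
            rw [Function.update_self]
            simp only [cellTape, hnth]
            simp
          · rw [Function.update_of_ne hi]
            by_cases hi2 : i = p
            · subst hi2
              rw [Function.update_self]
              simp only [cellTape, hnth]
              simp [hi]
            · rw [Function.update_of_ne hi2, cellTape_ne T hs2 hi2, cellTape_ne _ hs2 hi, hnth]
        simp only [hcell]
        simp [rmv, mvZ]
      have hdle : dZ d ≤ 1 := by cases d <;> simp [dZ]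
      exact ⟨k + 1 + 1, _, by omega, (hnh.trans h8).trans h9,
        ⟨some (dirB d), hs2, n + 1, p + dZ d, rfl, h5, h6, h7, by omega⟩⟩

end Stages

variable [Fintype Γ] [DecidableEq Γ] [Fintype Λ] [DecidableEq Λ]

/-- The reversible simulation theorem. -/
theorem rev_main (M : TM0.Machine Γ Λ) :
    ∃ (π : Equiv.Perm (RQ Γ Λ × RS Γ Λ)) (mv : RQ Γ Λ → Option Bool),
      ∀ l : List Γ,
        (∃ n : ℕ, rHalted ((rstep π mv)^[n] ⟨rStart, rIni l, 0⟩).q) ↔ (TM0.eval M l).Dom := by
  obtain ⟨π, hπ⟩ := exists_perm_of_rel (Tr M) Tr.functional Tr.injective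
  refine ⟨π, rmv, fun l => ?_⟩
  set c0 : RCfg (RQ Γ Λ) (RS Γ Λ) := ⟨rStart, rIni l, 0⟩ with hc0
  have h0 : Inv c0 (TM0.init l : TM0.Cfg Γ Λ) := by
    refine ⟨none, fun i => if i = 1 then HSym.stop else HSym.empty, 1, 0, ?_, by simp,
      fun i hi => by simp [hi], fun i hi => ?_, by omega⟩
    · have : rIni (Γ := Γ) (Λ := Λ) l = cellTape (Turing.Tape.mk₁ l) 0
          (fun i => if i = 1 then HSym.stop else HSym.empty) := by
        funext i
        simp [rIni, cellTape]
      simp [hc0, this, rStart, TM0.init]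
    · have : i ≠ 1 := by omega
      simp [this]
  have hdom : (TM0.eval M l).Dom ↔ ∃ b, StateTransition.Reaches (TM0.step M) (TM0.init l) b ∧
      TM0.step M b = none := by
    unfold TM0.eval
    rw [Part.map_Dom, Part.dom_iff_mem]
    simp only [StateTransition.mem_eval]
  rw [hdom]
  constructor
  · rintro ⟨n, hn⟩
    have good : ∀ (N k : ℕ) (c : RCfg (RQ Γ Λ) (RS Γ Λ)) (cfg : TM0.Cfg Γ Λ), n < k + N →
        StateTransition.Reaches (TM0.step M) (TM0.init l) cfg → NH (rstep π rmv) k c0 c →
        Inv c cfg →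
        ∃ b, StateTransition.Reaches (TM0.step M) (TM0.init l) b ∧ TM0.step M b = none := by
      intro N
      induction N with
      | zero =>
        intro k c cfg hlt _ hnh _
        exact absurd hn (hnh.2 n (by omega))
      | succ N ih =>
        intro k c cfg hlt hr hnh hinv
        cases hst : TM0.step M cfg with
        | none => exact ⟨cfg, hr, hst⟩
        | some cfg' =>
          obtain ⟨k', c', hk', hnh', hinv'⟩ := sim_step hπ hinv hst
          exact ih (k + k') c' cfg' (by omega)
            (Relation.ReflTransGen.tail hr (Option.mem_def.mpr hst)) (hnh.trans hnh') hinv'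
    exact good (n + 1) 0 c0 _ (by omega) Relation.ReflTransGen.refl (NH.refl _ _) h0
  · rintro ⟨b, hb, hnone⟩
    have key : ∀ b, StateTransition.Reaches (TM0.step M) (TM0.init l) b →
        ∃ k, Inv ((rstep π rmv)^[k] c0) b := by
      intro b hb
      induction hb with
      | refl => exact ⟨0, h0⟩
      | tail _ hstep ih =>
        obtain ⟨k, hk⟩ := ih
        obtain ⟨k', c', _, hnh, hinv⟩ := sim_step hπ hk (Option.mem_def.mp hstep)
        refine ⟨k' + k, ?_⟩
        rw [Function.iterate_add_apply, hnh.1]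
        exact hinv
    obtain ⟨k, hk⟩ := key b hb
    refine ⟨k + 1, ?_⟩
    rw [Function.iterate_succ_apply']
    exact sim_halt hπ hk hnone

end Vale.Agent.P113
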