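import Vale.Agent.P113.UniqFixed

/-!
# Uniqueness of classical solutions (energy estimate on the torus)
-/

open Set MeasureTheory Filter Topology

namespace Vale.Agent.P113

/-- The energy density of the difference of two velocity fields. -/
noncomputable def enDens (u₁ u₂ : ℝ → R3 → R3) (t : ℝ) (x : R3) : ℝ :=
  ∑ k, (u₁ t x k - u₂ t x k) * (u₁ t x k - u₂ t x k)

/-- The time derivative of the energy density. -/
noncomputable def enRate (T : ℝ) (u₁ u₂ : ℝ → R3 → R3) (t : ℝ) (x : R3) : ℝ :=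
  ∑ k, 2 * (u₁ t x k - u₂ t x k) *
    (derivWithin (fun s => u₁ s x) (Icc 0 T) t k - derivWithin (fun s => u₂ s x) (Icc 0 T) t k)

section
variable {ν : ℝ} {f : ℝ → R3 → R3} {T : ℝ} {u u₁ u₂ : ℝ → R3 → R3} {p p₁ p₂ : ℝ → R3 → ℝ}

theorem isCompact_time_box : IsCompact (Icc 0 T ×ˢ unitBox) := isCompact_Icc.prod isCompact_Icc

theorem slice_mem {T t : ℝ} (ht : t ∈ Icc 0 T) (x : R3) : (t, x) ∈ Icc 0 T ×ˢ (univ : Set R3) :=
  ⟨ht, mem_univ x⟩

theorem box_subset : (Icc 0 T ×ˢ unitBox : Set (ℝ × R3)) ⊆ Icc 0 T ×ˢ (univ : Set R3) :=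
  prod_mono subset_rfl (subset_univ _)

theorem comp_u_contOn (h : IsClassicalSolution ν f T u p) (k : Fin 3) :
    ContinuousOn (fun z : ℝ × R3 => u z.1 z.2 k) (Icc 0 T ×ˢ univ) :=
  (continuous_apply k).comp_continuousOn h.u_cont

theorem comp_dt_contOn (h : IsClassicalSolution ν f T u p) (k : Fin 3) :
    ContinuousOn (fun z : ℝ × R3 => derivWithin (fun s => u s z.2) (Icc 0 T) z.1 k)
      (Icc 0 T ×ˢ univ) :=
  (continuous_apply k).comp_continuousOn h.dt_cont

theorem enDens_contOn (h₁ : IsClassicalSolution ν f T u₁ p₁) (h₂ : IsClassicalSolution ν f T u₂ p₂) :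
    ContinuousOn (fun z : ℝ × R3 => enDens u₁ u₂ z.1 z.2) (Icc 0 T ×ˢ univ) := by
  unfold enDens
  refine continuousOn_finsetSum _ (fun k _ => ?_)
  exact ((comp_u_contOn h₁ k).sub (comp_u_contOn h₂ k)).mul
    ((comp_u_contOn h₁ k).sub (comp_u_contOn h₂ k))

theorem enRate_contOn (h₁ : IsClassicalSolution ν f T u₁ p₁) (h₂ : IsClassicalSolution ν f T u₂ p₂) :
    ContinuousOn (fun z : ℝ × R3 => enRate T u₁ u₂ z.1 z.2) (Icc 0 T ×ˢ univ) := by
  unfold enRate
  refine continuousOn_finsetSum _ (fun k _ => ?_)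
  exact (continuousOn_const.mul ((comp_u_contOn h₁ k).sub (comp_u_contOn h₂ k))).mul
    ((comp_dt_contOn h₁ k).sub (comp_dt_contOn h₂ k))

theorem slice_cont {g : ℝ × R3 → ℝ} (hg : ContinuousOn g (Icc 0 T ×ˢ univ)) {t : ℝ}
    (ht : t ∈ Icc 0 T) : Continuous (fun x => g (t, x)) :=
  hg.comp_continuous (by fun_prop) (fun x => slice_mem ht x)

/-- A uniform bound of the spatial gradient on `[0,T] × [0,1]³`. -/
theorem bound_du (h : IsClassicalSolution ν f T u p) :
    ∃ M, ∀ t ∈ Icc 0 T, ∀ x ∈ unitBox, ∀ i k, |pd i (fun y => u t y k) x| ≤ M := by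
  obtain ⟨M, hM⟩ := (isCompact_time_box (T := T)).exists_bound_of_continuousOn
    (h.du_cont.mono box_subset)
  refine ⟨M, fun t ht x hx i k => ?_⟩
  have hz := hM (t, x) ⟨ht, hx⟩
  have hd : HasFDerivAt (u t) (fderiv ℝ (u t) x) x :=
    ((h.u_contDiff t ht).differentiable (by simp) x).hasFDerivAt
  have hk := (hasFDerivAt_pi'.1 hd) k
  have e : pd i (fun y => u t y k) x = fderiv ℝ (u t) x (unitVec i) k := by
    unfold pd
    exact (hk.hasLineDerivAt (unitVec i)).lineDeriv
  rw [e]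
  have n1 : ‖unitVec i‖ = 1 := by
    rw [unitVec, Pi.norm_single, norm_one]
  calc |fderiv ℝ (u t) x (unitVec i) k| = ‖fderiv ℝ (u t) x (unitVec i) k‖ := rfl
    _ ≤ ‖fderiv ℝ (u t) x (unitVec i)‖ := norm_le_pi_norm _ _
    _ ≤ ‖fderiv ℝ (u t) x‖ * ‖unitVec i‖ := ContinuousLinearMap.le_opNorm _ _
    _ = ‖fderiv ℝ (u t) x‖ := by rw [n1, mul_one]
    _ ≤ M := hz

/-- The time derivative of a velocity at an interior time. -/
theorem hasDerivAt_u (h : IsClassicalSolution ν f T u p) {t : ℝ} (ht : t ∈ Ioo 0 T) (x : R3) :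
    HasDerivAt (fun s => u s x) (derivWithin (fun s => u s x) (Icc 0 T) t) t :=
  (h.u_timeDiff t (Ioo_subset_Icc_self ht) x).hasDerivWithinAt.hasDerivAt
    (Icc_mem_nhds ht.1 ht.2)

theorem hasDerivAt_enDens (h₁ : IsClassicalSolution ν f T u₁ p₁)
    (h₂ : IsClassicalSolution ν f T u₂ p₂) {t : ℝ} (ht : t ∈ Ioo 0 T) (x : R3) :
    HasDerivAt (fun s => enDens u₁ u₂ s x) (enRate T u₁ u₂ t x) t := by
  unfold enDens enRate
  apply HasDerivAt.fun_sum
  intro k _
  have d1 := (hasDerivAt_pi.1 (hasDerivAt_u h₁ ht x)) k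
  have d2 := (hasDerivAt_pi.1 (hasDerivAt_u h₂ ht x)) k
  have d := d1.fun_sub d2
  refine (d.fun_mul d).congr_deriv ?_
  ring

/-- The energy of the difference. -/
noncomputable def energy (u₁ u₂ : ℝ → R3 → R3) (t : ℝ) : ℝ :=
  ∫ x in unitBox, enDens u₁ u₂ t x

theorem energy_nonneg (t : ℝ) : 0 ≤ energy u₁ u₂ t :=
  integral_nonneg (fun _ => Finset.sum_nonneg (fun _ _ => mul_self_nonneg _))

theorem energy_contOn (h₁ : IsClassicalSolution ν f T u₁ p₁)
    (h₂ : IsClassicalSolution ν f T u₂ p₂) : ContinuousOn (energy u₁ u₂) (Icc 0 T) := by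
  obtain ⟨C, hC⟩ := (isCompact_time_box (T := T)).exists_bound_of_continuousOn
    ((enDens_contOn h₁ h₂).mono box_subset)
  intro t _
  unfold energy
  apply continuousWithinAt_of_dominated (bound := fun _ => C)
  · filter_upwards [self_mem_nhdsWithin] with s hs
    exact (slice_cont (enDens_contOn h₁ h₂) hs).aestronglyMeasurable
  · filter_upwards [self_mem_nhdsWithin] with s hs
    exact (ae_restrict_iff' measurableSet_Icc).2 (ae_of_all _ (fun x hx => hC (s, x) ⟨hs, hx⟩))
  · exact integrableOn_const (by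
      rw [unitBox_eq]; exact isCompact_Icc.measure_lt_top.ne)
  · apply (ae_restrict_iff' measurableSet_Icc).2
    refine ae_of_all _ (fun x _ => ?_)
    have : ContinuousOn (fun s => enDens u₁ u₂ s x) (Icc 0 T) :=
      (enDens_contOn h₁ h₂).comp (f := fun s : ℝ => (s, x)) (by fun_prop)
        (fun s hs => slice_mem hs x)
    exact this t ‹_›

theorem energy_hasDerivAt (h₁ : IsClassicalSolution ν f T u₁ p₁)
    (h₂ : IsClassicalSolution ν f T u₂ p₂) {t : ℝ} (ht : t ∈ Ioo 0 T) :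
    HasDerivAt (energy u₁ u₂) (∫ x in unitBox, enRate T u₁ u₂ t x) t := by
  obtain ⟨C, hC⟩ := (isCompact_time_box (T := T)).exists_bound_of_continuousOn
    ((enRate_contOn h₁ h₂).mono box_subset)
  have htc : t ∈ Icc 0 T := Ioo_subset_Icc_self ht
  refine (hasDerivAt_integral_of_dominated_loc_of_deriv_le
    (μ := volume.restrict unitBox) (F := fun s x => enDens u₁ u₂ s x)
    (F' := fun s x => enRate T u₁ u₂ s x) (x₀ := t) (s := Ioo 0 T)
    (bound := fun _ => C) (Ioo_mem_nhds ht.1 ht.2) ?_ ?_ ?_ ?_ ?_ ?_).2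
  · filter_upwards [Ioo_mem_nhds ht.1 ht.2] with s hs
    exact (slice_cont (enDens_contOn h₁ h₂) (Ioo_subset_Icc_self hs)).aestronglyMeasurable
  · exact integrableOn_unitBox (slice_cont (enDens_contOn h₁ h₂) htc)
  · exact (slice_cont (enRate_contOn h₁ h₂) htc).aestronglyMeasurable
  · apply (ae_restrict_iff' measurableSet_Icc).2
    exact ae_of_all _ (fun x hx s hs => hC (s, x) ⟨Ioo_subset_Icc_self hs, hx⟩)
  · exact integrableOn_const (by
      rw [unitBox_eq]; exact isCompact_Icc.measure_lt_top.ne)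
  · exact ae_of_all _ (fun x s hs => hasDerivAt_enDens h₁ h₂ hs x)

/-- The differential inequality for the energy. -/
theorem energy_rate_le (hν : 0 ≤ ν) (h₁ : IsClassicalSolution ν f T u₁ p₁)
    (h₂ : IsClassicalSolution ν f T u₂ p₂) {M : ℝ}
    (hM : ∀ t ∈ Icc 0 T, ∀ x ∈ unitBox, ∀ i k, |pd i (fun y => u₂ t y k) x| ≤ M)
    {t : ℝ} (ht : t ∈ Icc 0 T) :
    ∫ x in unitBox, enRate T u₁ u₂ t x ≤ 6 * M * energy u₁ u₂ t :=
  energy_fixed hν (h₁.u_contDiff t ht) (h₂.u_contDiff t ht) (h₁.p_contDiff t ht)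
    (h₂.p_contDiff t ht) (h₁.u_periodic t ht) (h₂.u_periodic t ht) (h₁.p_periodic t ht)
    (h₂.p_periodic t ht) (h₁.divergence_free t ht) (h₂.divergence_free t ht)
    (fun x k => h₁.momentum t ht x k) (fun x k => h₂.momentum t ht x k) (hM t ht)

theorem energy_zero_at (h₁ : IsClassicalSolution ν f T u₁ p₁)
    (h₂ : IsClassicalSolution ν f T u₂ p₂) : energy u₁ u₂ 0 = 0 := by
  unfold energy enDens
  simp [h₁.initial, h₂.initial]

/-- The energy vanishes on `[0,T]`. -/
theorem energy_eq_zero (hν : 0 ≤ ν) (h₁ : IsClassicalSolution ν f T u₁ p₁)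
    (h₂ : IsClassicalSolution ν f T u₂ p₂) (hT : 0 < T) {t : ℝ} (ht : t ∈ Icc 0 T) :
    energy u₁ u₂ t = 0 := by
  obtain ⟨M, hM⟩ := bound_du h₂
  set C : ℝ := 6 * M with hC
  set g : ℝ → ℝ := fun s => Real.exp (-C * s) * energy u₁ u₂ s with hg
  have hder : ∀ s ∈ Ioo 0 T, HasDerivAt g
      ((Real.exp (-C * s) * (-C * 1)) * energy u₁ u₂ s
        + Real.exp (-C * s) * (∫ x in unitBox, enRate T u₁ u₂ s x)) s := by
    intro s hs
    have d1 : HasDerivAt (fun s => Real.exp (-C * s)) (Real.exp (-C * s) * (-C * 1)) s :=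
      ((hasDerivAt_id s).const_mul (-C)).exp
    exact d1.mul (energy_hasDerivAt h₁ h₂ hs)
  have hanti : AntitoneOn g (Icc 0 T) := by
    apply antitoneOn_of_deriv_nonpos (convex_Icc 0 T)
    · exact ContinuousOn.mul (by fun_prop) (energy_contOn h₁ h₂)
    · rw [interior_Icc]
      exact fun s hs => (hder s hs).differentiableAt.differentiableWithinAt
    · rw [interior_Icc]
      intro s hs
      rw [(hder s hs).deriv]
      have := energy_rate_le hν h₁ h₂ hM (Ioo_subset_Icc_self hs)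
      have hexp := Real.exp_pos (-C * s)
      nlinarith
  have h0 : (0 : ℝ) ∈ Icc 0 T := ⟨le_rfl, hT.le⟩
  have hle := hanti h0 ht ht.1
  have g0 : g 0 = 0 := by simp only [hg]; rw [energy_zero_at h₁ h₂, mul_zero]
  rw [g0] at hle
  have hexp := Real.exp_pos (-C * t)
  have : energy u₁ u₂ t ≤ 0 := by
    simp only [hg] at hle
    by_contra hcon
    have := mul_pos hexp (not_le.1 hcon)
    linarith
  exact le_antisymm this (energy_nonneg t)

theorem unitBox_subset_closure_interior : unitBox ⊆ closure (interior unitBox) := by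
  have e : unitBox = pi univ (fun _ : Fin 3 => Icc (0 : ℝ) 1) := by
    rw [unitBox_eq, ← Set.pi_univ_Icc]; rfl
  rw [e, interior_pi_set finite_univ, closure_pi_set]
  simp only [interior_Icc, closure_Ioo (zero_ne_one)]
  exact subset_rfl

/-- Integer translates of a periodic function. -/
theorem periodic_int {α : Type*} {g : R3 → α} (h : SpacePeriodic g) (i : Fin 3) (n : ℤ) (x : R3) :
    g (x + (n : ℝ) • unitVec i) = g x := by
  induction n using Int.induction_on generalizing x with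
  | zero => simp
  | succ m ih =>
    have e : x + ((m + 1 : ℤ) : ℝ) • unitVec i = (x + ((m : ℤ) : ℝ) • unitVec i) + unitVec i := by
      push_cast; rw [add_smul, one_smul, add_assoc]
    rw [e, h, ih x]
  | pred m ih =>
    have h1 := h (x + ((-(m : ℤ) - 1 : ℤ) : ℝ) • unitVec i) i
    have : x + ((-(m : ℤ) - 1 : ℤ) : ℝ) • unitVec i + unitVec i = x + ((-(m : ℤ) : ℤ) : ℝ) • unitVec i := by
      push_cast; rw [sub_smul, one_smul]; abel
    rw [this, ih x] at h1
    exact h1.symm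

theorem periodic_fract {α : Type*} {g : R3 → α} (h : SpacePeriodic g) (x : R3) :
    g (fun i => Int.fract (x i)) = g x := by
  have e : x = (fun i => Int.fract (x i))
      + ((⌊x 0⌋ : ℤ) : ℝ) • unitVec 0 + ((⌊x 1⌋ : ℤ) : ℝ) • unitVec 1
      + ((⌊x 2⌋ : ℤ) : ℝ) • unitVec 2 := by
    funext i
    fin_cases i <;> simp [unitVec, Int.fract_add_floor]
  conv_rhs => rw [e]
  rw [periodic_int h 2, periodic_int h 1, periodic_int h 0]

theorem fract_mem_unitBox (x : R3) : (fun i => Int.fract (x i)) ∈ unitBox := by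
  rw [unitBox_eq]
  exact ⟨fun i => Int.fract_nonneg _, fun i => (Int.fract_lt_one _).le⟩

/-- The velocities coincide. -/
theorem velocity_eq (hν : 0 ≤ ν) (h₁ : IsClassicalSolution ν f T u₁ p₁)
    (h₂ : IsClassicalSolution ν f T u₂ p₂) (hT : 0 < T) {t : ℝ} (ht : t ∈ Icc 0 T) :
    u₁ t = u₂ t := by
  have hE := energy_eq_zero hν h₁ h₂ hT ht
  have hc : Continuous (enDens u₁ u₂ t) := slice_cont (enDens_contOn h₁ h₂) ht
  have hnn : ∀ x, 0 ≤ enDens u₁ u₂ t x :=
    fun x => Finset.sum_nonneg (fun k _ => mul_self_nonneg _)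
  have hae : enDens u₁ u₂ t =ᵐ[volume.restrict unitBox] fun _ => 0 := by
    have := (integral_eq_zero_iff_of_nonneg (fun x => hnn x)
      (integrableOn_unitBox hc)).1 hE
    exact this
  have hon : EqOn (enDens u₁ u₂ t) (fun _ => 0) unitBox :=
    Measure.eqOn_of_ae_eq hae hc.continuousOn continuousOn_const unitBox_subset_closure_interior
  have hper : SpacePeriodic (enDens u₁ u₂ t) := by
    intro x j
    unfold enDens
    simp only [h₁.u_periodic t ht x j, h₂.u_periodic t ht x j]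
  have hall : ∀ x, enDens u₁ u₂ t x = 0 := by
    intro x
    rw [← periodic_fract hper x]
    exact hon (fract_mem_unitBox x)
  funext x k
  have := hall x
  unfold enDens at this
  have hk := (Finset.sum_eq_zero_iff_of_nonneg (fun k _ => mul_self_nonneg _)).1 this k
    (Finset.mem_univ k)
  have := mul_self_eq_zero.1 hk
  linarith

/-- The pressures coincide once the velocities do. -/
theorem pressure_eq (h₁ : IsClassicalSolution ν f T u₁ p₁)
    (h₂ : IsClassicalSolution ν f T u₂ p₂) (hvel : ∀ t ∈ Icc 0 T, u₁ t = u₂ t)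
    {t : ℝ} (ht : t ∈ Icc 0 T) : p₁ t = p₂ t := by
  have hp1 := h₁.p_contDiff t ht
  have hp2 := h₂.p_contDiff t ht
  have hd1 : Differentiable ℝ (p₁ t) := hp1.differentiable (by simp)
  have hd2 : Differentiable ℝ (p₂ t) := hp2.differentiable (by simp)
  have hgrad : ∀ x k, pd k (p₁ t) x = pd k (p₂ t) x := by
    intro x k
    have e1 := h₁.momentum t ht x k
    have e2 := h₂.momentum t ht x k
    have hD : derivWithin (fun s => u₁ s x) (Icc 0 T) t = derivWithin (fun s => u₂ s x) (Icc 0 T) t := by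
      apply derivWithin_congr
      · intro s hs; simp only [hvel s hs]
      · simp only [hvel t ht]
    rw [hD, hvel t ht] at e1
    linarith
  have hzero : ∀ x, fderiv ℝ (fun y => p₁ t y - p₂ t y) x = 0 := by
    intro x
    have h0 : ∀ k, fderiv ℝ (fun y => p₁ t y - p₂ t y) x (unitVec k) = 0 := by
      intro k
      rw [← pd_eq_fderiv ((hd1 x).fun_sub (hd2 x)) k, pd_sub (hd1 x) (hd2 x), hgrad x k, sub_self]
    ext v
    have hv : v = v 0 • unitVec 0 + v 1 • unitVec 1 + v 2 • unitVec 2 := by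
      funext i
      fin_cases i <;> simp [unitVec]
    rw [hv]
    simp [map_add, map_smul, h0]
  have hconst := is_const_of_fderiv_eq_zero (𝕜 := ℝ) (hd1.fun_sub hd2) hzero
  have hm : ∫ x in unitBox, (p₁ t x - p₂ t x) = 0 := by
    rw [integral_sub (integrableOn_unitBox hp1.continuous) (integrableOn_unitBox hp2.continuous),
      h₁.p_mean_zero t ht, h₂.p_mean_zero t ht, sub_zero]
  funext x
  have hc : (fun y => p₁ t y - p₂ t y) = fun _ => p₁ t x - p₂ t x := by
    funext y; exact hconst y x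
  rw [hc, setIntegral_const] at hm
  have hvol : (volume.real unitBox) = 1 := by
    rw [unitBox_eq, Measure.real, Real.volume_Icc_pi]
    simp
  rw [hvol, one_smul] at hm
  linarith

end

/-- Two classical solutions of the forced Navier-Stokes system from rest with the same force
coincide on `[0,T]`. -/
theorem classical_unique {ν : ℝ} (hν : 0 ≤ ν) {f : ℝ → R3 → R3} {T : ℝ} (hT : 0 < T)
    {u₁ u₂ : ℝ → R3 → R3} {p₁ p₂ : ℝ → R3 → ℝ}
    (h₁ : IsClassicalSolution ν f T u₁ p₁) (h₂ : IsClassicalSolution ν f T u₂ p₂) :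
    ∀ t ∈ Icc 0 T, u₁ t = u₂ t ∧ p₁ t = p₂ t := by
  have hvel : ∀ t ∈ Icc 0 T, u₁ t = u₂ t := fun t ht => velocity_eq hν h₁ h₂ hT ht
  exact fun t ht => ⟨hvel t ht, pressure_eq h₁ h₂ hvel ht⟩

end Vale.Agent.P113
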