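import Vale.Agent.P113.Phys
import Vale.Agent.P113.Rev
import Vale.Agent.P113.Chain
import Vale.Agent.P113.Uniq
import Vale.Agent.P113.MainDigits

/-!
# Assembly: halting detection by particle trajectories
-/

open Set Turing

set_option linter.unusedSectionVars false

namespace Vale.Agent.P113

section digits

variable {Γ Λ : Type} [Fintype Γ] [DecidableEq Γ] [Inhabited Γ] [Fintype Λ] [DecidableEq Λ]
  [Inhabited Λ]

lemma exists_digits :
    ∃ dig : RS Γ Λ → ℕ, Function.Injective dig ∧ dig rBlank = 0 ∧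
      ∀ s, dig s < Fintype.card (RS Γ Λ) := by
  classical
  let e := Fintype.equivFin (RS Γ Λ)
  have hpos : 0 < Fintype.card (RS Γ Λ) := Fintype.card_pos_iff.2 ⟨rBlank⟩
  let z : Fin (Fintype.card (RS Γ Λ)) := ⟨0, hpos⟩
  refine ⟨fun s => ((Equiv.swap (e rBlank) z) (e s) : Fin _), ?_, ?_, fun s => Fin.is_lt _⟩
  · intro a b h
    have h1 := Fin.ext h
    exact e.injective ((Equiv.swap (e rBlank) z).injective h1)
  · simp [z]

lemma mk₁_nth_nat (l : List Γ) (k : ℕ) : (Tape.mk₁ l).nth (k : ℤ) = l.getI k := by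
  have := Tape.mk'_nth_nat (ListBlank.mk ([] : List Γ)) (ListBlank.mk l) k
  rw [ListBlank.nth_mk] at this
  exact this

lemma mk₁_nth_neg (l : List Γ) (k : ℕ) : (Tape.mk₁ l).nth (-1 - (k : ℤ)) = default := by
  have h : (-1 - (k : ℤ)) = Int.negSucc k := by
    rw [Int.negSucc_eq]; ring
  rw [h]
  show (ListBlank.mk ([] : List Γ)).nth k = default
  rw [ListBlank.nth_mk]
  simp

/-- The digit list of the initial tape. -/
def iniDigits (φ₁ φ₂ φ₃ : Γ → ℕ) (l : List Γ) : List ℕ :=
  φ₁ (l.getI 0) :: φ₂ (l.getI 1) :: (l.tail.tail).map φ₃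

lemma getI_map_eq (φ : Γ → ℕ) (h0 : φ default = 0) (r : List Γ) (k : ℕ) :
    φ (r.getI k) = (r.map φ).getD k 0 := by
  induction r generalizing k with
  | nil => simp [h0]
  | cons a r ih =>
    cases k with
    | zero => simp
    | succ k =>
      simpa using ih k

lemma getI_tail_tail (l : List Γ) (k : ℕ) : l.getI (k + 2) = l.tail.tail.getI k := by
  match l with
  | [] => simp
  | [a] => simp
  | a :: b :: r => simp [List.getI]

variable (dig : RS Γ Λ → ℕ)

/-- The head symbol digit. -/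
def phi1 (a : Γ) : ℕ := dig (a, true, HSym.empty)
/-- The end marker symbol digit. -/
def phi2 (a : Γ) : ℕ := dig (a, false, HSym.stop)
/-- The plain symbol digit. -/
def phi3 (a : Γ) : ℕ := dig (a, false, HSym.empty)

lemma ini_digit (h0 : dig rBlank = 0) (l : List Γ) (k : ℕ) :
    dig (rIni l ((0 : ℤ) + (k : ℤ)))
      = (iniDigits (phi1 dig) (phi2 dig) (phi3 dig) l).getD k 0 := by
  have h3 : phi3 dig default = 0 := h0
  cases k with
  | zero =>
    have h := mk₁_nth_nat l 0
    simp only [Nat.cast_zero, Tape.nth_zero] at h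
    simp [rIni, iniDigits, phi1]
    rw [h]
  | succ k =>
    cases k with
    | zero =>
      have := mk₁_nth_nat l 1
      simp only [Nat.cast_one] at this
      simp [rIni, iniDigits, phi2, this]
    | succ k =>
      have hne0 : ((0 : ℤ) + ((k + 1 + 1 : ℕ) : ℤ)) ≠ 0 := by positivity
      have hne1 : ((0 : ℤ) + ((k + 1 + 1 : ℕ) : ℤ)) ≠ 1 := by push_cast; omega
      have hv : (Tape.mk₁ l).nth ((0 : ℤ) + ((k + 1 + 1 : ℕ) : ℤ)) = l.getI (k + 2) := by
        rw [zero_add]; exact mk₁_nth_nat l (k + 2)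
      have : rIni (Γ := Γ) (Λ := Λ) l ((0 : ℤ) + ((k + 1 + 1 : ℕ) : ℤ))
          = (l.getI (k + 2), false, HSym.empty) := by
        unfold rIni
        rw [hv]
        simp only [decide_eq_false hne0, if_neg hne1]
      rw [this]
      show phi3 dig (l.getI (k + 2)) = _
      rw [getI_tail_tail, getI_map_eq _ h3]
      simp [iniDigits]

lemma ini_left_digit (h0 : dig rBlank = 0) (l : List Γ) (k : ℕ) :
    dig (rIni l ((0 : ℤ) - 1 - (k : ℤ))) = 0 := by
  have h1 : ((0 : ℤ) - 1 - (k : ℤ)) = -1 - (k : ℤ) := by ring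
  have hne0 : (-1 - (k : ℤ)) ≠ 0 := by omega
  have hne1 : (-1 - (k : ℤ)) ≠ 1 := by omega
  have : rIni (Γ := Γ) (Λ := Λ) l (-1 - (k : ℤ)) = rBlank := by
    unfold rIni rBlank
    rw [mk₁_nth_neg]
    simp only [decide_eq_false hne0, if_neg hne1]
  rw [h1, this, h0]

/-- The digit list in terms of the mapped list. -/
def digitsT (d : ℕ × ℕ × ℕ) (T : List (ℕ × ℕ × ℕ)) : List ℕ :=
  (T.getD 0 d).1 :: (T.getD 1 d).2.1 :: (T.tail.tail).map (fun t => t.2.2)

lemma digitsT_primrec (d : ℕ × ℕ × ℕ) : Primrec (digitsT d) := by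
  refine Primrec.list_cons.comp ?_ (Primrec.list_cons.comp ?_ ?_)
  · exact Primrec.fst.comp ((Primrec.list_getD d).comp Primrec.id (Primrec.const 0))
  · exact Primrec.fst.comp (Primrec.snd.comp ((Primrec.list_getD d).comp Primrec.id (Primrec.const 1)))
  · exact Primrec.list_map (Primrec.list_tail.comp Primrec.list_tail)
      (Primrec.snd.comp (Primrec.snd.comp Primrec.snd))

/-- The triple of digits of a symbol. -/
def psi (a : Γ) : ℕ × ℕ × ℕ := (phi1 dig a, phi2 dig a, phi3 dig a)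

lemma digitsT_map (l : List Γ) :
    digitsT (psi dig default) (l.map (psi dig))
      = iniDigits (phi1 dig) (phi2 dig) (phi3 dig) l := by
  match l with
  | [] => simp [digitsT, iniDigits, psi]
  | [a] => simp [digitsT, iniDigits, psi]
  | a :: b :: r => simp [digitsT, iniDigits, psi, List.getI]

lemma encR_ini {K : ℕ} (hK : 1 ≤ K) (hdig : ∀ s, dig s < K) (h0 : dig rBlank = 0) (l : List Γ) :
    encR (K + 1) (fun i => dig (rIni l i)) 0
      = valB (K + 1) (iniDigits (phi1 dig) (phi2 dig) (phi3 dig) l) := by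
  have hB : 2 ≤ K + 1 := by omega
  rw [← tsum_digits_eq_valB hB]
  · unfold encR
    refine tsum_congr (fun k => ?_)
    show ((dig (rIni l ((0 : ℤ) + (k : ℤ))) : ℕ) : ℝ) / _ = _
    rw [ini_digit dig h0 l k]
  · intro d hd
    simp only [iniDigits, List.mem_cons, List.mem_map] at hd
    rcases hd with rfl | rfl | ⟨a, _, rfl⟩
    · exact (hdig _).trans (Nat.lt_succ_self _)
    · exact (hdig _).trans (Nat.lt_succ_self _)
    · exact (hdig _).trans (Nat.lt_succ_self _)

lemma encL_ini {K : ℕ} (h0 : dig rBlank = 0) (l : List Γ) :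
    encL (K + 1) (fun i => dig (rIni l i)) 0 = 0 := by
  unfold encL
  have : ∀ k : ℕ, ((dig (rIni l ((0 : ℤ) - 1 - (k : ℤ))) : ℕ) : ℝ) / (((K + 1 : ℕ) : ℝ)) ^ (k + 1) = 0 := by
    intro k
    rw [ini_left_digit dig h0 l k]
    simp
  simp only [this, tsum_zero]

end digits

section sine

lemma convex_mem {a b θ lo hi : ℝ} (ha : lo < a ∧ a < hi) (hb : lo < b ∧ b < hi)
    (h0 : 0 ≤ θ) (h1 : θ ≤ 1) : lo < a + θ * (b - a) ∧ a + θ * (b - a) < hi := by
  rcases le_total a b with hab | hab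
  · have h2 := mul_nonneg h0 (sub_nonneg.2 hab)
    have h3 : θ * (b - a) ≤ 1 * (b - a) := mul_le_mul_of_nonneg_right h1 (sub_nonneg.2 hab)
    constructor <;> linarith [ha.1, ha.2, hb.1, hb.2]
  · have h2 := mul_nonneg h0 (sub_nonneg.2 hab)
    have h3 : θ * (a - b) ≤ 1 * (a - b) := mul_le_mul_of_nonneg_right h1 (sub_nonneg.2 hab)
    have h4 : θ * (b - a) = -(θ * (a - b)) := by ring
    rw [h4]
    constructor <;> linarith [ha.1, ha.2, hb.1, hb.2]

lemma sin_pos_of_mem {z : ℝ} (h0 : 0 < z) (h1 : z < 1 / 2) : 0 < Real.sin (2 * Real.pi * z) := by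
  apply Real.sin_pos_of_pos_of_lt_pi
  · positivity
  · have := Real.pi_pos
    nlinarith

lemma sin_neg_of_mem {z : ℝ} (h0 : 1 / 2 < z) (h1 : z < 1) : Real.sin (2 * Real.pi * z) < 0 := by
  have hp := Real.pi_pos
  have h : Real.sin (2 * Real.pi * z) = Real.sin (2 * Real.pi * z - 2 * Real.pi) := by
    rw [Real.sin_sub_two_pi]
  rw [h]
  apply Real.sin_neg_of_neg_of_neg_pi_lt
  · nlinarith
  · nlinarith

end sine

/-- The target open set. -/
def targetSet : Set R3 := {x | Real.sin (2 * Real.pi * x 2) < 0}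

lemma targetSet_open : IsOpen targetSet := by
  apply isOpen_lt _ continuous_const
  fun_prop

lemma targetSet_periodic (x : R3) (i : Fin 3) : x + unitVec i ∈ targetSet ↔ x ∈ targetSet := by
  unfold targetSet
  simp only [Set.mem_ofPred_eq, Pi.add_apply]
  have : Real.sin (2 * Real.pi * (x 2 + unitVec i 2)) = Real.sin (2 * Real.pi * x 2) := by
    fin_cases i
    · simp [unitVec]
    · simp [unitVec]
    · have : (2 * Real.pi * (x 2 + unitVec 2 2)) = 2 * Real.pi * x 2 + 2 * Real.pi := by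
        simp [unitVec]; ring
      simpa [this] using Real.sin_add_two_pi (2 * Real.pi * x 2)
  rw [this]

/-- The base point. -/
noncomputable def basePt : R3 := ![1 / 2, 1 / 2, 1 / 4]

theorem main_aux {Γ Λ : Type} [Fintype Γ] [DecidableEq Γ] [Inhabited Γ] [Fintype Λ] [DecidableEq Λ]
    [Inhabited Λ] (M₀ : TM0.Machine Γ Λ) (L : Machine × List ℕ → List Γ)
    (hL : ∀ ψ : Γ → ℕ × ℕ × ℕ, Computable (fun mw => (L mw).map ψ))
    (hH : ∀ mw, Halts mw.1 mw.2 ↔ (TM0.eval M₀ (L mw)).Dom)
    {ν : ℝ} (hν : 0 < ν) (hc : IsComputableReal ν) : HaltingDetection ν := by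
  classical
  obtain ⟨π, mv, hrev⟩ := rev_main M₀
  obtain ⟨dig, dig_inj, dig0, hdig⟩ := exists_digits (Γ := Γ) (Λ := Λ)
  set K := Fintype.card (RS Γ Λ) with hKdef
  have hK : 1 ≤ K := Fintype.card_pos_iff.2 ⟨rBlank⟩
  let idx : RQ Γ Λ → ℕ := fun q => (Fintype.equivFin (RQ Γ Λ) q : ℕ)
  have idx_inj : Function.Injective idx := fun a b h =>
    (Fintype.equivFin (RQ Γ Λ)).injective (Fin.ext h)
  obtain ⟨ℓ, J, hJ, Sh, hℓ, hSh, hstep⟩ :=
    phys_main π mv (rHalted (Γ := Γ) (Λ := Λ)) dig K hK hdig dig_inj idx idx_inj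
  haveI : NeZero J := hJ
  -- the initial configuration and its code
  let c₀ : List Γ → RCfg (RQ Γ Λ) (RS Γ Λ) := fun l => ⟨rStart, rIni l, 0⟩
  let E : RCfg (RQ Γ Λ) (RS Γ Λ) → R3 := encCfg ℓ (K + 1) K rHalted idx dig
  -- the rational translation vector
  obtain ⟨zc, hzc⟩ := exists_ratCode ((1 / 4 : ℚ) + ℓ * (zLevel (rHalted (Γ := Γ) (Λ := Λ)) idx K rStart : ℚ))
  let ψ := psi (Γ := Γ) (Λ := Λ) dig
  let cv : Machine × List ℕ → RatCode × RatCode × RatCode := fun mw =>
    (ellCode ℓ (K + 1) (digitsT (ψ default) ((L mw).map ψ)), (0, 0, 0), zc)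
  have hcv : Computable cv := by
    refine Computable.pair ?_ (Computable.const _)
    exact ((ellCode_primrec ℓ (K + 1)).comp (digitsT_primrec _)).to_comp.comp (hL ψ)
  -- the code of the initial configuration
  have hpt : ∀ mw, basePt + ratPoint (cv mw) = E (c₀ (L mw)) := by
    intro mw
    have hval : ratVal (ellCode ℓ (K + 1) (digitsT (ψ default) ((L mw).map ψ)))
        = (ℓ : ℝ) * encR (K + 1) (fun i => dig (rIni (L mw) i)) 0 := by
      rw [ratVal_ellCode hℓ (by omega), digitsT_map, encR_ini dig hK hdig dig0]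
    funext i
    fin_cases i
    · show 1 / 2 + ratVal (ellCode ℓ (K + 1) (digitsT (ψ default) ((L mw).map ψ))) = _
      rw [hval]
      rfl
    · show 1 / 2 + ratVal (0, 0, 0) = 1 / 2 + (ℓ : ℝ) * encL (K + 1) (fun i => dig (rIni (L mw) i)) 0
      rw [encL_ini dig dig0]
      simp [ratVal]
    · show 1 / 4 + ratVal zc = 1 / 2 + (ℓ : ℝ) * ((zLevel rHalted idx K rStart : ℤ) : ℝ)
      rw [hzc]
      push_cast
      ring
  -- the compiler
  obtain ⟨compiler, hcomp, hprog⟩ := flow_program hSh hc hcv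
  refine ⟨basePt, targetSet, targetSet_open, targetSet_periodic, compiler,
    fun M w => flowF ν Sh (ratPoint (cv (M, w))), 1 / ((J : ℝ) + 2), 1, hcomp, by positivity, one_pos,
    fun M w => ⟨flow_force_smooth hSh ν _, hprog _⟩,
    fun M w t ht x => flow_force_periodic ν _ t ht x,
    fun M w w' t ht x => flow_force_tail ν _ _ t ht x, ?_⟩
  intro M w
  refine ⟨flowU Sh (ratPoint (cv (M, w))), fun _ _ => 0, flow_solution hSh ν _, ?_, ?_, ?_⟩
  · intro T hT u' p' hsol t ht
    exact classical_unique hν.le hT hsol ((flow_solution hSh ν _).classical T hT) t ht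
  · obtain ⟨X, hX, -⟩ := flow_traj hSh basePt (ratPoint (cv (M, w)))
    exact ⟨X, hX⟩
  · -- the main equivalence
    intro Y hY
    obtain ⟨X, hX, hXn, hX0, hXg⟩ := flow_traj hSh basePt (ratPoint (cv (M, w)))
    have hXY : ∀ t ≥ 0, Y t = X t := flow_traj_unique hSh _ _ hY hX
    have hmem : (∃ t ≥ 0, Y t ∈ targetSet) ↔ ∃ t ≥ 0, X t ∈ targetSet := by
      constructor
      · rintro ⟨t, ht, h⟩; exact ⟨t, ht, hXY t ht ▸ h⟩
      · rintro ⟨t, ht, h⟩; exact ⟨t, ht, (hXY t ht).symm ▸ h⟩
    rw [hmem]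
    -- configurations along the run
    set l := L (M, w) with hl
    let C : ℕ → RCfg (RQ Γ Λ) (RS Γ Λ) := fun n => (rstep π mv)^[n] (c₀ l)
    have hCsucc : ∀ n, C (n + 1) = rstep π mv (C n) := fun n =>
      Function.iterate_succ_apply' _ _ _
    have hstart : basePt + ratPoint (cv (M, w)) = E (C 0) := hpt (M, w)
    have hW : ∀ n, slotPt Sh (E (C 0)) (n * J) = E (C n) := by
      intro n
      induction n with
      | zero => simp [slotPt]
      | succ n ih =>
        have h1 : (n + 1) * J = n * J + J := by ring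
        rw [h1, slotPt_add, ih, hCsucc]
        exact (hstep (C n)).1
    have hiff : Halts M w ↔ ∃ n, rHalted (C n).q := by
      rw [show Halts M w ↔ (TM0.eval M₀ l).Dom from hH (M, w)]
      exact (hrev l).symm
    rw [hstart] at hXn hXg
    rw [hiff]
    constructor
    · -- if the trajectory enters the target set then some state is halting
      rintro ⟨t, ht, htO⟩
      by_contra hno
      push Not at hno
      have hsegment : ∀ g, 0 < slotPt Sh (E (C 0)) g 2 ∧ slotPt Sh (E (C 0)) g 2 < 1 / 2 := by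
        intro g
        have hg : g = (g / J) * J + g % J := by
          rw [Nat.div_add_mod']
        have hlt : g % J ≤ J := (Nat.mod_lt _ (Nat.pos_of_ne_zero (NeZero.ne J))).le
        rw [hg, slotPt_add, hW]
        refine (hstep (C (g / J))).2.1 _ hlt (hno _) ?_
        rw [← hCsucc]
        exact hno _
      have hz0 : 0 < E (C 0) 2 ∧ E (C 0) 2 < 1 / 2 := (hstep (C 0)).2.2.1 (hno 0)
      have hnot : X t 2 ∈ Ioo (0 : ℝ) (1 / 2) := by
        by_cases htc : t ≤ 1 / ((J : ℝ) + 2)
        · obtain ⟨θ, hθ, hXt⟩ := hX0 t ⟨ht, htc⟩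
          have hc2 : (ratPoint (cv (M, w))) 2 = E (C 0) 2 - 1 / 4 := by
            have := congrFun hstart 2
            simp only [Pi.add_apply] at this
            have hb : basePt 2 = 1 / 4 := rfl
            rw [hb] at this
            linarith
          rw [hXt]
          simp only [Pi.add_apply, Pi.smul_apply, smul_eq_mul]
          have hb : basePt 2 = 1 / 4 := rfl
          rw [hb, hc2]
          obtain ⟨h1, h2⟩ := hθ
          have := convex_mem (a := 1 / 4) (b := E (C 0) 2) (lo := 0) (hi := 1 / 2)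
            ⟨by norm_num, by norm_num⟩ hz0 h1 h2
          constructor
          · linarith [this.1]
          · linarith [this.2]
        · push Not at htc
          obtain ⟨g, θ, hθ, hXt⟩ := hXg t htc.le
          rw [hXt]
          simp only [Pi.add_apply, Pi.smul_apply, smul_eq_mul, Pi.sub_apply]
          obtain ⟨h1, h2⟩ := hθ
          exact convex_mem (hsegment g) (hsegment (g + 1)) h1 h2
      exact absurd htO (not_lt.2 (sin_pos_of_mem hnot.1 hnot.2).le)
    · rintro ⟨n, hn⟩
      refine ⟨(n : ℝ) + 1 / ((J : ℝ) + 2), by positivity, ?_⟩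
      rw [hXn, hW]
      have := (hstep (C n)).2.2.2 hn
      exact sin_neg_of_mem this.1 this.2

/-- **Main theorem.** -/
theorem main_theorem {ν : ℝ} (hν : 0 < ν) (hc : IsComputableReal ν) : HaltingDetection ν := by
  obtain ⟨Γ, Λ, i1, i2, i3, i4, i5, i6, M₀, L, hL, hH⟩ := chain_main
  exact main_aux M₀ L hL hH hν hc

end Vale.Agent.P113
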