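import Vale.Agent.P113.Phys3

/-!
# Shear flows simulating a reversible tape machine
-/

namespace Vale.Agent.P113

variable {Q S : Type} [Fintype Q] [DecidableEq Q] [Fintype S] [DecidableEq S]

/-- For a reversible machine there are finitely many good shears whose composition maps the code of a
configuration to the code of the next configuration, while the third coordinate stays in `(0,1/2)` as
long as the two states are not halting. The third coordinate of a code tells whether the state
is halting. -/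
theorem phys_main (π : Equiv.Perm (Q × S)) (mv : Q → Option Bool) (H : Q → Prop)
    (dig : S → ℕ) (K : ℕ) (hK : 1 ≤ K) (hdig : ∀ s, dig s < K) (dig_inj : Function.Injective dig)
    (idx : Q → ℕ) (idx_inj : Function.Injective idx) :
    ∃ (ℓ : ℚ) (J : ℕ) (_ : NeZero J) (Sh : Fin J → Shear), 0 < ℓ ∧ (∀ j, (Sh j).Good) ∧
      ∀ c : RCfg Q S,
        slotPt Sh (encCfg ℓ (K + 1) K H idx dig c) J
            = encCfg ℓ (K + 1) K H idx dig (rstep π mv c) ∧
        (∀ g ≤ J, ¬ H c.q → ¬ H (rstep π mv c).q →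
          0 < slotPt Sh (encCfg ℓ (K + 1) K H idx dig c) g 2 ∧
          slotPt Sh (encCfg ℓ (K + 1) K H idx dig c) g 2 < 1 / 2) ∧
        (¬ H c.q → 0 < encCfg ℓ (K + 1) K H idx dig c 2 ∧ encCfg ℓ (K + 1) K H idx dig c 2 < 1 / 2) ∧
        (H c.q → 1 / 2 < encCfg ℓ (K + 1) K H idx dig c 2 ∧ encCfg ℓ (K + 1) K H idx dig c 2 < 1) := by
  have hQb : ∀ q, idx q < (Finset.univ.sup idx) + 1 := fun q =>
    Nat.lt_succ_of_le (Finset.le_sup (f := idx) (Finset.mem_univ q))
  let D : PD Q S := ⟨π, mv, H, dig, K, hK, hdig, dig_inj, idx, idx_inj, _, hQb⟩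
  refine ⟨D.ell, 13, inferInstance, D.shears, D.ell_pos, D.shears_good, fun c => ⟨D.sp_13 c, ?_, ?_, ?_⟩⟩
  · intro g hg h1 h2
    exact D.sp_third c hg h1 h2
  · intro h1
    exact D.third_neg (D.zl_neg_real h1) (D.abs_zl_le _)
  · intro h1
    exact D.third_pos (D.zl_pos_real h1) (D.abs_zl_le _)

end Vale.Agent.P113
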