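import Vale.Agent.P113.RevDefs

/-!
# Digit expansions of tapes
-/

namespace Vale.Agent.P113

section enc

variable {B K : ℕ} {d : ℤ → ℕ}

lemma enc_summable_aux (hB : 2 ≤ B) (f : ℕ → ℕ) (hf : ∀ k, f k < B) :
    Summable (fun k : ℕ => (f k : ℝ) / (B : ℝ) ^ (k + 1)) := by
  have hB' : (2 : ℝ) ≤ B := by exact_mod_cast hB
  have hBpos : (0 : ℝ) < B := by linarith
  have hr : (1 / (B : ℝ)) < 1 := by
    rw [div_lt_one hBpos]; linarith
  have hg : Summable (fun k : ℕ => (1 / (B : ℝ)) ^ k) :=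
    summable_geometric_of_lt_one (by positivity) hr
  refine Summable.of_nonneg_of_le (fun k => by positivity) (fun k => ?_) hg
  have h1 : (f k : ℝ) ≤ B := by exact_mod_cast (hf k).le
  rw [div_le_iff₀ (by positivity), one_div, inv_pow, pow_succ]
  have : ((B : ℝ) ^ k)⁻¹ * ((B : ℝ) ^ k * B) = B := by
    field_simp
  rw [this]; exact h1

lemma encR_succ (hB : 2 ≤ B) (hd : ∀ i, d i < B) (p : ℤ) :
    encR B d p = ((d p : ℝ) + encR B d (p + 1)) / B := by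
  have hBpos : (0 : ℝ) < B := by
    have : 0 < B := by omega
    exact_mod_cast this
  unfold encR
  have hs := enc_summable_aux hB (fun k => d (p + k)) (fun k => hd _)
  rw [hs.tsum_eq_zero_add]
  have hterm : ∀ k : ℕ, ((d (p + ((k + 1 : ℕ) : ℤ)) : ℕ) : ℝ) / (B : ℝ) ^ (k + 1 + 1)
      = (1 / (B : ℝ)) * ((d (p + 1 + (k : ℤ)) : ℝ) / (B : ℝ) ^ (k + 1)) := by
    intro k
    have : p + ((k + 1 : ℕ) : ℤ) = p + 1 + (k : ℤ) := by push_cast; ring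
    rw [this, pow_succ (B : ℝ) (k + 1)]
    field_simp
  simp only [hterm]
  rw [tsum_mul_left]
  simp only [Nat.cast_zero, add_zero, zero_add, pow_one]
  field_simp

lemma encL_succ (hB : 2 ≤ B) (hd : ∀ i, d i < B) (p : ℤ) :
    encL B d (p + 1) = ((d p : ℝ) + encL B d p) / B := by
  have hBpos : (0 : ℝ) < B := by
    have : 0 < B := by omega
    exact_mod_cast this
  unfold encL
  have hs := enc_summable_aux hB (fun k => d (p + 1 - 1 - k)) (fun k => hd _)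
  rw [hs.tsum_eq_zero_add]
  have hterm : ∀ k : ℕ, ((d (p + 1 - 1 - ((k + 1 : ℕ) : ℤ)) : ℕ) : ℝ) / (B : ℝ) ^ (k + 1 + 1)
      = (1 / (B : ℝ)) * ((d (p - 1 - (k : ℤ)) : ℝ) / (B : ℝ) ^ (k + 1)) := by
    intro k
    have : p + 1 - 1 - ((k + 1 : ℕ) : ℤ) = p - 1 - (k : ℤ) := by push_cast; ring
    rw [this, pow_succ (B : ℝ) (k + 1)]
    field_simp
  simp only [hterm]
  rw [tsum_mul_left]
  have h0 : p + 1 - 1 - ((0 : ℕ) : ℤ) = p := by simp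
  rw [h0]
  simp only [zero_add, pow_one]
  field_simp

/-- Bound for a digit expansion with digits at most `K - 1` in base `K + 1`. -/
lemma enc_bound_aux (hK : 1 ≤ K) (f : ℕ → ℕ) (hf : ∀ k, f k < K) :
    (0 : ℝ) ≤ ∑' k : ℕ, (f k : ℝ) / ((K + 1 : ℕ) : ℝ) ^ (k + 1) ∧
    ∑' k : ℕ, (f k : ℝ) / ((K + 1 : ℕ) : ℝ) ^ (k + 1) ≤ ((K : ℝ) - 1) / K := by
  have hKr : (1 : ℝ) ≤ K := by exact_mod_cast hK
  have hB2 : 2 ≤ K + 1 := by omega
  have hs := enc_summable_aux hB2 f (fun k => by have := hf k; omega)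
  refine ⟨tsum_nonneg (fun k => by positivity), ?_⟩
  have hBpos : (0 : ℝ) < ((K + 1 : ℕ) : ℝ) := by positivity
  have hrpos : (0 : ℝ) ≤ 1 / ((K + 1 : ℕ) : ℝ) := by positivity
  have hrlt : 1 / ((K + 1 : ℕ) : ℝ) < 1 := by
    rw [div_lt_one hBpos]; push_cast; linarith
  have hgeo := hasSum_geometric_of_lt_one hrpos hrlt
  have hg2 : HasSum (fun k : ℕ => ((K : ℝ) - 1) / ((K + 1 : ℕ) : ℝ) * (1 / ((K + 1 : ℕ) : ℝ)) ^ k)
      (((K : ℝ) - 1) / ((K + 1 : ℕ) : ℝ) * (1 - 1 / ((K + 1 : ℕ) : ℝ))⁻¹) := hgeo.mul_left _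
  have hval : ((K : ℝ) - 1) / ((K + 1 : ℕ) : ℝ) * (1 - 1 / ((K + 1 : ℕ) : ℝ))⁻¹ = ((K : ℝ) - 1) / K := by
    push_cast
    have hK0 : (K : ℝ) ≠ 0 := by positivity
    have h1 : (K : ℝ) + 1 ≠ 0 := by positivity
    have h2 : 1 - 1 / ((K : ℝ) + 1) = K / ((K : ℝ) + 1) := by field_simp; ring
    rw [h2]; field_simp
  rw [hval] at hg2
  refine hasSum_le (fun k => ?_) hs.hasSum hg2
  have h1 : (f k : ℝ) ≤ (K : ℝ) - 1 := by
    have : f k + 1 ≤ K := hf k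
    have h' : ((f k + 1 : ℕ) : ℝ) ≤ K := by exact_mod_cast this
    push_cast at h'; linarith
  have hpow : (((K + 1 : ℕ) : ℝ)) ^ (k + 1) = ((K + 1 : ℕ) : ℝ) * ((K + 1 : ℕ) : ℝ) ^ k := by
    rw [pow_succ]; ring
  rw [hpow, one_div, inv_pow, div_mul_eq_mul_div, div_le_div_iff₀ (by positivity) hBpos]
  have hpos : (0 : ℝ) < ((K + 1 : ℕ) : ℝ) ^ k := by positivity
  have h3 : ((K : ℝ) - 1) * (((K + 1 : ℕ) : ℝ) ^ k)⁻¹ * (((K + 1 : ℕ) : ℝ) * ((K + 1 : ℕ) : ℝ) ^ k)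
      = ((K : ℝ) - 1) * ((K + 1 : ℕ) : ℝ) := by
    field_simp
  rw [h3]
  exact mul_le_mul_of_nonneg_right h1 hBpos.le

end enc

end Vale.Agent.P113
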