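import Vale.Agent.P113.PhysBlocks
import Vale.Agent.P113.PhysEnc

/-!
# The thirteen shears of one machine step: data and values of the functions
-/

set_option linter.unusedSectionVars false

namespace Vale.Agent.P113

/-- The data of a reversible machine with digits and state indices. -/
structure PD (Q S : Type) where
  π : Equiv.Perm (Q × S)
  mv : Q → Option Bool
  H : Q → Prop
  dig : S → ℕ
  K : ℕ
  hK : 1 ≤ K
  hdig : ∀ s, dig s < K
  dig_inj : Function.Injective dig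
  idx : Q → ℕ
  idx_inj : Function.Injective idx
  Qb : ℕ
  hQb : ∀ q, idx q < Qb

namespace PD

variable {Q S : Type} [Fintype Q] [DecidableEq Q] [Fintype S] [DecidableEq S] (D : PD Q S)

/-- The base of the digit expansions. -/
def Bq : ℚ := (D.K : ℚ) + 1
/-- The bound of the digit expansions. -/
def V : ℚ := ((D.K : ℚ) - 1) / D.K
/-- The margin for blocks around cylinders. -/
def ηA : ℚ := 1 / ((D.K : ℚ) * ((D.K : ℚ) + 1))
/-- Separation of the first hyperbolic stage. -/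
def E1 : ℚ := (D.K : ℚ) + 2
/-- The height of a state in tape units. -/
noncomputable def zl (q : Q) : ℤ := zLevel D.H D.idx D.K q
/-- The height of a state and a symbol in tape units. -/
noncomputable def zz (i : Q × S) : ℤ := D.zl i.1 + D.dig i.2
/-- The parking position of a state and a symbol. -/
def park (i : Q × S) : ℚ := 2 * (((D.idx i.1 * D.K + D.dig i.2 : ℕ) : ℚ) + 1)
/-- A bound for everything in tape units. -/
def U : ℕ := 2 * D.Qb * D.K + (D.K + 2) * (D.K + 2) + 3 * D.K + (D.Qb + 1) * D.K + 10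
/-- The width of a tape unit on the torus. -/
def ell : ℚ := 1 / (4 * ((D.U : ℚ) + 1))

/-- Functions of the `x` or `y` coordinate with blocks around the cylinders. -/
noncomputable def cyl (a b : Fin D.K → ℚ) : ℝ → ℝ :=
  pw a b (fun r => ((r : ℕ) : ℚ) / D.Bq) (fun r => (((r : ℕ) : ℚ) + D.V) / D.Bq) D.ηA

/-- Reads the leading digit of `x`. -/
noncomputable def A : ℝ → ℝ := D.cyl (fun _ => 0) (fun r => ((r : ℕ) : ℚ))
/-- First hyperbolic stage. -/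
noncomputable def F1 : ℝ → ℝ :=
  D.cyl (fun _ => -((D.K : ℚ) * D.Bq)) (fun r => ((D.K : ℚ) + D.E1) * ((r : ℕ) : ℚ))
/-- Second hyperbolic stage. -/
noncomputable def F2 : ℝ → ℝ :=
  pw (ι := Fin D.K) (fun _ => -(1 / D.Bq))
    (fun r => D.E1 * ((r : ℕ) : ℚ) / D.Bq + 3 * ((r : ℕ) : ℚ) - ((r : ℕ) : ℚ) / D.Bq)
    (fun r => D.E1 * ((r : ℕ) : ℚ) - ((D.K : ℚ) - 1)) (fun r => D.E1 * ((r : ℕ) : ℚ) + D.V) 1
/-- Third hyperbolic stage. -/
noncomputable def F3 : ℝ → ℝ :=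
  pw (ι := Fin D.K) (fun _ => (D.K : ℚ))
    (fun r => -(3 * (D.K : ℚ) * ((r : ℕ) : ℚ)) + ((r : ℕ) : ℚ) / D.Bq - D.E1 * ((r : ℕ) : ℚ))
    (fun r => 3 * ((r : ℕ) : ℚ) - D.V / D.Bq) (fun r => 3 * ((r : ℕ) : ℚ) + D.V) 1
/-- Fourth hyperbolic stage. -/
noncomputable def F4 : ℝ → ℝ :=
  D.cyl (fun _ => 1) (fun r => -(((r : ℕ) : ℚ) / D.Bq) - 3 * ((r : ℕ) : ℚ))

/-- A function of `z` with prescribed values at the heights `zz`. -/
noncomputable def zpt (val : Q × S → ℚ) : ℝ → ℝ :=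
  pw (fun _ => 0) val (fun i => (D.zz i : ℚ)) (fun i => (D.zz i : ℚ)) 1
/-- A function of `z` with prescribed values at the heights `zl`. -/
noncomputable def qpt (val : Q → ℚ) : ℝ → ℝ :=
  pw (fun _ => 0) val (fun q => (D.zl q : ℚ)) (fun q => (D.zl q : ℚ)) 1

/-- Parks `x`. -/
noncomputable def b1 : ℝ → ℝ := D.zpt D.park
/-- Reads the parking position and updates `z`. -/
noncomputable def g : ℝ → ℝ :=
  pw (fun _ => 0) (fun i : Q × S => ((D.zz (D.π i) - D.zz i : ℤ) : ℚ))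
    (fun i => D.park i) (fun i => D.park i + 1) 1
/-- Unparks `x` and writes the new digit. -/
noncomputable def b2 : ℝ → ℝ :=
  D.zpt (fun i => -D.park (D.π.symm i)
    + (((D.dig i.2 : ℕ) : ℚ) - ((D.dig (D.π.symm i).2 : ℕ) : ℚ)) / D.Bq)
/-- The indicator of the states moving right. -/
noncomputable def zetaR : ℝ → ℝ := D.qpt (fun q => if D.mv q = some true then 1 else 0)
/-- The indicator of the states moving left. -/
noncomputable def zetaL : ℝ → ℝ := D.qpt (fun q => if D.mv q = some false then 1 else 0)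

/-- Multiplication of a function by a rational constant. -/
noncomputable def sc (c : ℚ) (F : ℝ → ℝ) : ℝ → ℝ := fun u => (c : ℝ) * F u

/-- The torus function of a tape function with amplitude `ℓ`. -/
noncomputable def TL (F : ℝ → ℝ) : ℝ → ℝ := TT D.ell (sc D.ell F)
/-- The torus function of a tape function with amplitude `- ℓ`. -/
noncomputable def TN (F : ℝ → ℝ) : ℝ → ℝ := TT D.ell (sc (-D.ell) F)
/-- The torus function of a tape function. -/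
noncomputable def T1 (F : ℝ → ℝ) : ℝ → ℝ := TT D.ell F

/-- The thirteen shears. -/
noncomputable def shears : Fin 13 → Shear :=
  ![zS (D.TL D.A) (fun _ => 1),
    xS (fun _ => 1) (D.TL D.b1),
    zS (D.TL D.g) (fun _ => 1),
    xS (fun _ => 1) (D.TL D.b2),
    zS (D.TN D.A) (fun _ => 1),
    yS (D.TL D.F1) (D.T1 D.zetaR),
    xS (D.TL D.F2) (D.T1 D.zetaR),
    yS (D.TL D.F3) (D.T1 D.zetaR),
    xS (D.TL D.F4) (D.T1 D.zetaR),
    xS (D.TN D.F4) (D.T1 D.zetaL),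
    yS (D.TN D.F3) (D.T1 D.zetaL),
    xS (D.TN D.F2) (D.T1 D.zetaL),
    yS (D.TN D.F1) (D.T1 D.zetaL)]

/-! ### Elementary facts on the constants -/

lemma K_pos : (1 : ℝ) ≤ D.K := by exact_mod_cast D.hK

lemma Bq_cast : ((D.Bq : ℚ) : ℝ) = (D.K : ℝ) + 1 := by simp [Bq]

lemma Bq_pos : 0 < D.Bq := by
  have : (1 : ℚ) ≤ D.K := by exact_mod_cast D.hK
  unfold Bq; linarith

lemma V_cast : ((D.V : ℚ) : ℝ) = ((D.K : ℝ) - 1) / D.K := by simp [V]

lemma V_nonneg : (0 : ℝ) ≤ (D.V : ℝ) := by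
  rw [V_cast]
  have := D.K_pos
  exact div_nonneg (by linarith) (by linarith)

lemma V_le_one : (D.V : ℝ) ≤ 1 := by
  rw [V_cast]
  have := D.K_pos
  rw [div_le_one (by linarith)]
  linarith

lemma V_q_nonneg : 0 ≤ D.V := by exact_mod_cast D.V_nonneg

lemma V_q_le_one : D.V ≤ 1 := by exact_mod_cast D.V_le_one

lemma K_mul_V : (D.K : ℝ) * (D.V : ℝ) = (D.K : ℝ) - 1 := by
  rw [V_cast]
  have := D.K_pos
  field_simp

lemma ηA_pos : 0 < D.ηA := by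
  have : (1 : ℚ) ≤ D.K := by exact_mod_cast D.hK
  unfold ηA; positivity

lemma ηA_cast : ((D.ηA : ℚ) : ℝ) = 1 / ((D.K : ℝ) * ((D.K : ℝ) + 1)) := by simp [ηA]

lemma ηA_le_one : (D.ηA : ℝ) ≤ 1 := by
  rw [ηA_cast]
  have := D.K_pos
  rw [div_le_one (by positivity)]
  nlinarith

lemma E1_cast : ((D.E1 : ℚ) : ℝ) = (D.K : ℝ) + 2 := by simp [E1]

lemma ell_pos : 0 < D.ell := by
  unfold ell; positivity

lemma ell_cast : ((D.ell : ℚ) : ℝ) = 1 / (4 * ((D.U : ℝ) + 1)) := by simp [ell]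

lemma U_cast : (D.U : ℝ) = 2 * D.Qb * D.K + (D.K + 2) * (D.K + 2) + 3 * D.K + (D.Qb + 1) * D.K + 10 := by
  simp [U]

/-- The radius in tape units containing all supports. -/
noncomputable def W : ℝ := (D.U : ℝ) + 1

lemma W_pos : 0 < D.W := by unfold W; positivity

lemma ell_mul_W : (D.ell : ℝ) * D.W = 1 / 4 := by
  rw [ell_cast]; unfold W
  have : (D.U : ℝ) + 1 ≠ 0 := by positivity
  field_simp

lemma abs_ell_mul_lt {u : ℝ} (hu : |u| ≤ D.W) : |(D.ell : ℝ) * u| < 1 / 2 := by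
  have hℓ : (0 : ℝ) < D.ell := by exact_mod_cast D.ell_pos
  rw [abs_mul, abs_of_pos hℓ]
  have := D.ell_mul_W
  nlinarith

lemma TL_apply (F : ℝ → ℝ) {u : ℝ} (hu : |u| ≤ D.W) :
    D.TL F (1 / 2 + D.ell * u) = D.ell * F u := by
  unfold TL
  rw [TT_apply D.ell_pos _ (D.abs_ell_mul_lt hu)]
  rfl

lemma TN_apply (F : ℝ → ℝ) {u : ℝ} (hu : |u| ≤ D.W) :
    D.TN F (1 / 2 + D.ell * u) = D.ell * (- F u) := by
  unfold TN
  rw [TT_apply D.ell_pos _ (D.abs_ell_mul_lt hu)]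
  unfold sc
  push_cast
  ring

lemma T1_apply (F : ℝ → ℝ) {u : ℝ} (hu : |u| ≤ D.W) :
    D.T1 F (1 / 2 + D.ell * u) = F u := by
  unfold T1
  rw [TT_apply D.ell_pos _ (D.abs_ell_mul_lt hu)]

lemma good_TL {F : ℝ → ℝ} (hF : EffSm F) (hv : ∀ u, D.W ≤ |u| → F u = 0) : GoodFac (D.TL F) := by
  have hsc : EffSm (sc D.ell F) := EffSm.rat_mul _ hF
  refine TT_good D.ell_pos hsc (W := D.W) (fun u hu => ?_) D.ell_mul_W.le
  unfold sc
  rw [hv u hu, mul_zero]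

lemma good_TN {F : ℝ → ℝ} (hF : EffSm F) (hv : ∀ u, D.W ≤ |u| → F u = 0) : GoodFac (D.TN F) := by
  have hsc : EffSm (sc (-D.ell) F) := EffSm.rat_mul _ hF
  refine TT_good D.ell_pos hsc (W := D.W) (fun u hu => ?_) D.ell_mul_W.le
  unfold sc
  rw [hv u hu, mul_zero]

lemma good_T1 {F : ℝ → ℝ} (hF : EffSm F) (hv : ∀ u, D.W ≤ |u| → F u = 0) : GoodFac (D.T1 F) :=
  TT_good D.ell_pos hF (W := D.W) hv D.ell_mul_W.le

/-! ### Heights -/

lemma zl_cases (q : Q) :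
    (D.H q ∧ D.zl q = ((D.idx q : ℤ) + 1) * D.K) ∨ (¬ D.H q ∧ D.zl q = -((D.idx q : ℤ) + 1) * D.K) := by
  classical
  by_cases h : D.H q
  · left; exact ⟨h, by simp [zl, zLevel, h]⟩
  · right; exact ⟨h, by simp [zl, zLevel, h]⟩

lemma K_pos_int : (1 : ℤ) ≤ D.K := by exact_mod_cast D.hK

lemma idx_add_one_le (q : Q) : (D.idx q : ℤ) + 1 ≤ D.Qb := by
  have := D.hQb q
  omega

lemma zl_nonH {q : Q} (h : ¬ D.H q) : D.zl q ≤ -(D.K : ℤ) := by
  rcases D.zl_cases q with ⟨h', _⟩ | ⟨_, h2⟩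
  · exact absurd h' h
  · rw [h2]
    have := D.K_pos_int
    have h3 : (0 : ℤ) ≤ D.idx q := by positivity
    nlinarith

lemma zl_H {q : Q} (h : D.H q) : (D.K : ℤ) ≤ D.zl q := by
  rcases D.zl_cases q with ⟨_, h2⟩ | ⟨h', _⟩
  · rw [h2]
    have := D.K_pos_int
    have h3 : (0 : ℤ) ≤ D.idx q := by positivity
    nlinarith
  · exact absurd h h'

lemma zl_abs (q : Q) : |D.zl q| ≤ (D.Qb : ℤ) * D.K := by
  have hK := D.K_pos_int
  have h3 : (0 : ℤ) ≤ D.idx q := by positivity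
  have h4 := D.idx_add_one_le q
  rcases D.zl_cases q with ⟨_, h2⟩ | ⟨_, h2⟩
  · rw [h2, abs_of_nonneg (by positivity)]
    exact mul_le_mul_of_nonneg_right h4 (by positivity)
  · rw [h2, abs_le]
    constructor <;> nlinarith

lemma zl_inj {q q' : Q} (h : D.zl q = D.zl q') : q = q' := by
  have hK := D.K_pos_int
  have hK' : (D.K : ℤ) ≠ 0 := by omega
  apply D.idx_inj
  have h3 : (0 : ℤ) ≤ D.idx q := by positivity
  have h4 : (0 : ℤ) ≤ D.idx q' := by positivity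
  rcases D.zl_cases q with ⟨_, h2⟩ | ⟨_, h2⟩ <;> rcases D.zl_cases q' with ⟨_, h2'⟩ | ⟨_, h2'⟩ <;>
    rw [h2, h2'] at h <;> have h5 := mul_right_cancel₀ hK' h <;> omega

lemma zz_inj {i j : Q × S} (h : D.zz i = D.zz j) : i = j := by
  have hK := D.K_pos_int
  have di := D.hdig i.2
  have dj := D.hdig j.2
  unfold zz at h
  -- write heights as multiples of `K`
  obtain ⟨a, ha⟩ : ∃ a : ℤ, D.zl i.1 = a * D.K := by
    rcases D.zl_cases i.1 with ⟨_, h2⟩ | ⟨_, h2⟩ <;> exact ⟨_, h2⟩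
  obtain ⟨b, hb⟩ : ∃ b : ℤ, D.zl j.1 = b * D.K := by
    rcases D.zl_cases j.1 with ⟨_, h2⟩ | ⟨_, h2⟩ <;> exact ⟨_, h2⟩
  rw [ha, hb] at h
  have di' : (D.dig i.2 : ℤ) < D.K := by exact_mod_cast di
  have dj' : (D.dig j.2 : ℤ) < D.K := by exact_mod_cast dj
  have di0 : (0 : ℤ) ≤ D.dig i.2 := by positivity
  have dj0 : (0 : ℤ) ≤ D.dig j.2 := by positivity
  have hab : a = b := by
    by_contra hne
    rcases lt_or_gt_of_ne hne with hlt | hlt
    · have : (a + 1) * (D.K : ℤ) ≤ b * D.K := mul_le_mul_of_nonneg_right (by omega) (by omega)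
      nlinarith
    · have : (b + 1) * (D.K : ℤ) ≤ a * D.K := mul_le_mul_of_nonneg_right (by omega) (by omega)
      nlinarith
  subst hab
  have h2 : D.dig i.2 = D.dig j.2 := by
    have : (D.dig i.2 : ℤ) = D.dig j.2 := by linarith
    exact_mod_cast this
  have h3 : D.zl i.1 = D.zl j.1 := by rw [ha, hb]
  exact Prod.ext (D.zl_inj h3) (D.dig_inj h2)

lemma zz_abs (i : Q × S) : |D.zz i| ≤ ((D.Qb : ℤ) + 1) * D.K := by
  have h1 := abs_le.1 (D.zl_abs i.1)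
  have di : (D.dig i.2 : ℤ) < D.K := by exact_mod_cast D.hdig i.2
  have di0 : (0 : ℤ) ≤ D.dig i.2 := by positivity
  unfold zz
  rw [abs_le]
  constructor <;> nlinarith

lemma zz_nonH {i : Q × S} (h : ¬ D.H i.1) : D.zz i ≤ -1 := by
  have h1 := D.zl_nonH h
  have di : (D.dig i.2 : ℤ) < D.K := by exact_mod_cast D.hdig i.2
  unfold zz
  omega

lemma sep_of_ne_int {a b : ℤ} (h : a ≠ b) :
    ((a : ℚ) + 1 ≤ (b : ℚ)) ∨ ((b : ℚ) + 1 ≤ (a : ℚ)) := by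
  rcases lt_or_gt_of_ne h with h | h
  · left; exact_mod_cast h
  · right; exact_mod_cast h

lemma bound_W_of_int {a : ℤ} {m : ℤ} (h : |a| ≤ m) (hm : (m : ℝ) + 1 ≤ D.W) :
    -D.W ≤ ((a : ℚ) : ℝ) - ((1 : ℚ) : ℝ) ∧ ((a : ℚ) : ℝ) + ((1 : ℚ) : ℝ) ≤ D.W := by
  obtain ⟨h1, h2⟩ := abs_le.1 h
  have h1' : -(m : ℝ) ≤ a := by exact_mod_cast h1
  have h2' : (a : ℝ) ≤ m := by exact_mod_cast h2
  push_cast
  constructor <;> linarith

lemma Qb_K_bound : (((D.Qb : ℤ) + 1) * (D.K : ℤ) : ℤ) + (1 : ℝ) ≤ D.W := by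
  unfold W
  rw [U_cast]
  push_cast
  have h0 : (0 : ℝ) ≤ (D.Qb : ℝ) * D.K := by positivity
  have h1 : (0 : ℝ) ≤ (D.K : ℝ) := by positivity
  nlinarith

lemma Qb_K_bound' : (((D.Qb : ℤ) * (D.K : ℤ) : ℤ) : ℝ) + (1 : ℝ) ≤ D.W := by
  have := D.Qb_K_bound
  push_cast at this ⊢
  have h1 : (0 : ℝ) ≤ (D.K : ℝ) := by positivity
  nlinarith

/-! ### Values of the functions -/

lemma cyl_sep (i j : Fin D.K) (hij : i ≠ j) :
    (((i : ℕ) : ℚ) + D.V) / D.Bq + D.ηA ≤ ((j : ℕ) : ℚ) / D.Bq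
    ∨ (((j : ℕ) : ℚ) + D.V) / D.Bq + D.ηA ≤ ((i : ℕ) : ℚ) / D.Bq := by
  have hBp := D.Bq_pos
  have hK1 : (1 : ℚ) ≤ D.K := by exact_mod_cast D.hK
  have key : ∀ a b : Fin D.K, (a : ℕ) < b → (((a : ℕ) : ℚ) + D.V) / D.Bq + D.ηA ≤ ((b : ℕ) : ℚ) / D.Bq := by
    intro a b hab
    have h1 : ((a : ℕ) : ℚ) + 1 ≤ (b : ℕ) := by exact_mod_cast hab
    have h2 : D.ηA = (1 - D.V) / D.Bq := by
      unfold ηA V Bq
      field_simp
      ring
    rw [h2, ← add_div]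
    apply div_le_div_of_nonneg_right _ hBp.le
    linarith
  rcases lt_or_gt_of_ne (fun h => hij (Fin.ext h) : (i : ℕ) ≠ j) with h | h
  · left; exact key i j h
  · right; exact key j i h

lemma cyl_lr (r : Fin D.K) : ((r : ℕ) : ℚ) / D.Bq ≤ (((r : ℕ) : ℚ) + D.V) / D.Bq :=
  div_le_div_of_nonneg_right (by linarith [D.V_q_nonneg]) D.Bq_pos.le

/-- Evaluation of a cylinder function at a point `(r + ξ) / B`. -/
lemma cyl_eval (a b : Fin D.K → ℚ) (r : Fin D.K) {ξ : ℝ} (h0 : 0 ≤ ξ) (h1 : ξ ≤ D.V) :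
    D.cyl a b (((r : ℕ) + ξ) / ((D.K : ℝ) + 1)) = (a r : ℝ) * (((r : ℕ) + ξ) / ((D.K : ℝ) + 1)) + (b r : ℝ) := by
  unfold cyl
  refine pw_eval D.ηA_pos D.cyl_lr D.cyl_sep ?_ ?_
  · push_cast [Bq]
    apply div_le_div_of_nonneg_right (by linarith) (by positivity)
  · push_cast [Bq]
    apply div_le_div_of_nonneg_right (by push_cast at h1; linarith) (by positivity)

lemma cyl_effSm (a b : Fin D.K → ℚ) : EffSm (D.cyl a b) := pw_effSm D.ηA_pos

lemma W_ge_cyl : (2 : ℝ) ≤ D.W := by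
  unfold W
  rw [U_cast]
  have h0 : (0 : ℝ) ≤ (D.Qb : ℝ) * D.K := by positivity
  have h1 : (0 : ℝ) ≤ (D.K : ℝ) := by positivity
  have h2 : (0 : ℝ) ≤ (D.Qb : ℝ) := by positivity
  nlinarith

lemma cyl_zero (a b : Fin D.K → ℚ) (u : ℝ) (hu : D.W ≤ |u|) : D.cyl a b u = 0 := by
  unfold cyl
  refine pw_zero D.ηA_pos D.cyl_lr (fun r => ?_) hu
  have hr : ((r : ℕ) : ℝ) + 1 ≤ D.K := by
    have := r.2
    exact_mod_cast this
  have hr0 : (0 : ℝ) ≤ ((r : ℕ) : ℝ) := by positivity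
  have hK := D.K_pos
  have hη := D.ηA_le_one
  have hV := D.V_le_one
  have hV0 := D.V_nonneg
  have hW := D.W_ge_cyl
  constructor
  · push_cast [Bq]
    have : (0 : ℝ) ≤ ((r : ℕ) : ℝ) / ((D.K : ℝ) + 1) := by positivity
    linarith
  · push_cast [Bq]
    have : (((r : ℕ) : ℝ) + (D.V : ℝ)) / ((D.K : ℝ) + 1) ≤ 1 := by
      rw [div_le_one (by positivity)]
      linarith
    linarith

/-! Values of `F2`. -/

lemma F2_sep (i j : Fin D.K) (hij : i ≠ j) :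
    D.E1 * ((i : ℕ) : ℚ) + D.V + 1 ≤ D.E1 * ((j : ℕ) : ℚ) - ((D.K : ℚ) - 1)
    ∨ D.E1 * ((j : ℕ) : ℚ) + D.V + 1 ≤ D.E1 * ((i : ℕ) : ℚ) - ((D.K : ℚ) - 1) := by
  have hK1 : (1 : ℚ) ≤ D.K := by exact_mod_cast D.hK
  have hV := D.V_q_le_one
  have key : ∀ a b : Fin D.K, (a : ℕ) < b →
      D.E1 * ((a : ℕ) : ℚ) + D.V + 1 ≤ D.E1 * ((b : ℕ) : ℚ) - ((D.K : ℚ) - 1) := by
    intro a b hab
    have h1 : ((a : ℕ) : ℚ) + 1 ≤ (b : ℕ) := by exact_mod_cast hab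
    have hE : (0 : ℚ) ≤ D.E1 := by unfold E1; linarith
    have : D.E1 * (((a : ℕ) : ℚ) + 1) ≤ D.E1 * ((b : ℕ) : ℚ) := mul_le_mul_of_nonneg_left h1 hE
    have hE2 : D.E1 = (D.K : ℚ) + 2 := rfl
    nlinarith
  rcases lt_or_gt_of_ne (fun h => hij (Fin.ext h) : (i : ℕ) ≠ j) with h | h
  · left; exact key i j h
  · right; exact key j i h

lemma F2_lr (r : Fin D.K) : D.E1 * ((r : ℕ) : ℚ) - ((D.K : ℚ) - 1) ≤ D.E1 * ((r : ℕ) : ℚ) + D.V := by
  have hK1 : (1 : ℚ) ≤ D.K := by exact_mod_cast D.hK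
  have := D.V_q_nonneg
  linarith

lemma F2_eval (r : Fin D.K) {u : ℝ} (h0 : (D.K + 2) * (r : ℕ) - ((D.K : ℝ) - 1) ≤ u)
    (h1 : u ≤ (D.K + 2) * (r : ℕ) + D.V) :
    D.F2 u = -(1 / ((D.K : ℝ) + 1)) * u
      + ((D.K + 2) * (r : ℕ) / ((D.K : ℝ) + 1) + 3 * (r : ℕ) - (r : ℕ) / ((D.K : ℝ) + 1)) := by
  unfold F2
  rw [pw_eval (j := r) one_pos D.F2_lr D.F2_sep]
  · push_cast [Bq, E1]
    ring
  · push_cast [E1]; linarith
  · push_cast [E1]; linarith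

lemma F2_effSm : EffSm D.F2 := pw_effSm one_pos

lemma F2_zero (u : ℝ) (hu : D.W ≤ |u|) : D.F2 u = 0 := by
  unfold F2
  refine pw_zero one_pos D.F2_lr (fun r => ?_) hu
  have hr : ((r : ℕ) : ℝ) + 1 ≤ D.K := by
    have := r.2
    exact_mod_cast this
  have hr0 : (0 : ℝ) ≤ ((r : ℕ) : ℝ) := by positivity
  have hK := D.K_pos
  have hV := D.V_le_one
  unfold W
  rw [U_cast]
  have h0 : (0 : ℝ) ≤ (D.Qb : ℝ) * D.K := by positivity
  have h2 : (0 : ℝ) ≤ (D.Qb : ℝ) := by positivity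
  push_cast [E1]
  constructor <;> nlinarith

/-! Values of `F3`. -/

lemma F3_sep (i j : Fin D.K) (hij : i ≠ j) :
    3 * ((i : ℕ) : ℚ) + D.V + 1 ≤ 3 * ((j : ℕ) : ℚ) - D.V / D.Bq
    ∨ 3 * ((j : ℕ) : ℚ) + D.V + 1 ≤ 3 * ((i : ℕ) : ℚ) - D.V / D.Bq := by
  have hK1 : (1 : ℚ) ≤ D.K := by exact_mod_cast D.hK
  have hV := D.V_q_le_one
  have hV0 := D.V_q_nonneg
  have hB : D.V / D.Bq ≤ 1 := by
    rw [div_le_one D.Bq_pos]; unfold Bq; linarith
  have key : ∀ a b : Fin D.K, (a : ℕ) < b →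
      3 * ((a : ℕ) : ℚ) + D.V + 1 ≤ 3 * ((b : ℕ) : ℚ) - D.V / D.Bq := by
    intro a b hab
    have h1 : ((a : ℕ) : ℚ) + 1 ≤ (b : ℕ) := by exact_mod_cast hab
    linarith
  rcases lt_or_gt_of_ne (fun h => hij (Fin.ext h) : (i : ℕ) ≠ j) with h | h
  · left; exact key i j h
  · right; exact key j i h

lemma F3_lr (r : Fin D.K) : 3 * ((r : ℕ) : ℚ) - D.V / D.Bq ≤ 3 * ((r : ℕ) : ℚ) + D.V := by
  have h1 := D.V_q_nonneg
  have h2 : 0 ≤ D.V / D.Bq := div_nonneg h1 D.Bq_pos.le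
  linarith

lemma F3_eval (r : Fin D.K) {u : ℝ} (h0 : 3 * (r : ℕ) - (D.V : ℝ) / ((D.K : ℝ) + 1) ≤ u)
    (h1 : u ≤ 3 * (r : ℕ) + D.V) :
    D.F3 u = (D.K : ℝ) * u
      + (-(3 * (D.K : ℝ) * (r : ℕ)) + (r : ℕ) / ((D.K : ℝ) + 1) - (D.K + 2) * (r : ℕ)) := by
  unfold F3
  rw [pw_eval (j := r) one_pos D.F3_lr D.F3_sep]
  · push_cast [Bq, E1]
    ring
  · push_cast [Bq]; linarith
  · push_cast; linarith

lemma F3_effSm : EffSm D.F3 := pw_effSm one_pos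

lemma F3_zero (u : ℝ) (hu : D.W ≤ |u|) : D.F3 u = 0 := by
  unfold F3
  refine pw_zero one_pos D.F3_lr (fun r => ?_) hu
  have hr : ((r : ℕ) : ℝ) + 1 ≤ D.K := by
    have := r.2
    exact_mod_cast this
  have hr0 : (0 : ℝ) ≤ ((r : ℕ) : ℝ) := by positivity
  have hK := D.K_pos
  have hV := D.V_le_one
  have hV0 := D.V_nonneg
  have hB : (D.V : ℝ) / ((D.K : ℝ) + 1) ≤ 1 := by
    rw [div_le_one (by positivity)]; linarith
  unfold W
  rw [U_cast]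
  have h0 : (0 : ℝ) ≤ (D.Qb : ℝ) * D.K := by positivity
  have h2 : (0 : ℝ) ≤ (D.Qb : ℝ) := by positivity
  push_cast [Bq]
  constructor <;> nlinarith

/-! Values of the functions of `z`. -/

lemma zpt_eval (val : Q × S → ℚ) (i : Q × S) :
    D.zpt val ((D.zz i : ℤ) : ℝ) = (val i : ℝ) := by
  unfold zpt
  rw [pw_eval (j := i) one_pos (fun _ => le_rfl)]
  · simp
  · intro a b hab
    exact sep_of_ne_int (fun h => hab (D.zz_inj h))
  · push_cast; exact le_rfl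
  · push_cast; exact le_rfl

lemma zpt_effSm (val : Q × S → ℚ) : EffSm (D.zpt val) := pw_effSm one_pos

lemma zpt_zero (val : Q × S → ℚ) (u : ℝ) (hu : D.W ≤ |u|) : D.zpt val u = 0 := by
  unfold zpt
  refine pw_zero one_pos (fun _ => le_rfl) (fun i => ?_) hu
  exact D.bound_W_of_int (D.zz_abs i) (by exact_mod_cast D.Qb_K_bound)

lemma qpt_eval (val : Q → ℚ) (q : Q) :
    D.qpt val ((D.zl q : ℤ) : ℝ) = (val q : ℝ) := by
  unfold qpt
  rw [pw_eval (j := q) one_pos (fun _ => le_rfl)]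
  · simp
  · intro a b hab
    exact sep_of_ne_int (fun h => hab (D.zl_inj h))
  · push_cast; exact le_rfl
  · push_cast; exact le_rfl

lemma qpt_effSm (val : Q → ℚ) : EffSm (D.qpt val) := pw_effSm one_pos

lemma qpt_zero (val : Q → ℚ) (u : ℝ) (hu : D.W ≤ |u|) : D.qpt val u = 0 := by
  unfold qpt
  refine pw_zero one_pos (fun _ => le_rfl) (fun q => ?_) hu
  exact D.bound_W_of_int (D.zl_abs q) (by exact_mod_cast D.Qb_K_bound')

lemma park_lb (i : Q × S) : (2 : ℚ) ≤ D.park i := by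
  unfold park
  have : (0 : ℚ) ≤ ((D.idx i.1 * D.K + D.dig i.2 : ℕ) : ℚ) := by positivity
  linarith

lemma park_ub (i : Q × S) : ((D.park i : ℚ) : ℝ) ≤ 2 * (D.Qb * D.K) := by
  unfold park
  have h1 : D.idx i.1 * D.K + D.dig i.2 + 1 ≤ D.Qb * D.K := by
    have h2 := D.hQb i.1
    have h3 := D.hdig i.2
    calc D.idx i.1 * D.K + D.dig i.2 + 1 ≤ D.idx i.1 * D.K + D.K := by omega
      _ = (D.idx i.1 + 1) * D.K := by ring
      _ ≤ D.Qb * D.K := Nat.mul_le_mul_right _ h2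
  have h4 : ((D.idx i.1 * D.K + D.dig i.2 + 1 : ℕ) : ℝ) ≤ ((D.Qb * D.K : ℕ) : ℝ) := by exact_mod_cast h1
  push_cast at h4 ⊢
  linarith

lemma park_inj {i j : Q × S} (h : D.park i = D.park j) : i = j := by
  have h1 : ((D.idx i.1 * D.K + D.dig i.2 : ℕ) : ℚ) = ((D.idx j.1 * D.K + D.dig j.2 : ℕ) : ℚ) := by
    unfold park at h; linarith
  have h2 : D.idx i.1 * D.K + D.dig i.2 = D.idx j.1 * D.K + D.dig j.2 := by exact_mod_cast h1
  have hK := D.hK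
  have di := D.hdig i.2
  have dj := D.hdig j.2
  have hab : D.idx i.1 = D.idx j.1 := by
    by_contra hne
    rcases lt_or_gt_of_ne hne with hlt | hlt
    · have : (D.idx i.1 + 1) * D.K ≤ D.idx j.1 * D.K := Nat.mul_le_mul_right _ hlt
      nlinarith
    · have : (D.idx j.1 + 1) * D.K ≤ D.idx i.1 * D.K := Nat.mul_le_mul_right _ hlt
      nlinarith
  rw [hab] at h2
  have h3 : D.dig i.2 = D.dig j.2 := by omega
  exact Prod.ext (D.idx_inj hab) (D.dig_inj h3)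

lemma park_sep (i j : Q × S) (hij : i ≠ j) :
    D.park i + 1 + 1 ≤ D.park j ∨ D.park j + 1 + 1 ≤ D.park i := by
  have hne : D.idx i.1 * D.K + D.dig i.2 ≠ D.idx j.1 * D.K + D.dig j.2 := by
    intro h
    apply hij
    apply D.park_inj
    unfold park
    rw [h]
  unfold park
  rcases lt_or_gt_of_ne hne with h | h
  · left
    have h' : ((D.idx i.1 * D.K + D.dig i.2 : ℕ) : ℚ) + 1 ≤ ((D.idx j.1 * D.K + D.dig j.2 : ℕ) : ℚ) := by
      exact_mod_cast h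
    linarith
  · right
    have h' : ((D.idx j.1 * D.K + D.dig j.2 : ℕ) : ℚ) + 1 ≤ ((D.idx i.1 * D.K + D.dig i.2 : ℕ) : ℚ) := by
      exact_mod_cast h
    linarith

lemma g_eval (i : Q × S) {u : ℝ} (h0 : ((D.park i : ℚ) : ℝ) ≤ u) (h1 : u ≤ (D.park i : ℝ) + 1) :
    D.g u = ((D.zz (D.π i) : ℤ) : ℝ) - ((D.zz i : ℤ) : ℝ) := by
  unfold g
  rw [pw_eval (j := i) one_pos (fun _ => by linarith) D.park_sep]
  · simp
  · exact h0
  · push_cast; exact h1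

lemma g_effSm : EffSm D.g := pw_effSm one_pos

lemma g_zero (u : ℝ) (hu : D.W ≤ |u|) : D.g u = 0 := by
  unfold g
  refine pw_zero one_pos (fun _ => by linarith) (fun i => ?_) hu
  have h1 := D.park_ub i
  have h2 : (2 : ℝ) ≤ D.park i := by exact_mod_cast D.park_lb i
  have hK := D.K_pos
  unfold W
  rw [U_cast]
  have h0 : (0 : ℝ) ≤ (D.Qb : ℝ) * D.K := by positivity
  have h3 : (0 : ℝ) ≤ (D.K : ℝ) := by positivity
  push_cast
  constructor <;> nlinarith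

end PD

end Vale.Agent.P113
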