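import Vale.Agent.P113.Phys1

/-!
# The thirteen shears of one machine step: the chain
-/

set_option linter.unusedSectionVars false

namespace Vale.Agent.P113

namespace PD

variable {Q S : Type} [Fintype Q] [DecidableEq Q] [Fintype S] [DecidableEq S] (D : PD Q S)

/-! ### Good shears -/

lemma A_good : EffSm D.A ∧ ∀ u, D.W ≤ |u| → D.A u = 0 := ⟨D.cyl_effSm _ _, D.cyl_zero _ _⟩
lemma F1_good : EffSm D.F1 ∧ ∀ u, D.W ≤ |u| → D.F1 u = 0 := ⟨D.cyl_effSm _ _, D.cyl_zero _ _⟩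
lemma F4_good : EffSm D.F4 ∧ ∀ u, D.W ≤ |u| → D.F4 u = 0 := ⟨D.cyl_effSm _ _, D.cyl_zero _ _⟩
lemma b1_good : EffSm D.b1 ∧ ∀ u, D.W ≤ |u| → D.b1 u = 0 := ⟨D.zpt_effSm _, D.zpt_zero _⟩
lemma b2_good : EffSm D.b2 ∧ ∀ u, D.W ≤ |u| → D.b2 u = 0 := ⟨D.zpt_effSm _, D.zpt_zero _⟩
lemma zetaR_good : EffSm D.zetaR ∧ ∀ u, D.W ≤ |u| → D.zetaR u = 0 := ⟨D.qpt_effSm _, D.qpt_zero _⟩
lemma zetaL_good : EffSm D.zetaL ∧ ∀ u, D.W ≤ |u| → D.zetaL u = 0 := ⟨D.qpt_effSm _, D.qpt_zero _⟩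

theorem shears_good : ∀ j, (D.shears j).Good := by
  intro j
  have gT1R := D.good_T1 D.zetaR_good.1 D.zetaR_good.2
  have gT1L := D.good_T1 D.zetaL_good.1 D.zetaL_good.2
  fin_cases j
  · exact zS_good (D.good_TL D.A_good.1 D.A_good.2) goodFac_one
  · exact xS_good goodFac_one (D.good_TL D.b1_good.1 D.b1_good.2)
  · exact zS_good (D.good_TL D.g_effSm D.g_zero) goodFac_one
  · exact xS_good goodFac_one (D.good_TL D.b2_good.1 D.b2_good.2)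
  · exact zS_good (D.good_TN D.A_good.1 D.A_good.2) goodFac_one
  · exact yS_good (D.good_TL D.F1_good.1 D.F1_good.2) gT1R
  · exact xS_good (D.good_TL D.F2_effSm D.F2_zero) gT1R
  · exact yS_good (D.good_TL D.F3_effSm D.F3_zero) gT1R
  · exact xS_good (D.good_TL D.F4_good.1 D.F4_good.2) gT1R
  · exact xS_good (D.good_TN D.F4_good.1 D.F4_good.2) gT1L
  · exact yS_good (D.good_TN D.F3_effSm D.F3_zero) gT1L
  · exact xS_good (D.good_TN D.F2_effSm D.F2_zero) gT1L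
  · exact yS_good (D.good_TN D.F1_good.1 D.F1_good.2) gT1L

/-! ### Values at the hyperbolic stages -/

section hyp

variable (r : Fin D.K) {ξ η : ℝ}

lemma A_val (h0 : 0 ≤ ξ) (h1 : ξ ≤ D.V) :
    D.A (((r : ℕ) + ξ) / ((D.K : ℝ) + 1)) = (r : ℕ) := by
  unfold A
  rw [D.cyl_eval _ _ r h0 h1]
  simp

lemma F1_val (h0 : 0 ≤ ξ) (h1 : ξ ≤ D.V) :
    D.F1 (((r : ℕ) + ξ) / ((D.K : ℝ) + 1)) = -(D.K : ℝ) * ξ + ((D.K : ℝ) + 2) * (r : ℕ) := by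
  unfold F1
  rw [D.cyl_eval _ _ r h0 h1]
  have hb : (D.K : ℝ) + 1 ≠ 0 := by positivity
  push_cast [Bq, E1]
  field_simp
  ring

lemma F4_val (h0 : 0 ≤ ξ) (h1 : ξ ≤ D.V) :
    D.F4 (((r : ℕ) + ξ) / ((D.K : ℝ) + 1)) = ξ / ((D.K : ℝ) + 1) - 3 * (r : ℕ) := by
  unfold F4
  rw [D.cyl_eval _ _ r h0 h1]
  have hb : (D.K : ℝ) + 1 ≠ 0 := by positivity
  push_cast [Bq]
  field_simp
  ring

end hyp

/-- The four equations of the hyperbolic block. -/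
lemma hyp_eqs (r : Fin D.K) {ξ η : ℝ} (hξ0 : 0 ≤ ξ) (hξ1 : ξ ≤ D.V) (hη0 : 0 ≤ η) (hη1 : η ≤ D.V) :
    η + D.F1 (((r : ℕ) + ξ) / ((D.K : ℝ) + 1)) = η - (D.K : ℝ) * ξ + ((D.K : ℝ) + 2) * (r : ℕ) ∧
    ((r : ℕ) + ξ) / ((D.K : ℝ) + 1) + D.F2 (η - (D.K : ℝ) * ξ + ((D.K : ℝ) + 2) * (r : ℕ))
      = ξ - η / ((D.K : ℝ) + 1) + 3 * (r : ℕ) ∧
    (η - (D.K : ℝ) * ξ + ((D.K : ℝ) + 2) * (r : ℕ)) + D.F3 (ξ - η / ((D.K : ℝ) + 1) + 3 * (r : ℕ))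
      = ((r : ℕ) + η) / ((D.K : ℝ) + 1) ∧
    (ξ - η / ((D.K : ℝ) + 1) + 3 * (r : ℕ)) + D.F4 (((r : ℕ) + η) / ((D.K : ℝ) + 1)) = ξ := by
  have hK := D.K_pos
  have hb : (D.K : ℝ) + 1 ≠ 0 := by positivity
  have hbp : (0 : ℝ) < (D.K : ℝ) + 1 := by positivity
  have hKV := D.K_mul_V
  refine ⟨?_, ?_, ?_, ?_⟩
  · rw [D.F1_val r hξ0 hξ1]; ring
  · rw [D.F2_eval r]
    · field_simp
      ring
    · have : (D.K : ℝ) * ξ ≤ (D.K : ℝ) * D.V := mul_le_mul_of_nonneg_left hξ1 (by positivity)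
      nlinarith
    · have : 0 ≤ (D.K : ℝ) * ξ := by positivity
      nlinarith
  · rw [D.F3_eval r]
    · field_simp
      ring
    · have h : η / ((D.K : ℝ) + 1) ≤ (D.V : ℝ) / ((D.K : ℝ) + 1) :=
        div_le_div_of_nonneg_right hη1 hbp.le
      linarith
    · have h : 0 ≤ η / ((D.K : ℝ) + 1) := by positivity
      linarith
  · rw [D.F4_val r hη0 hη1]; ring

/-! ### Shears at the tape scale -/

lemma map_zL {F : ℝ → ℝ} {x y z : ℝ} (hx : |x| ≤ D.W) :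
    (zS (D.TL F) (fun _ => 1)).map (tpt D.ell x y z) = tpt D.ell x y (z + F x) := by
  apply zS_map
  rw [D.TL_apply F hx, mul_one]

lemma map_zN {F : ℝ → ℝ} {x y z : ℝ} (hx : |x| ≤ D.W) :
    (zS (D.TN F) (fun _ => 1)).map (tpt D.ell x y z) = tpt D.ell x y (z + - F x) := by
  apply zS_map
  rw [D.TN_apply F hx, mul_one]

lemma map_xz {F : ℝ → ℝ} {x y z : ℝ} (hz : |z| ≤ D.W) :
    (xS (fun _ => 1) (D.TL F)).map (tpt D.ell x y z) = tpt D.ell (x + F z) y z := by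
  apply xS_map
  rw [D.TL_apply F hz, one_mul]

lemma map_xL {F C : ℝ → ℝ} {x y z : ℝ} (hy : |y| ≤ D.W) (hz : |z| ≤ D.W) :
    (xS (D.TL F) (D.T1 C)).map (tpt D.ell x y z) = tpt D.ell (x + F y * C z) y z := by
  apply xS_map
  rw [D.TL_apply F hy, D.T1_apply C hz]; ring

lemma map_xN {F C : ℝ → ℝ} {x y z : ℝ} (hy : |y| ≤ D.W) (hz : |z| ≤ D.W) :
    (xS (D.TN F) (D.T1 C)).map (tpt D.ell x y z) = tpt D.ell (x + - F y * C z) y z := by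
  apply xS_map
  rw [D.TN_apply F hy, D.T1_apply C hz]; ring

lemma map_yL {F C : ℝ → ℝ} {x y z : ℝ} (hx : |x| ≤ D.W) (hz : |z| ≤ D.W) :
    (yS (D.TL F) (D.T1 C)).map (tpt D.ell x y z) = tpt D.ell x (y + F x * C z) z := by
  apply yS_map
  rw [D.TL_apply F hx, D.T1_apply C hz]; ring

lemma map_yN {F C : ℝ → ℝ} {x y z : ℝ} (hx : |x| ≤ D.W) (hz : |z| ≤ D.W) :
    (yS (D.TN F) (D.T1 C)).map (tpt D.ell x y z) = tpt D.ell x (y + - F x * C z) z := by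
  apply yS_map
  rw [D.TN_apply F hx, D.T1_apply C hz]; ring

/-! ### Bounds in tape units -/

lemma W_bounds :
    (D.K : ℝ) * (D.K : ℝ) + 2 * (D.K : ℝ) + 1 ≤ D.W ∧ 2 * ((D.Qb : ℝ) * D.K) + 1 ≤ D.W ∧ 3 * (D.K : ℝ) + 1 ≤ D.W
      ∧ ((D.Qb : ℝ) + 1) * D.K ≤ D.W := by
  unfold W
  rw [U_cast]
  have h0 : (0 : ℝ) ≤ (D.Qb : ℝ) * D.K := by positivity
  have h1 : (0 : ℝ) ≤ (D.K : ℝ) := by positivity
  have h2 : (0 : ℝ) ≤ (D.K : ℝ) * D.K := by positivity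
  refine ⟨?_, ?_, ?_, ?_⟩ <;> nlinarith

lemma abs_zl_le (q : Q) : |((D.zl q : ℤ) : ℝ)| ≤ D.W := by
  have h := D.zl_abs q
  have h' : |((D.zl q : ℤ) : ℝ)| ≤ ((D.Qb : ℤ) : ℝ) * (D.K : ℤ) := by exact_mod_cast h
  have := D.W_bounds.2.2.2
  have h1 : (0 : ℝ) ≤ (D.K : ℝ) := by positivity
  push_cast at h'
  nlinarith

lemma abs_zz_le (i : Q × S) : |((D.zz i : ℤ) : ℝ)| ≤ D.W := by
  have h := D.zz_abs i
  have h' : |((D.zz i : ℤ) : ℝ)| ≤ (((D.Qb : ℤ) + 1) * (D.K : ℤ) : ℤ) := by exact_mod_cast h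
  have := D.W_bounds.2.2.2
  push_cast at h'
  nlinarith

lemma abs_tape_le {ξ : ℝ} (h0 : 0 ≤ ξ) (h1 : ξ ≤ D.V) : |ξ| ≤ D.W := by
  rw [abs_of_nonneg h0]
  have := D.V_le_one
  have := D.W_ge_cyl
  linarith

lemma abs_cylpt_le (r : Fin D.K) {ξ : ℝ} (h0 : 0 ≤ ξ) (h1 : ξ ≤ D.V) :
    |((r : ℕ) + ξ) / ((D.K : ℝ) + 1)| ≤ D.W := by
  have hr : ((r : ℕ) : ℝ) + 1 ≤ D.K := by
    have := r.2
    exact_mod_cast this
  have hV := D.V_le_one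
  have hW := D.W_ge_cyl
  have hr0 : (0 : ℝ) ≤ ((r : ℕ) : ℝ) := by positivity
  rw [abs_of_nonneg (by positivity)]
  have : ((r : ℕ) + ξ) / ((D.K : ℝ) + 1) ≤ 1 := by
    rw [div_le_one (by positivity)]; linarith
  linarith

lemma abs_y1_le (r : Fin D.K) {ξ η : ℝ} (hξ0 : 0 ≤ ξ) (hξ1 : ξ ≤ D.V) (hη0 : 0 ≤ η) (hη1 : η ≤ D.V) :
    |η - (D.K : ℝ) * ξ + ((D.K : ℝ) + 2) * (r : ℕ)| ≤ D.W := by
  have hr : ((r : ℕ) : ℝ) + 1 ≤ D.K := by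
    have := r.2
    exact_mod_cast this
  have hV := D.V_le_one
  have hKV := D.K_mul_V
  have hK := D.K_pos
  have hr0 : (0 : ℝ) ≤ ((r : ℕ) : ℝ) := by positivity
  have hW := D.W_bounds.1
  have h1 : (D.K : ℝ) * ξ ≤ (D.K : ℝ) * D.V := mul_le_mul_of_nonneg_left hξ1 (by positivity)
  have h2 : 0 ≤ (D.K : ℝ) * ξ := by positivity
  have h3 : ((D.K : ℝ) + 2) * (r : ℕ) ≤ ((D.K : ℝ) + 2) * (D.K : ℝ) :=
    mul_le_mul_of_nonneg_left (by linarith) (by positivity)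
  have h4 : 0 ≤ ((D.K : ℝ) + 2) * (r : ℕ) := by positivity
  rw [abs_le]
  constructor <;> nlinarith

lemma abs_x2_le (r : Fin D.K) {ξ η : ℝ} (hξ0 : 0 ≤ ξ) (hξ1 : ξ ≤ D.V) (hη0 : 0 ≤ η) (hη1 : η ≤ D.V) :
    |ξ - η / ((D.K : ℝ) + 1) + 3 * (r : ℕ)| ≤ D.W := by
  have hr : ((r : ℕ) : ℝ) + 1 ≤ D.K := by
    have := r.2
    exact_mod_cast this
  have hV := D.V_le_one
  have hK := D.K_pos
  have hr0 : (0 : ℝ) ≤ ((r : ℕ) : ℝ) := by positivity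
  have hW := D.W_bounds.2.2.1
  have h0 : 0 ≤ η / ((D.K : ℝ) + 1) := by positivity
  have h1 : η / ((D.K : ℝ) + 1) ≤ 1 := by
    rw [div_le_one (by positivity)]; linarith
  rw [abs_le]
  constructor <;> linarith

/-! ### Values of `zetaR`, `zetaL` at heights -/

lemma zetaR_val (q : Q) : D.zetaR ((D.zl q : ℤ) : ℝ) = if D.mv q = some true then 1 else 0 := by
  unfold zetaR
  rw [D.qpt_eval]
  split_ifs <;> simp

lemma zetaL_val (q : Q) : D.zetaL ((D.zl q : ℤ) : ℝ) = if D.mv q = some false then 1 else 0 := by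
  unfold zetaL
  rw [D.qpt_eval]
  split_ifs <;> simp

end PD

end Vale.Agent.P113
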