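import Vale.Agent.P113.Phys2

/-!
# The thirteen shears of one machine step: the step theorem
-/

set_option linter.unusedSectionVars false

namespace Vale.Agent.P113

namespace PD

variable {Q S : Type} [Fintype Q] [DecidableEq Q] [Fintype S] [DecidableEq S] (D : PD Q S)

/-- The code of a configuration. -/
noncomputable def enc (c : RCfg Q S) : R3 :=
  encCfg (D.ell : ℝ) (D.K + 1) D.K D.H D.idx D.dig c

/-- The digits of the tape of a configuration. -/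
def dd (c : RCfg Q S) : ℤ → ℕ := fun i => D.dig (c.tape i)

/-- The right part of the tape. -/
noncomputable def eR (c : RCfg Q S) (p : ℤ) : ℝ := encR (D.K + 1) (D.dd c) p
/-- The left part of the tape. -/
noncomputable def eL (c : RCfg Q S) (p : ℤ) : ℝ := encL (D.K + 1) (D.dd c) p

lemma enc_eq (c : RCfg Q S) :
    D.enc c = tpt D.ell (D.eR c c.pos) (D.eL c c.pos) ((D.zl c.q : ℤ) : ℝ) := rfl

lemma dd_lt (c : RCfg Q S) (i : ℤ) : D.dd c i < D.K := D.hdig _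

lemma dd_lt' (c : RCfg Q S) (i : ℤ) : D.dd c i < D.K + 1 := (D.dd_lt c i).trans (Nat.lt_succ_self _)

lemma two_le_B : 2 ≤ D.K + 1 := by have := D.hK; omega

lemma eR_succ (c : RCfg Q S) (p : ℤ) :
    D.eR c p = (((D.dd c p : ℕ) : ℝ) + D.eR c (p + 1)) / ((D.K : ℝ) + 1) := by
  have := encR_succ (B := D.K + 1) (d := D.dd c) D.two_le_B (D.dd_lt' c) p
  unfold eR
  rw [this]
  push_cast
  rfl

lemma eL_succ (c : RCfg Q S) (p : ℤ) :
    D.eL c (p + 1) = (((D.dd c p : ℕ) : ℝ) + D.eL c p) / ((D.K : ℝ) + 1) := by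
  have := encL_succ (B := D.K + 1) (d := D.dd c) D.two_le_B (D.dd_lt' c) p
  unfold eL
  rw [this]
  push_cast
  rfl

lemma eR_bd (c : RCfg Q S) (p : ℤ) : 0 ≤ D.eR c p ∧ D.eR c p ≤ D.V := by
  have := enc_bound_aux D.hK (fun k : ℕ => D.dd c (p + k)) (fun k => D.dd_lt c _)
  rw [V_cast]
  exact this

lemma eL_bd (c : RCfg Q S) (p : ℤ) : 0 ≤ D.eL c p ∧ D.eL c p ≤ D.V := by
  have := enc_bound_aux D.hK (fun k : ℕ => D.dd c (p - 1 - k)) (fun k => D.dd_lt c _)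
  rw [V_cast]
  exact this

/-- The digit of a symbol as an element of `Fin K`. -/
def dg (s : S) : Fin D.K := ⟨D.dig s, D.hdig s⟩

lemma dg_val (s : S) : ((D.dg s : ℕ) : ℝ) = (D.dig s : ℝ) := rfl

lemma dd_succ_val (c : RCfg Q S) (p : ℤ) : (D.dd c p : ℝ) = ((D.dg (c.tape p) : ℕ) : ℝ) := rfl

/-! Effect of the step on the digits. -/
section step
variable (c : RCfg Q S)

/-- The symbol pair read. -/
def ii : Q × S := (c.q, c.tape c.pos)
/-- The symbol pair after the table. -/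
def jj : Q × S := D.π (ii c)

lemma rstep_eq : rstep D.π D.mv c
    = ⟨(D.jj c).1, Function.update c.tape c.pos (D.jj c).2, c.pos + mvZ (D.mv (D.jj c).1)⟩ := rfl

/-- The configuration after writing, before moving (with the final position). -/
def cc : RCfg Q S := rstep D.π D.mv c

lemma dd_cc_pos : D.dd (D.cc c) c.pos = D.dig (D.jj c).2 := by
  simp [dd, cc, rstep_eq]

lemma dd_cc_ne {i : ℤ} (h : i ≠ c.pos) : D.dd (D.cc c) i = D.dd c i := by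
  simp [dd, cc, rstep_eq, Function.update_of_ne h]

lemma eR_cc_succ : D.eR (D.cc c) (c.pos + 1) = D.eR c (c.pos + 1) := by
  unfold eR encR
  refine tsum_congr (fun k => ?_)
  rw [D.dd_cc_ne c (by omega)]

lemma eL_cc_pos : D.eL (D.cc c) c.pos = D.eL c c.pos := by
  unfold eL encL
  refine tsum_congr (fun k => ?_)
  rw [D.dd_cc_ne c (by omega)]

lemma eR_cc_pos : D.eR (D.cc c) c.pos
    = ((D.dig (D.jj c).2 : ℝ) + D.eR c (c.pos + 1)) / ((D.K : ℝ) + 1) := by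
  rw [D.eR_succ, D.dd_cc_pos, D.eR_cc_succ]

end step

/-! Computation of the slot points. -/

/-- The slot points of a configuration. -/
noncomputable def sp (c : RCfg Q S) (g : ℕ) : R3 := slotPt D.shears (D.enc c) g

lemma sp_zero (c : RCfg Q S) : D.sp c 0 = D.enc c := rfl

lemma sp_1 (c : RCfg Q S) :
    D.sp c 1 = tpt D.ell (D.eR c c.pos) (D.eL c c.pos) ((D.zz (ii c) : ℤ) : ℝ) := by
  show (zS (D.TL D.A) (fun _ => 1)).map (D.sp c 0) = _
  rw [sp_zero, enc_eq]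
  obtain ⟨h0, h1⟩ := D.eR_bd c (c.pos + 1)
  have hx : D.eR c c.pos = (((D.dg (c.tape c.pos) : ℕ) : ℝ) + D.eR c (c.pos + 1)) / ((D.K : ℝ) + 1) :=
    D.eR_succ c c.pos
  rw [D.map_zL (D.abs_tape_le (D.eR_bd c c.pos).1 (D.eR_bd c c.pos).2), hx, D.A_val _ h0 h1]
  congr 1
  simp only [zz, ii, dg_val]
  push_cast
  rfl

lemma sp_2 (c : RCfg Q S) :
    D.sp c 2 = tpt D.ell (D.eR c c.pos + (D.park (ii c) : ℝ)) (D.eL c c.pos) ((D.zz (ii c) : ℤ) : ℝ) := by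
  show (xS (fun _ => 1) (D.TL D.b1)).map (D.sp c 1) = _
  rw [sp_1, D.map_xz (D.abs_zz_le _)]
  unfold b1
  rw [D.zpt_eval]

lemma abs_x_park (c : RCfg Q S) (i : Q × S) : |D.eR c c.pos + (D.park i : ℝ)| ≤ D.W := by
  obtain ⟨h0, h1⟩ := D.eR_bd c c.pos
  have hV := D.V_le_one
  have h2 := D.park_ub i
  have h3 : (2 : ℝ) ≤ D.park i := by exact_mod_cast D.park_lb i
  have hW := D.W_bounds.2.1
  rw [abs_of_nonneg (by linarith)]
  linarith

lemma sp_3 (c : RCfg Q S) :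
    D.sp c 3 = tpt D.ell (D.eR c c.pos + (D.park (ii c) : ℝ)) (D.eL c c.pos) ((D.zz (D.jj c) : ℤ) : ℝ) := by
  show (zS (D.TL D.g) (fun _ => 1)).map (D.sp c 2) = _
  obtain ⟨h0, h1⟩ := D.eR_bd c c.pos
  have hV := D.V_le_one
  rw [sp_2, D.map_zL (D.abs_x_park c _), D.g_eval (ii c) (by linarith) (by linarith)]
  congr 1
  simp only [jj]
  ring

lemma sp_4 (c : RCfg Q S) :
    D.sp c 4 = tpt D.ell (D.eR (D.cc c) c.pos) (D.eL c c.pos) ((D.zz (D.jj c) : ℤ) : ℝ) := by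
  show (xS (fun _ => 1) (D.TL D.b2)).map (D.sp c 3) = _
  rw [sp_3, D.map_xz (D.abs_zz_le _)]
  unfold b2
  rw [D.zpt_eval, D.eR_cc_pos, D.eR_succ c c.pos]
  congr 1
  have hsymm : D.π.symm (D.jj c) = ii c := by simp [jj]
  rw [hsymm]
  have hb : (D.K : ℝ) + 1 ≠ 0 := by positivity
  push_cast [Bq]
  have hd : (D.dd c c.pos : ℝ) = (D.dig (ii c).2 : ℝ) := rfl
  rw [hd]
  field_simp
  ring

lemma sp_5 (c : RCfg Q S) :
    D.sp c 5 = tpt D.ell (D.eR (D.cc c) c.pos) (D.eL (D.cc c) c.pos) ((D.zl (D.jj c).1 : ℤ) : ℝ) := by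
  show (zS (D.TN D.A) (fun _ => 1)).map (D.sp c 4) = _
  obtain ⟨h0, h1⟩ := D.eR_bd (D.cc c) c.pos
  obtain ⟨h0', h1'⟩ := D.eR_bd c (c.pos + 1)
  rw [sp_4, D.map_zN (D.abs_tape_le h0 h1), D.eL_cc_pos]
  have hx : D.eR (D.cc c) c.pos
      = (((D.dg (D.jj c).2 : ℕ) : ℝ) + D.eR c (c.pos + 1)) / ((D.K : ℝ) + 1) := D.eR_cc_pos c
  rw [hx, D.A_val _ h0' h1']
  congr 1
  simp only [zz, dg_val]
  push_cast
  ring

/-- Shears in directions `0` and `1` do not change the third coordinate. -/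
lemma map_third {T : Shear} (h : T.dir ≠ 2) (p : R3) : T.map p 2 = p 2 := by
  have : unitVec T.dir 2 = 0 := by
    unfold unitVec
    simp [Pi.single_apply, Ne.symm h]
  simp [Shear.map, this]

lemma sp_third_succ (c : RCfg Q S) {g : ℕ} (h5 : 5 ≤ g) (h13 : g < 13) :
    D.sp c (g + 1) 2 = D.sp c g 2 := by
  have hmap : D.sp c (g + 1) = (D.shears (Fin.ofNat 13 g)).map (D.sp c g) := rfl
  rw [hmap]
  apply map_third
  interval_cases g <;>
    first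
    | exact (by decide : (0 : Fin 3) ≠ 2)
    | exact (by decide : (1 : Fin 3) ≠ 2)

/-! ### The moves -/

section moves

variable (c : RCfg Q S)

/-- The shears of slots 6 to 9 when `ζ_R` vanishes. -/
lemma sp_9_of_zetaR_zero (h : D.zetaR ((D.zl (D.jj c).1 : ℤ) : ℝ) = 0) :
    D.sp c 9 = D.sp c 5 := by
  obtain ⟨h0, h1⟩ := D.eR_bd (D.cc c) c.pos
  obtain ⟨h0', h1'⟩ := D.eL_bd (D.cc c) c.pos
  have hx := D.abs_tape_le h0 h1
  have hy := D.abs_tape_le h0' h1'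
  have hz := D.abs_zl_le (D.jj c).1
  have h6 : D.sp c 6 = D.sp c 5 := by
    show (yS (D.TL D.F1) (D.T1 D.zetaR)).map (D.sp c 5) = _
    rw [sp_5, D.map_yL hx hz, h]
    simp
  have h7 : D.sp c 7 = D.sp c 5 := by
    show (xS (D.TL D.F2) (D.T1 D.zetaR)).map (D.sp c 6) = _
    rw [h6, sp_5, D.map_xL hy hz, h]
    simp
  have h8 : D.sp c 8 = D.sp c 5 := by
    show (yS (D.TL D.F3) (D.T1 D.zetaR)).map (D.sp c 7) = _
    rw [h7, sp_5, D.map_yL hx hz, h]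
    simp
  show (xS (D.TL D.F4) (D.T1 D.zetaR)).map (D.sp c 8) = _
  rw [h8, sp_5, D.map_xL hy hz, h]
  simp

/-- The shears of slots 10 to 13 when `ζ_L` vanishes. -/
lemma sp_13_of_zetaL_zero {x y : ℝ} (hx : |x| ≤ D.W) (hy : |y| ≤ D.W)
    (h9 : D.sp c 9 = tpt D.ell x y ((D.zl (D.jj c).1 : ℤ) : ℝ))
    (h : D.zetaL ((D.zl (D.jj c).1 : ℤ) : ℝ) = 0) :
    D.sp c 13 = tpt D.ell x y ((D.zl (D.jj c).1 : ℤ) : ℝ) := by
  have hz := D.abs_zl_le (D.jj c).1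
  have h10 : D.sp c 10 = D.sp c 9 := by
    show (xS (D.TN D.F4) (D.T1 D.zetaL)).map (D.sp c 9) = _
    rw [h9, D.map_xN hy hz, h]
    simp
  have h11 : D.sp c 11 = D.sp c 9 := by
    show (yS (D.TN D.F3) (D.T1 D.zetaL)).map (D.sp c 10) = _
    rw [h10, h9, D.map_yN hx hz, h]
    simp
  have h12 : D.sp c 12 = D.sp c 9 := by
    show (xS (D.TN D.F2) (D.T1 D.zetaL)).map (D.sp c 11) = _
    rw [h11, h9, D.map_xN hy hz, h]
    simp
  show (yS (D.TN D.F1) (D.T1 D.zetaL)).map (D.sp c 12) = _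
  rw [h12, h9, D.map_yN hx hz, h]
  simp

/-- The block moving right. -/
lemma sp_9_right (hR : D.zetaR ((D.zl (D.jj c).1 : ℤ) : ℝ) = 1) :
    D.sp c 9 = tpt D.ell (D.eR c (c.pos + 1))
      (((D.dig (D.jj c).2 : ℝ) + D.eL c c.pos) / ((D.K : ℝ) + 1)) ((D.zl (D.jj c).1 : ℤ) : ℝ) := by
  obtain ⟨h0, h1⟩ := D.eR_bd c (c.pos + 1)
  obtain ⟨h0', h1'⟩ := D.eL_bd c c.pos
  have hz := D.abs_zl_le (D.jj c).1
  set r : Fin D.K := D.dg (D.jj c).2 with hr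
  have hrv : ((r : ℕ) : ℝ) = (D.dig (D.jj c).2 : ℝ) := rfl
  obtain ⟨e1, e2, e3, e4⟩ := D.hyp_eqs r h0 h1 h0' h1'
  have h5 : D.sp c 5 = tpt D.ell (((r : ℕ) + D.eR c (c.pos + 1)) / ((D.K : ℝ) + 1))
      (D.eL c c.pos) ((D.zl (D.jj c).1 : ℤ) : ℝ) := by
    rw [sp_5, D.eR_cc_pos, D.eL_cc_pos, hrv]
  have h6 : D.sp c 6 = tpt D.ell (((r : ℕ) + D.eR c (c.pos + 1)) / ((D.K : ℝ) + 1))
      (D.eL c c.pos - (D.K : ℝ) * D.eR c (c.pos + 1) + ((D.K : ℝ) + 2) * (r : ℕ))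
      ((D.zl (D.jj c).1 : ℤ) : ℝ) := by
    show (yS (D.TL D.F1) (D.T1 D.zetaR)).map (D.sp c 5) = _
    rw [h5, D.map_yL (D.abs_cylpt_le r h0 h1) hz, hR, mul_one, e1]
  have h7 : D.sp c 7 = tpt D.ell (D.eR c (c.pos + 1) - D.eL c c.pos / ((D.K : ℝ) + 1) + 3 * (r : ℕ))
      (D.eL c c.pos - (D.K : ℝ) * D.eR c (c.pos + 1) + ((D.K : ℝ) + 2) * (r : ℕ))
      ((D.zl (D.jj c).1 : ℤ) : ℝ) := by
    show (xS (D.TL D.F2) (D.T1 D.zetaR)).map (D.sp c 6) = _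
    rw [h6, D.map_xL (D.abs_y1_le r h0 h1 h0' h1') hz, hR, mul_one, e2]
  have h8 : D.sp c 8 = tpt D.ell (D.eR c (c.pos + 1) - D.eL c c.pos / ((D.K : ℝ) + 1) + 3 * (r : ℕ))
      (((r : ℕ) + D.eL c c.pos) / ((D.K : ℝ) + 1))
      ((D.zl (D.jj c).1 : ℤ) : ℝ) := by
    show (yS (D.TL D.F3) (D.T1 D.zetaR)).map (D.sp c 7) = _
    rw [h7, D.map_yL (D.abs_x2_le r h0 h1 h0' h1') hz, hR, mul_one, e3]
  show (xS (D.TL D.F4) (D.T1 D.zetaR)).map (D.sp c 8) = _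
  rw [h8, D.map_xL (D.abs_cylpt_le r h0' h1') hz, hR, mul_one, e4, hrv]

/-- The block moving left. -/
lemma sp_13_left (hL : D.zetaL ((D.zl (D.jj c).1 : ℤ) : ℝ) = 1)
    {r : Fin D.K} {ξ η : ℝ} (hξ0 : 0 ≤ ξ) (hξ1 : ξ ≤ D.V) (hη0 : 0 ≤ η) (hη1 : η ≤ D.V)
    (h9 : D.sp c 9 = tpt D.ell ξ (((r : ℕ) + η) / ((D.K : ℝ) + 1)) ((D.zl (D.jj c).1 : ℤ) : ℝ)) :
    D.sp c 13 = tpt D.ell (((r : ℕ) + ξ) / ((D.K : ℝ) + 1)) η ((D.zl (D.jj c).1 : ℤ) : ℝ) := by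
  have hz := D.abs_zl_le (D.jj c).1
  obtain ⟨e1, e2, e3, e4⟩ := D.hyp_eqs r hξ0 hξ1 hη0 hη1
  have h10 : D.sp c 10 = tpt D.ell (ξ - η / ((D.K : ℝ) + 1) + 3 * (r : ℕ))
      (((r : ℕ) + η) / ((D.K : ℝ) + 1)) ((D.zl (D.jj c).1 : ℤ) : ℝ) := by
    show (xS (D.TN D.F4) (D.T1 D.zetaL)).map (D.sp c 9) = _
    rw [h9, D.map_xN (D.abs_cylpt_le r hη0 hη1) hz, hL]
    congr 1
    linarith
  have h11 : D.sp c 11 = tpt D.ell (ξ - η / ((D.K : ℝ) + 1) + 3 * (r : ℕ))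
      (η - (D.K : ℝ) * ξ + ((D.K : ℝ) + 2) * (r : ℕ)) ((D.zl (D.jj c).1 : ℤ) : ℝ) := by
    show (yS (D.TN D.F3) (D.T1 D.zetaL)).map (D.sp c 10) = _
    rw [h10, D.map_yN (D.abs_x2_le r hξ0 hξ1 hη0 hη1) hz, hL]
    congr 1
    linarith
  have h12 : D.sp c 12 = tpt D.ell (((r : ℕ) + ξ) / ((D.K : ℝ) + 1))
      (η - (D.K : ℝ) * ξ + ((D.K : ℝ) + 2) * (r : ℕ)) ((D.zl (D.jj c).1 : ℤ) : ℝ) := by
    show (xS (D.TN D.F2) (D.T1 D.zetaL)).map (D.sp c 11) = _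
    rw [h11, D.map_xN (D.abs_y1_le r hξ0 hξ1 hη0 hη1) hz, hL]
    congr 1
    linarith
  show (yS (D.TN D.F1) (D.T1 D.zetaL)).map (D.sp c 12) = _
  rw [h12, D.map_yN (D.abs_cylpt_le r hξ0 hξ1) hz, hL]
  congr 1
  linarith

end moves

/-- The composition of the thirteen shears maps the code of a configuration to the code of the next
configuration. -/
theorem sp_13 (c : RCfg Q S) : D.sp c 13 = D.enc (rstep D.π D.mv c) := by
  have hval := rfl (a := D.mv (D.jj c).1)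
  have hcc : rstep D.π D.mv c = D.cc c := rfl
  rw [hcc, enc_eq]
  have hq : (D.cc c).q = (D.jj c).1 := rfl
  have hp : (D.cc c).pos = c.pos + mvZ (D.mv (D.jj c).1) := rfl
  rw [hq, hp]
  have hRv := D.zetaR_val (D.jj c).1
  have hLv := D.zetaL_val (D.jj c).1
  cases hm : D.mv (D.jj c).1 with
  | none =>
    rw [hm] at hRv hLv
    simp only [reduceCtorEq, if_false] at hRv hLv
    have h9 := D.sp_9_of_zetaR_zero c hRv
    obtain ⟨h0, h1⟩ := D.eR_bd (D.cc c) c.pos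
    obtain ⟨h0', h1'⟩ := D.eL_bd (D.cc c) c.pos
    have h9' := h9.trans (D.sp_5 c)
    rw [D.sp_13_of_zetaL_zero c (D.abs_tape_le h0 h1) (D.abs_tape_le h0' h1') h9' hLv]
    simp [mvZ]
  | some b =>
    cases b with
    | true =>
      rw [hm] at hRv hLv
      simp only [if_true, reduceCtorEq, if_false, Option.some.injEq, Bool.true_eq_false] at hRv hLv
      have h9 := D.sp_9_right c hRv
      obtain ⟨h0, h1⟩ := D.eR_bd c (c.pos + 1)
      have hy1 : D.eL (D.cc c) (c.pos + 1)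
          = ((D.dig (D.jj c).2 : ℝ) + D.eL c c.pos) / ((D.K : ℝ) + 1) := by
        rw [D.eL_succ, D.dd_cc_pos, D.eL_cc_pos]
      have hy2 := D.eL_bd (D.cc c) (c.pos + 1)
      rw [hy1] at hy2
      rw [D.sp_13_of_zetaL_zero c (D.abs_tape_le h0 h1) (D.abs_tape_le hy2.1 hy2.2) h9 hLv]
      simp only [mvZ]
      rw [hy1, D.eR_cc_succ]
    | false =>
      rw [hm] at hRv hLv
      simp only [if_true, reduceCtorEq, if_false, Option.some.injEq, Bool.false_eq_true] at hRv hLv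
      have h9 := (D.sp_9_of_zetaR_zero c hRv).trans (D.sp_5 c)
      -- the new tape around the head
      set c' := D.cc c with hc'
      have hyL : D.eL c' c.pos = (((D.dg (c'.tape (c.pos - 1)) : ℕ) : ℝ) + D.eL c' (c.pos - 1)) / ((D.K : ℝ) + 1) := by
        have := D.eL_succ c' (c.pos - 1)
        rwa [sub_add_cancel] at this
      have hxR : D.eR c' (c.pos - 1) = (((D.dg (c'.tape (c.pos - 1)) : ℕ) : ℝ) + D.eR c' c.pos) / ((D.K : ℝ) + 1) := by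
        have := D.eR_succ c' (c.pos - 1)
        rwa [sub_add_cancel] at this
      obtain ⟨h0, h1⟩ := D.eR_bd c' c.pos
      obtain ⟨h0', h1'⟩ := D.eL_bd c' (c.pos - 1)
      rw [hyL] at h9
      rw [D.sp_13_left c hLv h0 h1 h0' h1' h9]
      simp only [mvZ]
      rw [show c.pos + -1 = c.pos - 1 by ring, hxR]

/-! ### The third coordinate -/

lemma third_tpt (ℓ x y z : ℝ) : tpt ℓ x y z 2 = 1 / 2 + ℓ * z := rfl

lemma third_neg {z : ℝ} (h1 : z < 0) (h2 : |z| ≤ D.W) :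
    0 < 1 / 2 + (D.ell : ℝ) * z ∧ 1 / 2 + (D.ell : ℝ) * z < 1 / 2 := by
  have hℓ : (0 : ℝ) < D.ell := by exact_mod_cast D.ell_pos
  have h3 := abs_lt.1 (D.abs_ell_mul_lt h2)
  refine ⟨by linarith [h3.1], ?_⟩
  nlinarith

lemma third_pos {z : ℝ} (h1 : 0 < z) (h2 : |z| ≤ D.W) :
    1 / 2 < 1 / 2 + (D.ell : ℝ) * z ∧ 1 / 2 + (D.ell : ℝ) * z < 1 := by
  have hℓ : (0 : ℝ) < D.ell := by exact_mod_cast D.ell_pos
  have h3 := abs_lt.1 (D.abs_ell_mul_lt h2)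
  refine ⟨by nlinarith, by linarith [h3.2]⟩

lemma zl_neg_real {q : Q} (h : ¬ D.H q) : ((D.zl q : ℤ) : ℝ) < 0 := by
  have h1 := D.zl_nonH h
  have h2 := D.K_pos_int
  have : D.zl q < 0 := by omega
  exact_mod_cast this

lemma zl_pos_real {q : Q} (h : D.H q) : 0 < ((D.zl q : ℤ) : ℝ) := by
  have h1 := D.zl_H h
  have h2 := D.K_pos_int
  have : 0 < D.zl q := by omega
  exact_mod_cast this

lemma zz_neg_real {i : Q × S} (h : ¬ D.H i.1) : ((D.zz i : ℤ) : ℝ) < 0 := by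
  have h1 := D.zz_nonH h
  have : D.zz i < 0 := by omega
  exact_mod_cast this

theorem sp_third (c : RCfg Q S) {g : ℕ} (hg : g ≤ 13) (h1 : ¬ D.H c.q)
    (h2 : ¬ D.H (rstep D.π D.mv c).q) : 0 < D.sp c g 2 ∧ D.sp c g 2 < 1 / 2 := by
  have hq : (rstep D.π D.mv c).q = (D.jj c).1 := rfl
  rw [hq] at h2
  have hi : ¬ D.H (ii c).1 := h1
  have h5 : D.sp c 5 2 = 1 / 2 + (D.ell : ℝ) * ((D.zl (D.jj c).1 : ℤ) : ℝ) := by
    rw [sp_5, third_tpt]
  have hfinal : 0 < D.sp c 5 2 ∧ D.sp c 5 2 < 1 / 2 := by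
    rw [h5]
    exact D.third_neg (D.zl_neg_real h2) (D.abs_zl_le _)
  by_cases hg5 : g < 5
  · interval_cases g
    · rw [sp_zero, enc_eq, third_tpt]
      exact D.third_neg (D.zl_neg_real h1) (D.abs_zl_le _)
    · rw [sp_1, third_tpt]
      exact D.third_neg (D.zz_neg_real hi) (D.abs_zz_le _)
    · rw [sp_2, third_tpt]
      exact D.third_neg (D.zz_neg_real hi) (D.abs_zz_le _)
    · rw [sp_3, third_tpt]
      exact D.third_neg (D.zz_neg_real h2) (D.abs_zz_le _)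
    · rw [sp_4, third_tpt]
      exact D.third_neg (D.zz_neg_real h2) (D.abs_zz_le _)
  · push_neg at hg5
    have hstep : ∀ g, 5 ≤ g → g ≤ 13 → D.sp c g 2 = D.sp c 5 2 := by
      intro g hg5 hg13
      induction g, hg5 using Nat.le_induction with
      | base => rfl
      | succ n hn ih =>
        rw [D.sp_third_succ c hn (by omega), ih (by omega)]
    rw [hstep g hg5 hg]
    exact hfinal

end PD

end Vale.Agent.P113
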