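import Vale.Agent.P113.Flow

/-!
# Smooth blocks, piecewise-affine smooth functions, shears at the tape scale
-/

namespace Vale.Agent.P113

open Real (smoothTransition)

/-- A smooth plateau: `1` on `[l, r]`, `0` outside `(l - η, r + η)`. -/
noncomputable def blk (l r η : ℚ) (u : ℝ) : ℝ :=
  smoothTransition ((u - l + η) / η) - smoothTransition ((u - r) / η)

section blk
variable {l r η : ℚ} {u : ℝ}

lemma blk_one (hη : 0 < η) (h₁ : (l : ℝ) ≤ u) (h₂ : u ≤ r) : blk l r η u = 1 := by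
  have hη' : (0 : ℝ) < η := by exact_mod_cast hη
  unfold blk
  rw [smoothTransition.one_of_one_le, smoothTransition.zero_of_nonpos]
  · ring
  · exact div_nonpos_of_nonpos_of_nonneg (by linarith) hη'.le
  · rw [le_div_iff₀ hη']; linarith

lemma blk_zero_left (hη : 0 < η) (hlr : l ≤ r) (h : u ≤ (l : ℝ) - η) : blk l r η u = 0 := by
  have hη' : (0 : ℝ) < η := by exact_mod_cast hη
  have hlr' : (l : ℝ) ≤ r := by exact_mod_cast hlr
  unfold blk
  rw [smoothTransition.zero_of_nonpos, smoothTransition.zero_of_nonpos]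
  · ring
  · exact div_nonpos_of_nonpos_of_nonneg (by linarith) hη'.le
  · exact div_nonpos_of_nonpos_of_nonneg (by linarith) hη'.le

lemma blk_zero_right (hη : 0 < η) (hlr : l ≤ r) (h : (r : ℝ) + η ≤ u) : blk l r η u = 0 := by
  have hη' : (0 : ℝ) < η := by exact_mod_cast hη
  have hlr' : (l : ℝ) ≤ r := by exact_mod_cast hlr
  unfold blk
  rw [smoothTransition.one_of_one_le, smoothTransition.one_of_one_le]
  · ring
  · rw [le_div_iff₀ hη']; linarith
  · rw [le_div_iff₀ hη']; linarith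

lemma blk_effSm (hη : 0 < η) : EffSm (blk l r η) := by
  have hη' : (η : ℝ) ≠ 0 := by exact_mod_cast hη.ne'
  have h1 := EffSm.comp_affine (1 / η) ((-l + η) / η) effSm_smoothTransition
  have h2 := EffSm.comp_affine (1 / η) ((-r) / η) effSm_smoothTransition
  have h3 := EffSm.sub h1 h2
  have : blk l r η = fun s => smoothTransition ((((1 / η : ℚ) : ℝ)) * s + (((-l + η) / η : ℚ) : ℝ))
      - smoothTransition ((((1 / η : ℚ) : ℝ)) * s + (((-r) / η : ℚ) : ℝ)) := by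
    funext s
    unfold blk
    push_cast
    congr 2 <;> field_simp <;> ring
  rw [this]; exact h3

end blk

/-- A finite sum of affine functions cut off by smooth blocks. -/
noncomputable def pw {ι : Type*} [Fintype ι] (a b l r : ι → ℚ) (η : ℚ) (u : ℝ) : ℝ :=
  ∑ i, ((a i : ℝ) * u + (b i : ℝ)) * blk (l i) (r i) η u

section pw
variable {ι : Type*} [Fintype ι] {a b l r : ι → ℚ} {η : ℚ}

lemma pw_eval [DecidableEq ι] (hη : 0 < η) (hlr : ∀ i, l i ≤ r i)
    (hsep : ∀ i j, i ≠ j → r i + η ≤ l j ∨ r j + η ≤ l i) {j : ι} {u : ℝ}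
    (h₁ : (l j : ℝ) ≤ u) (h₂ : u ≤ r j) : pw a b l r η u = (a j : ℝ) * u + (b j : ℝ) := by
  unfold pw
  rw [Finset.sum_eq_single j]
  · rw [blk_one hη h₁ h₂, mul_one]
  · intro i _ hij
    rcases hsep i j hij with h | h
    · have h' : (r i : ℝ) + η ≤ l j := by exact_mod_cast h
      rw [blk_zero_right hη (hlr i) (by linarith), mul_zero]
    · have h' : (r j : ℝ) + η ≤ l i := by exact_mod_cast h
      rw [blk_zero_left hη (hlr i) (by linarith), mul_zero]
  · simp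

lemma pw_zero (hη : 0 < η) (hlr : ∀ i, l i ≤ r i) {W : ℝ}
    (hW : ∀ i, -W ≤ (l i : ℝ) - η ∧ (r i : ℝ) + η ≤ W) {u : ℝ} (hu : W ≤ |u|) :
    pw a b l r η u = 0 := by
  unfold pw
  refine Finset.sum_eq_zero (fun i _ => ?_)
  rcases le_abs.1 hu with h | h
  · rw [blk_zero_right hη (hlr i) (by linarith [(hW i).2]), mul_zero]
  · rw [blk_zero_left hη (hlr i) (by linarith [(hW i).1]), mul_zero]

lemma pw_effSm (hη : 0 < η) : EffSm (pw a b l r η) := by
  have : pw a b l r η = fun u => ∑ i, ((a i : ℝ) * (u * blk (l i) (r i) η u)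
      + (b i : ℝ) * blk (l i) (r i) η u) := by
    funext u
    unfold pw
    refine Finset.sum_congr rfl (fun i _ => ?_)
    ring
  rw [this]
  refine EffSm.finset_sum _ (fun i _ => ?_)
  exact EffSm.add (EffSm.rat_mul _ (EffSm.id_mul (blk_effSm hη))) (EffSm.rat_mul _ (blk_effSm hη))

end pw

/-- Good factors of a shear. -/
structure GoodFac (f : ℝ → ℝ) : Prop where
  eff : EffSm f
  per : ∀ s, f (s + 1) = f s

lemma goodFac_one : GoodFac (fun _ => 1) := by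
  refine ⟨?_, fun _ => rfl⟩
  simpa using EffSm.const 1

/-- Periodic function on the torus coordinate given by a function in tape units:
the tape coordinate `u` sits at the torus coordinate `1/2 + ℓ u`. -/
noncomputable def TT (ℓ : ℚ) (F : ℝ → ℝ) : ℝ → ℝ :=
  perExt (fun s => F ((s - 1 / 2) / ℓ))

lemma TT_apply {ℓ : ℚ} (hℓ : 0 < ℓ) (F : ℝ → ℝ) {u : ℝ} (hu : |(ℓ : ℝ) * u| < 1 / 2) :
    TT ℓ F (1 / 2 + ℓ * u) = F u := by
  have hℓ' : (0 : ℝ) < ℓ := by exact_mod_cast hℓ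
  obtain ⟨h1, h2⟩ := abs_lt.1 hu
  unfold TT perExt
  have hfr : Int.fract (1 / 2 + (ℓ : ℝ) * u) = 1 / 2 + (ℓ : ℝ) * u :=
    Int.fract_eq_self.2 ⟨by linarith, by linarith⟩
  rw [hfr]
  show F ((1 / 2 + (ℓ : ℝ) * u - 1 / 2) / ℓ) = F u
  rw [show (1 / 2 + (ℓ : ℝ) * u - 1 / 2) = (ℓ : ℝ) * u by ring, mul_div_cancel_left₀ _ hℓ'.ne']

lemma TT_good {ℓ : ℚ} (hℓ : 0 < ℓ) {F : ℝ → ℝ} (hF : EffSm F) {W : ℝ}
    (hv : ∀ u, W ≤ |u| → F u = 0) (hW : (ℓ : ℝ) * W ≤ 1 / 4) : GoodFac (TT ℓ F) := by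
  have hℓ' : (0 : ℝ) < ℓ := by exact_mod_cast hℓ
  refine ⟨?_, perExt_periodic _⟩
  have h1 := EffSm.comp_affine (1 / ℓ) (-(1 / 2) / ℓ) hF
  have h2 : (fun s : ℝ => F ((((1 / ℓ : ℚ) : ℝ)) * s + ((-(1 / 2) / ℓ : ℚ) : ℝ)))
      = fun s => F ((s - 1 / 2) / ℓ) := by
    funext s
    congr 1
    push_cast
    field_simp
    ring
  rw [h2] at h1
  refine EffSm.perExt (ε := 1 / 4) (by norm_num) h1 (fun s hs => hv _ ?_)
  rw [abs_div, abs_of_pos hℓ', le_div_iff₀ hℓ']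
  rcases hs with hs | hs
  · rw [abs_of_nonpos (by linarith)]
    linarith
  · rw [abs_of_nonneg (by linarith)]
    linarith

/-- The point of the torus at tape coordinates `(x, y, z)`. -/
noncomputable def tpt (ℓ : ℝ) (x y z : ℝ) : R3 := ![1 / 2 + ℓ * x, 1 / 2 + ℓ * y, 1 / 2 + ℓ * z]

/-- Shear in direction `0`. -/
noncomputable def xS (f1 f2 : ℝ → ℝ) : Shear := ⟨0, ![fun _ => 1, f1, f2]⟩
/-- Shear in direction `1`. -/
noncomputable def yS (f0 f2 : ℝ → ℝ) : Shear := ⟨1, ![f0, fun _ => 1, f2]⟩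
/-- Shear in direction `2`. -/
noncomputable def zS (f0 f1 : ℝ → ℝ) : Shear := ⟨2, ![f0, f1, fun _ => 1]⟩

lemma xS_good {f1 f2 : ℝ → ℝ} (h1 : GoodFac f1) (h2 : GoodFac f2) : (xS f1 f2).Good := by
  refine ⟨fun k => ?_, fun k s => ?_, fun s => rfl⟩
  · fin_cases k
    · exact goodFac_one.eff
    · exact h1.eff
    · exact h2.eff
  · fin_cases k
    · rfl
    · exact h1.per s
    · exact h2.per s

lemma yS_good {f0 f2 : ℝ → ℝ} (h0 : GoodFac f0) (h2 : GoodFac f2) : (yS f0 f2).Good := by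
  refine ⟨fun k => ?_, fun k s => ?_, fun s => rfl⟩
  · fin_cases k
    · exact h0.eff
    · exact goodFac_one.eff
    · exact h2.eff
  · fin_cases k
    · exact h0.per s
    · rfl
    · exact h2.per s

lemma zS_good {f0 f1 : ℝ → ℝ} (h0 : GoodFac f0) (h1 : GoodFac f1) : (zS f0 f1).Good := by
  refine ⟨fun k => ?_, fun k s => ?_, fun s => rfl⟩
  · fin_cases k
    · exact h0.eff
    · exact h1.eff
    · exact goodFac_one.eff
  · fin_cases k
    · exact h0.per s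
    · exact h1.per s
    · rfl

lemma xS_map {ℓ : ℝ} {f1 f2 : ℝ → ℝ} {x y z w : ℝ}
    (h : f1 (1 / 2 + ℓ * y) * f2 (1 / 2 + ℓ * z) = ℓ * w) :
    (xS f1 f2).map (tpt ℓ x y z) = tpt ℓ (x + w) y z := by
  have hH : (xS f1 f2).H (tpt ℓ x y z) = ℓ * w := by
    simp only [Shear.H, xS, tpt]
    simpa using h
  funext i
  simp only [Shear.map, hH]
  fin_cases i <;> simp [tpt, xS, unitVec] <;> ring

lemma yS_map {ℓ : ℝ} {f0 f2 : ℝ → ℝ} {x y z w : ℝ}
    (h : f0 (1 / 2 + ℓ * x) * f2 (1 / 2 + ℓ * z) = ℓ * w) :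
    (yS f0 f2).map (tpt ℓ x y z) = tpt ℓ x (y + w) z := by
  have hH : (yS f0 f2).H (tpt ℓ x y z) = ℓ * w := by
    simp only [Shear.H, yS, tpt]
    simpa using h
  funext i
  simp only [Shear.map, hH]
  fin_cases i <;> simp [tpt, yS, unitVec] <;> ring

lemma zS_map {ℓ : ℝ} {f0 f1 : ℝ → ℝ} {x y z w : ℝ}
    (h : f0 (1 / 2 + ℓ * x) * f1 (1 / 2 + ℓ * y) = ℓ * w) :
    (zS f0 f1).map (tpt ℓ x y z) = tpt ℓ x y (z + w) := by
  have hH : (zS f0 f1).H (tpt ℓ x y z) = ℓ * w := by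
    simp only [Shear.H, zS, tpt]
    simpa using h
  funext i
  simp only [Shear.map, hH]
  fin_cases i <;> simp [tpt, zS, unitVec] <;> ring

end Vale.Agent.P113
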