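import Vale.Agent.P113.Defs

/-!
# Reversible tape machines with a permutation table

`π : Equiv.Perm (Q × S)`; a configuration is a state, a tape `ℤ → S` and a head position.
A step: `(q', s') = π (q, tape pos)`, write `s'`, go to `q'`, move according to `mv q'`.
-/

namespace Vale.Agent.P113

/-- Configurations of a reversible tape machine. -/
structure RCfg (Q S : Type) where
  q : Q
  tape : ℤ → S
  pos : ℤ

/-- The head displacement coded by an `Option Bool`. -/
def mvZ : Option Bool → ℤ
  | none => 0
  | some true => 1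
  | some false => -1

variable {Q S : Type}

/-- One step of a reversible tape machine. -/
def rstep (π : Equiv.Perm (Q × S)) (mv : Q → Option Bool) (c : RCfg Q S) : RCfg Q S :=
  let r := π (c.q, c.tape c.pos)
  ⟨r.1, Function.update c.tape c.pos r.2, c.pos + mvZ (mv r.1)⟩

/-- Base-`B` value of the digits of the tape from position `p` to the right. -/
noncomputable def encR (B : ℕ) (d : ℤ → ℕ) (p : ℤ) : ℝ :=
  ∑' k : ℕ, (d (p + k) : ℝ) / (B : ℝ) ^ (k + 1)

/-- Base-`B` value of the digits of the tape from position `p - 1` to the left. -/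
noncomputable def encL (B : ℕ) (d : ℤ → ℕ) (p : ℤ) : ℝ :=
  ∑' k : ℕ, (d (p - 1 - k) : ℝ) / (B : ℝ) ^ (k + 1)

/-- The height in tape units of the state `q`: negative for non-halting states, positive for
halting states. -/
noncomputable def zLevel (H : Q → Prop) (idx : Q → ℕ) (K : ℕ) (q : Q) : ℤ :=
  open Classical in
  (if H q then (idx q : ℤ) + 1 else -((idx q : ℤ) + 1)) * (K : ℤ)

/-- The point of the torus encoding a configuration. -/
noncomputable def encCfg (ℓ : ℝ) (B K : ℕ) (H : Q → Prop) (idx : Q → ℕ) (dig : S → ℕ)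
    (c : RCfg Q S) : R3 :=
  ![1 / 2 + ℓ * encR B (fun i => dig (c.tape i)) c.pos,
    1 / 2 + ℓ * encL B (fun i => dig (c.tape i)) c.pos,
    1 / 2 + ℓ * (zLevel H idx K c.q : ℝ)]

end Vale.Agent.P113
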