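import Vale.Agent.P113.UniqIbp

/-!
# The energy inequality at a fixed time
-/

open Set MeasureTheory
open scoped ContDiff

namespace Vale.Agent.P113

theorem periodic_comp {a : R3 → R3} (pa : SpacePeriodic a) (i : Fin 3) :
    SpacePeriodic (fun y => a y i) := fun x j => by simp only [pa x j]

/-- The transport term has zero mean against a divergence free periodic field. -/
theorem transport_zero {a : R3 → R3} {g : R3 → ℝ} (ha : ContDiff ℝ 1 a) (pa : SpacePeriodic a)
    (da : ∀ x, ∑ i, pd i (fun y => a y i) x = 0) (hg : ContDiff ℝ 1 g) (pg : SpacePeriodic g) :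
    ∫ x in unitBox, g x * ∑ i, a x i * pd i g x = 0 := by
  have haI : ∀ i, ContDiff ℝ 1 (fun y => a y i) := fun i => contDiff_pi.1 ha i
  have paI : ∀ i, SpacePeriodic (fun y => a y i) := fun i => periodic_comp pa i
  have cgd : ∀ i, Continuous (pd i g) := fun i => continuous_pd hg i
  have cad : ∀ i, Continuous (pd i (fun y => a y i)) := fun i => continuous_pd (haI i) i
  have hgd : Differentiable ℝ g := hg.differentiable (by simp)
  have haD : ∀ i, Differentiable ℝ (fun y => a y i) := fun i => (haI i).differentiable (by simp)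
  have key : ∀ i, 2 * ∫ x in unitBox, g x * (a x i * pd i g x)
      = - ∫ x in unitBox, g x * g x * pd i (fun y => a y i) x := by
    intro i
    have h1 := ibp (g := fun x => a x i * g x) (h := g) ((haI i).mul hg) hg
      (fun x j => by simp only [pa x j, pg x j]) pg i
    have h2 : ∀ x, g x * pd i (fun y => a y i * g y) x
        = g x * (a x i * pd i g x) + g x * g x * pd i (fun y => a y i) x := by
      intro x
      rw [pd_mul (haD i x) (hgd x) i]
      ring
    simp only [h2] at h1
    rw [integral_add (f := fun x => g x * (a x i * pd i g x))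
      (g := fun x => g x * g x * pd i (fun y => a y i) x)
      (integrableOn_unitBox (hg.continuous.mul ((haI i).continuous.mul (cgd i))))
      (integrableOn_unitBox ((hg.continuous.mul hg.continuous).mul (cad i)))] at h1
    have h3 : ∫ x in unitBox, a x i * g x * pd i g x
        = ∫ x in unitBox, g x * (a x i * pd i g x) := by
      congr 1; funext x; ring
    rw [h3] at h1
    linarith
  have e1 : ∫ x in unitBox, g x * ∑ i, a x i * pd i g x
      = ∑ i, ∫ x in unitBox, g x * (a x i * pd i g x) := by
    rw [← integral_finsetSum]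
    · congr 1; funext x; rw [Finset.mul_sum]
    · intro i _
      exact integrableOn_unitBox (hg.continuous.mul ((haI i).continuous.mul (cgd i)))
  have e2 : ∑ i, ∫ x in unitBox, g x * g x * pd i (fun y => a y i) x = 0 := by
    rw [← integral_finsetSum]
    · have : ∀ x, ∑ i, g x * g x * pd i (fun y => a y i) x = 0 := by
        intro x; rw [← Finset.mul_sum, da x, mul_zero]
      simp only [this]; simp
    · intro i _
      exact integrableOn_unitBox ((hg.continuous.mul hg.continuous).mul (cad i))
  have e3 : 2 * ∑ i, ∫ x in unitBox, g x * (a x i * pd i g x) = 0 := by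
    rw [Finset.mul_sum]
    simp only [key]
    rw [Finset.sum_neg_distrib, e2, neg_zero]
  rw [e1]
  linarith

/-- A gradient has zero mean against a divergence free periodic field. -/
theorem pressure_zero {w : R3 → R3} {q : R3 → ℝ} (hw : ContDiff ℝ 1 w) (pw : SpacePeriodic w)
    (dw : ∀ x, ∑ i, pd i (fun y => w y i) x = 0) (hq : ContDiff ℝ 1 q) (pq : SpacePeriodic q) :
    ∫ x in unitBox, ∑ k, w x k * pd k q x = 0 := by
  have hwI : ∀ i, ContDiff ℝ 1 (fun y => w y i) := fun i => contDiff_pi.1 hw i
  rw [integral_finsetSum]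
  · simp only [fun k => ibp (hwI k) hq (periodic_comp pw k) pq k]
    rw [Finset.sum_neg_distrib, ← integral_finsetSum]
    · have : ∀ x, ∑ i, q x * pd i (fun y => w y i) x = 0 := by
        intro x; rw [← Finset.mul_sum, dw x, mul_zero]
      simp only [this]; simp
    · intro i _
      exact integrableOn_unitBox (hq.continuous.mul (continuous_pd (hwI i) i))
  · intro k _
    exact integrableOn_unitBox ((hwI k).continuous.mul (continuous_pd hq k))

/-- The Laplacian is nonpositive on periodic functions. -/
theorem laplace_nonpos {g : R3 → ℝ} (hg : ContDiff ℝ 2 g) (pg : SpacePeriodic g) :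
    ∫ x in unitBox, g x * ∑ i, pd i (pd i g) x ≤ 0 := by
  have hg1 : ContDiff ℝ 1 g := hg.of_le (by norm_num)
  have hd : ∀ i, ContDiff ℝ 1 (pd i g) := fun i => by
    apply contDiff_pd (n := 1)
    exact_mod_cast hg
  have e1 : ∫ x in unitBox, g x * ∑ i, pd i (pd i g) x
      = ∑ i, ∫ x in unitBox, g x * pd i (pd i g) x := by
    rw [← integral_finsetSum]
    · congr 1; funext x; rw [Finset.mul_sum]
    · intro i _
      exact integrableOn_unitBox (hg.continuous.mul (continuous_pd (hd i) i))
  rw [e1]
  apply Finset.sum_nonpos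
  intro i _
  rw [ibp hg1 (hd i) pg (periodic_pd pg i) i]
  have : 0 ≤ ∫ x in unitBox, pd i g x * pd i g x :=
    integral_nonneg (fun x => mul_self_nonneg _)
  linarith

theorem quad_bound {w : R3} {c : Fin 3 → Fin 3 → ℝ} {M : ℝ} (hc : ∀ i k, |c i k| ≤ M) :
    -(∑ k, w k * ∑ i, w i * c i k) ≤ 3 * M * ∑ k, w k * w k := by
  have term : ∀ i k, - (w k * (w i * c i k)) ≤ M * ((w k * w k + w i * w i) / 2) := by
    intro i k
    have h0 : 0 ≤ M := (abs_nonneg _).trans (hc i k)
    have h1 : - c i k ≤ M := (neg_le_abs _).trans (hc i k)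
    have h2 : c i k ≤ M := (le_abs_self _).trans (hc i k)
    have h3 : |w k * w i| ≤ (w k * w k + w i * w i) / 2 := by
      rw [abs_le]; constructor <;> nlinarith [sq_nonneg (w k + w i), sq_nonneg (w k - w i)]
    have h4 : - (w k * w i * c i k) ≤ |w k * w i| * M := by
      calc - (w k * w i * c i k) ≤ |w k * w i * c i k| := neg_le_abs _
        _ = |w k * w i| * |c i k| := abs_mul _ _
        _ ≤ |w k * w i| * M := mul_le_mul_of_nonneg_left (hc i k) (abs_nonneg _)
    calc - (w k * (w i * c i k)) = - (w k * w i * c i k) := by ring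
      _ ≤ |w k * w i| * M := h4
      _ ≤ ((w k * w k + w i * w i) / 2) * M := mul_le_mul_of_nonneg_right h3 h0
      _ = M * ((w k * w k + w i * w i) / 2) := by ring
  simp only [Fin.sum_univ_three]
  have t00 := term 0 0
  have t01 := term 0 1
  have t02 := term 0 2
  have t10 := term 1 0
  have t11 := term 1 1
  have t12 := term 1 2
  have t20 := term 2 0
  have t21 := term 2 1
  have t22 := term 2 2
  nlinarith

/-- The energy inequality at a fixed time. -/
theorem energy_fixed {ν M : ℝ} (hν : 0 ≤ ν) {a b D₁ D₂ f : R3 → R3} {P₁ P₂ : R3 → ℝ}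
    (ha : ContDiff ℝ 2 a) (hb : ContDiff ℝ 2 b) (hP₁ : ContDiff ℝ 1 P₁) (hP₂ : ContDiff ℝ 1 P₂)
    (pa : SpacePeriodic a) (pb : SpacePeriodic b)
    (pP₁ : SpacePeriodic P₁) (pP₂ : SpacePeriodic P₂)
    (da : ∀ x, ∑ i, pd i (fun y => a y i) x = 0) (db : ∀ x, ∑ i, pd i (fun y => b y i) x = 0)
    (ma : ∀ x k, D₁ x k + ∑ i, a x i * pd i (fun y => a y k) x
      = - pd k P₁ x + ν * ∑ i, pd i (pd i (fun y => a y k)) x + f x k)
    (mb : ∀ x k, D₂ x k + ∑ i, b x i * pd i (fun y => b y k) x
      = - pd k P₂ x + ν * ∑ i, pd i (pd i (fun y => b y k)) x + f x k)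
    (hM : ∀ x ∈ unitBox, ∀ i k, |pd i (fun y => b y k) x| ≤ M) :
    ∫ x in unitBox, ∑ k, 2 * (a x k - b x k) * (D₁ x k - D₂ x k)
      ≤ 6 * M * ∫ x in unitBox, ∑ k, (a x k - b x k) * (a x k - b x k) := by
  -- components
  have haI : ∀ i, ContDiff ℝ 2 (fun y => a y i) := fun i => contDiff_pi.1 ha i
  have hbI : ∀ i, ContDiff ℝ 2 (fun y => b y i) := fun i => contDiff_pi.1 hb i
  have haD : ∀ i, Differentiable ℝ (fun y => a y i) := fun i => (haI i).differentiable (by simp)
  have hbD : ∀ i, Differentiable ℝ (fun y => b y i) := fun i => (hbI i).differentiable (by simp)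
  -- the difference
  set w : R3 → R3 := fun y k => a y k - b y k with hw_def
  have hwI : ∀ k, ContDiff ℝ 2 (fun y => w y k) := fun k => (haI k).sub (hbI k)
  have hw : ContDiff ℝ 2 w := contDiff_pi.2 hwI
  have pw : SpacePeriodic w := fun x j => by
    funext k; simp only [hw_def, pa x j, pb x j]
  set q : R3 → ℝ := fun y => P₁ y - P₂ y with hq_def
  have hq : ContDiff ℝ 1 q := hP₁.sub hP₂
  have pq : SpacePeriodic q := fun x j => by simp only [hq_def, pP₁ x j, pP₂ x j]
  have hq1 : ∀ k x, pd k q x = pd k P₁ x - pd k P₂ x := fun k x =>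
    pd_sub (hP₁.differentiable (by simp) x) (hP₂.differentiable (by simp) x) k
  have hw1 : ∀ i k x, pd i (fun y => w y k) x
      = pd i (fun y => a y k) x - pd i (fun y => b y k) x := fun i k x =>
    pd_sub (haD k x) (hbD k x) i
  have hw2 : ∀ i k x, pd i (pd i (fun y => w y k)) x
      = pd i (pd i (fun y => a y k)) x - pd i (pd i (fun y => b y k)) x := by
    intro i k x
    have e : pd i (fun y => w y k)
        = fun z => pd i (fun y => a y k) z - pd i (fun y => b y k) z := funext (hw1 i k)
    rw [e]
    have c1 : ContDiff ℝ 1 (pd i (fun y => a y k)) := by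
      apply contDiff_pd (n := 1); exact_mod_cast haI k
    have c2 : ContDiff ℝ 1 (pd i (fun y => b y k)) := by
      apply contDiff_pd (n := 1); exact_mod_cast hbI k
    exact pd_sub (c1.differentiable (by simp) x) (c2.differentiable (by simp) x) i
  have dw : ∀ x, ∑ i, pd i (fun y => w y i) x = 0 := by
    intro x
    simp only [hw1]
    rw [Finset.sum_sub_distrib, da x, db x, sub_zero]
  -- the pointwise identity
  have hpt : ∀ x, ∑ k, 2 * w x k * (D₁ x k - D₂ x k)
      = - 2 * ∑ k, w x k * ∑ i, a x i * pd i (fun y => w y k) x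
        - 2 * ∑ k, w x k * ∑ i, w x i * pd i (fun y => b y k) x
        - 2 * ∑ k, w x k * pd k q x
        + 2 * ν * ∑ k, w x k * ∑ i, pd i (pd i (fun y => w y k)) x := by
    intro x
    have hk : ∀ k, D₁ x k - D₂ x k
        = - ∑ i, a x i * pd i (fun y => w y k) x - ∑ i, w x i * pd i (fun y => b y k) x
          - pd k q x + ν * ∑ i, pd i (pd i (fun y => w y k)) x := by
      intro k
      have e1 := ma x k
      have e2 := mb x k
      have hwx : ∀ i, w x i = a x i - b x i := fun i => rfl
      simp only [Fin.sum_univ_three] at e1 e2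
      simp only [hw1, hw2, hq1, Fin.sum_univ_three, hwx]
      linear_combination e1 - e2
    simp only [hk, Fin.sum_univ_three]
    ring
  -- continuity
  have cw : ∀ k, Continuous (fun y => w y k) := fun k => (hwI k).continuous
  have ca : ∀ k, Continuous (fun y => a y k) := fun k => (haI k).continuous
  have hwI1 : ∀ k, ContDiff ℝ 1 (fun y => w y k) := fun k => (hwI k).of_le (by norm_num)
  have hbI1 : ∀ k, ContDiff ℝ 1 (fun y => b y k) := fun k => (hbI k).of_le (by norm_num)
  have cwd : ∀ i k, Continuous (pd i (fun y => w y k)) := fun i k => continuous_pd (hwI1 k) i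
  have cbd : ∀ i k, Continuous (pd i (fun y => b y k)) := fun i k => continuous_pd (hbI1 k) i
  have cwdd : ∀ i k, Continuous (pd i (pd i (fun y => w y k))) := fun i k => by
    apply continuous_pd
    apply contDiff_pd (n := 1); exact_mod_cast hwI k
  have cq : ∀ k, Continuous (pd k q) := fun k => continuous_pd hq k
  have hw1' : ContDiff ℝ 1 w := hw.of_le (by norm_num)
  have ha1' : ContDiff ℝ 1 a := ha.of_le (by norm_num)
  -- the integrals
  have I1 : ∫ x in unitBox, ∑ k, w x k * ∑ i, a x i * pd i (fun y => w y k) x = 0 := by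
    rw [integral_finsetSum]
    · apply Finset.sum_eq_zero
      intro k _
      exact transport_zero ha1' pa da (hwI1 k) (periodic_comp pw k)
    · intro k _
      exact integrableOn_unitBox ((cw k).mul
        (continuous_finsetSum _ (fun i _ => (ca i).mul (cwd i k))))
  have I2 : ∫ x in unitBox, ∑ k, w x k * pd k q x = 0 := pressure_zero hw1' pw dw hq pq
  have I3 : ∫ x in unitBox, ∑ k, w x k * ∑ i, pd i (pd i (fun y => w y k)) x ≤ 0 := by
    rw [integral_finsetSum]
    · apply Finset.sum_nonpos
      intro k _
      exact laplace_nonpos (hwI k) (periodic_comp pw k)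
    · intro k _
      exact integrableOn_unitBox ((cw k).mul
        (continuous_finsetSum _ (fun i _ => cwdd i k)))
  have cT1 : Continuous (fun x => ∑ k, w x k * ∑ i, a x i * pd i (fun y => w y k) x) :=
    continuous_finsetSum _ (fun k _ => (cw k).mul
      (continuous_finsetSum _ (fun i _ => (ca i).mul (cwd i k))))
  have cT4 : Continuous (fun x => ∑ k, w x k * ∑ i, w x i * pd i (fun y => b y k) x) :=
    continuous_finsetSum _ (fun k _ => (cw k).mul
      (continuous_finsetSum _ (fun i _ => (cw i).mul (cbd i k))))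
  have cT2 : Continuous (fun x => ∑ k, w x k * pd k q x) :=
    continuous_finsetSum _ (fun k _ => (cw k).mul (cq k))
  have cT3 : Continuous (fun x => ∑ k, w x k * ∑ i, pd i (pd i (fun y => w y k)) x) :=
    continuous_finsetSum _ (fun k _ => (cw k).mul
      (continuous_finsetSum _ (fun i _ => cwdd i k)))
  have cS : Continuous (fun x => ∑ k, w x k * w x k) :=
    continuous_finsetSum _ (fun k _ => (cw k).mul (cw k))
  have I4 : - ∫ x in unitBox, ∑ k, w x k * ∑ i, w x i * pd i (fun y => b y k) x
      ≤ 3 * M * ∫ x in unitBox, ∑ k, w x k * w x k := by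
    rw [← integral_neg, ← integral_const_mul]
    apply setIntegral_mono_on (integrableOn_unitBox cT4.neg)
      (integrableOn_unitBox (continuous_const.mul cS)) measurableSet_Icc
    intro x hx
    exact quad_bound (fun i k => hM x hx i k)
  -- assemble
  have e0 : ∫ x in unitBox, ∑ k, 2 * (a x k - b x k) * (D₁ x k - D₂ x k)
      = - 2 * (∫ x in unitBox, ∑ k, w x k * ∑ i, a x i * pd i (fun y => w y k) x)
        - 2 * (∫ x in unitBox, ∑ k, w x k * ∑ i, w x i * pd i (fun y => b y k) x)
        - 2 * (∫ x in unitBox, ∑ k, w x k * pd k q x)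
        + 2 * ν * ∫ x in unitBox, ∑ k, w x k * ∑ i, pd i (pd i (fun y => w y k)) x := by
    simp only [hw_def] at hpt ⊢
    simp only [hpt]
    rw [integral_add, integral_sub, integral_sub, integral_const_mul, integral_const_mul,
      integral_const_mul, integral_const_mul]
    · exact integrableOn_unitBox (continuous_const.mul cT1)
    · exact integrableOn_unitBox (continuous_const.mul cT4)
    · exact integrableOn_unitBox ((continuous_const.mul cT1).sub (continuous_const.mul cT4))
    · exact integrableOn_unitBox (continuous_const.mul cT2)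
    · exact integrableOn_unitBox (((continuous_const.mul cT1).sub
        (continuous_const.mul cT4)).sub (continuous_const.mul cT2))
    · exact integrableOn_unitBox (continuous_const.mul cT3)
  rw [e0, I1, I2]
  have : 2 * ν * ∫ x in unitBox, ∑ k, w x k * ∑ i, pd i (pd i (fun y => w y k)) x ≤ 0 :=
    mul_nonpos_of_nonneg_of_nonpos (by positivity) I3
  simp only [hw_def] at I4 this ⊢
  linarith

end Vale.Agent.P113
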