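import Vale.Agent.P113.Defs

/-!
# Integration by parts on the torus

Elementary calculus for the coordinate derivative `pd` on periodic functions.
-/

open Set MeasureTheory
open scoped ContDiff

namespace Vale.Agent.P113

theorem pd_eq_fderiv {g : R3 → ℝ} {x : R3} (h : DifferentiableAt ℝ g x) (i : Fin 3) :
    pd i g x = fderiv ℝ g x (unitVec i) := h.lineDeriv_eq_fderiv

theorem pd_eq_fun {g : R3 → ℝ} (h : Differentiable ℝ g) (i : Fin 3) :
    pd i g = fun x => fderiv ℝ g x (unitVec i) := by
  funext x; exact pd_eq_fderiv (h x) i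

theorem contDiff_pd {n : ℕ∞} {g : R3 → ℝ} (h : ContDiff ℝ (n + 1 : ℕ∞) g) (i : Fin 3) :
    ContDiff ℝ n (pd i g) := by
  have hd : Differentiable ℝ g := h.differentiable (by simp)
  rw [pd_eq_fun hd]
  have h1 : ContDiff ℝ n (fderiv ℝ g) := h.fderiv_right (by
    exact_mod_cast le_rfl)
  exact h1.clm_apply contDiff_const

theorem continuous_pd {g : R3 → ℝ} (h : ContDiff ℝ 1 g) (i : Fin 3) : Continuous (pd i g) := by
  have hd : Differentiable ℝ g := h.differentiable (by simp)
  rw [pd_eq_fun hd]
  exact (h.continuous_fderiv (by simp)).clm_apply continuous_const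

theorem periodic_pd {g : R3 → ℝ} (h : SpacePeriodic g) (i : Fin 3) : SpacePeriodic (pd i g) := by
  intro x j
  unfold pd lineDeriv
  congr 1
  funext t
  rw [show x + unitVec j + t • unitVec i = (x + t • unitVec i) + unitVec j by abel]
  exact h _ _

theorem pd_add {g h : R3 → ℝ} {x : R3} (hg : DifferentiableAt ℝ g x) (hh : DifferentiableAt ℝ h x)
    (i : Fin 3) : pd i (fun y => g y + h y) x = pd i g x + pd i h x := by
  rw [pd_eq_fderiv (hg.fun_add hh), pd_eq_fderiv hg, pd_eq_fderiv hh, fderiv_fun_add hg hh]
  rfl

theorem pd_sub {g h : R3 → ℝ} {x : R3} (hg : DifferentiableAt ℝ g x) (hh : DifferentiableAt ℝ h x)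
    (i : Fin 3) : pd i (fun y => g y - h y) x = pd i g x - pd i h x := by
  rw [pd_eq_fderiv (hg.fun_sub hh), pd_eq_fderiv hg, pd_eq_fderiv hh, fderiv_fun_sub hg hh]
  rfl

theorem pd_mul {g h : R3 → ℝ} {x : R3} (hg : DifferentiableAt ℝ g x) (hh : DifferentiableAt ℝ h x)
    (i : Fin 3) : pd i (fun y => g y * h y) x = g x * pd i h x + h x * pd i g x := by
  rw [pd_eq_fderiv (hg.fun_mul hh), pd_eq_fderiv hg, pd_eq_fderiv hh, fderiv_fun_mul hg hh]
  simp

theorem unitBox_eq : unitBox = Icc (0 : R3) 1 := rfl

theorem integrableOn_unitBox {g : R3 → ℝ} (h : Continuous g) : IntegrableOn g unitBox :=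
  h.integrableOn_Icc

/-- The mean of a coordinate derivative of a periodic function vanishes. -/
theorem integral_pd_eq_zero {g : R3 → ℝ} (hg : ContDiff ℝ 1 g) (hper : SpacePeriodic g)
    (i : Fin 3) : ∫ x in unitBox, pd i g x = 0 := by
  classical
  have hdiff : Differentiable ℝ g := hg.differentiable (by simp)
  have hcont : Continuous (pd i g) := continuous_pd hg i
  have key := MeasureTheory.integral_divergence_of_hasFDerivAt_off_countable' (n := 2) (E := ℝ)
    (a := (0 : R3)) (b := (1 : R3)) (by
      intro j; simp)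
    (fun j => if j = i then g else 0) (fun j x => if j = i then fderiv ℝ g x else 0) ∅
    Set.countable_empty
    (by
      intro j
      by_cases hj : j = i
      · simp only [hj, if_true]; exact hg.continuous.continuousOn
      · simp only [hj, if_false]; exact continuousOn_const)
    (by
      intro x _ j
      by_cases hj : j = i
      · simp only [hj, if_true]; exact (hdiff x).hasFDerivAt
      · simp only [hj, if_false]; exact hasFDerivAt_const _ _)
    (by
      have : (fun x : Fin 3 → ℝ => ∑ j, (if j = i then fderiv ℝ g x else 0)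
          ((Pi.single j 1 : Fin 3 → ℝ))) = pd i g := by
        funext x
        rw [pd_eq_fderiv (hdiff x), Finset.sum_eq_single i]
        · simp [unitVec]
        · intro b _ hb; simp [hb]
        · simp
      rw [this]
      exact hcont.integrableOn_Icc)
  have h1 : (fun x : Fin 3 → ℝ => ∑ j, (if j = i then fderiv ℝ g x else 0)
      ((Pi.single j 1 : Fin 3 → ℝ))) = pd i g := by
    funext x
    rw [pd_eq_fderiv (hdiff x), Finset.sum_eq_single i]
    · simp [unitVec]
    · intro b _ hb; simp [hb]
    · simp
  simp only [h1] at key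
  rw [unitBox_eq, key]
  apply Finset.sum_eq_zero
  intro j _
  by_cases hj : j = i
  · subst hj
    simp only [if_true]
    rw [sub_eq_zero]
    apply MeasureTheory.integral_congr_ae
    filter_upwards with y
    have : (Fin.insertNth j ((1 : R3) j) y : Fin 3 → ℝ) = Fin.insertNth j ((0 : R3) j) y + unitVec j := by
      funext m
      refine Fin.succAboveCases j ?_ (fun m' => ?_) m
      · simp [unitVec]
      · simp [unitVec, Fin.succAbove_ne]
    rw [this]
    exact hper _ _
  · simp [hj]

/-- Integration by parts on the torus. -/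
theorem ibp {g h : R3 → ℝ} (hg : ContDiff ℝ 1 g) (hh : ContDiff ℝ 1 h)
    (pg : SpacePeriodic g) (ph : SpacePeriodic h) (i : Fin 3) :
    ∫ x in unitBox, g x * pd i h x = - ∫ x in unitBox, h x * pd i g x := by
  have hgd : Differentiable ℝ g := hg.differentiable (by simp)
  have hhd : Differentiable ℝ h := hh.differentiable (by simp)
  have hmul : ContDiff ℝ 1 (fun y => g y * h y) := hg.mul hh
  have hp : SpacePeriodic (fun y => g y * h y) := by
    intro x j; simp [pg x j, ph x j]
  have h0 := integral_pd_eq_zero hmul hp i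
  have h1 : ∀ x, pd i (fun y => g y * h y) x = g x * pd i h x + h x * pd i g x :=
    fun x => pd_mul (hgd x) (hhd x) i
  simp only [h1] at h0
  rw [integral_add (f := fun x => g x * pd i h x) (g := fun x => h x * pd i g x)
    (integrableOn_unitBox (hg.continuous.mul (continuous_pd hh i)))
    (integrableOn_unitBox (hh.continuous.mul (continuous_pd hg i)))] at h0
  linarith

end Vale.Agent.P113
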